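import Vale.Agent.P231.WR.Kap
import Vale.Agent.P231.H584.Flow
import Vale.Agent.P231.WD.FirstVar

/-!
# P231, stage 1, block F2 (part 4): the transport of pairs along the half period of the geodesic
flow, and the antisymmetry of the sphere integrals
-/

set_option maxSynthPendingDepth 3
set_option linter.unusedSectionVars false
set_option linter.unusedVariables false

open Bundle Manifold Set Filter Module MeasureTheory
open scoped ContDiff Manifold Topology

namespace Vale.Agent.P231.WR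

noncomputable section

open Vale.Agent.P234 Vale.Agent.P231 Vale.Agent.P231.Fm Vale.Agent.P231.W

/-! ### affine changes of time -/

section Time

variable {X Y : Type*} {D : Dif X} {D' : Dif Y}

/-- affine change of time -/
theorem map_aff (a c : ℝ) : (D.prod (Dif.lin ℝ)).Map (D.prod (Dif.lin ℝ))
    (fun p : X × ℝ => (p.1, a + c * p.2)) := fun {E} _ _ _ {u x} h =>
  ⟨h.1, Sm.comp (f := fun t : ℝ => a + c * t) (g := fun y => (u y).2)
    (Sm.of_contDiff (contDiff_const.add (contDiff_const.mul contDiff_id)) _) h.2⟩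

/-- integration over the orbit after an affine change of time -/
theorem KT_aff_val {E : Type} [NormedAddCommGroup E] [NormedSpace ℝ E] [FiniteDimensional ℝ E]
    (L a c : ℝ) (w : Form (D.prod (Dif.lin ℝ))) {u : E → X} {x : E} (h : D.At u x) :
    (KT L (Form.pull (fun p : X × ℝ => (p.1, a + c * p.2)) (map_aff a c) w)).val u x =
      ∫ t in a..(a + c * L), H584.co w u x t := by
  rw [H584.KT_val _ _ h]
  have h1 : ∀ t : ℝ, H584.co (Form.pull (fun p : X × ℝ => (p.1, a + c * p.2)) (map_aff a c) w)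
      u x t = c • H584.co w u x (a + c * t) := fun t => by
    rw [H584.co, Form.pull_val _ _ (Form.cyl_at h t)]
    have h2 := H584.co_shear w (u := u) (g := fun y : E => y) (a := fun _ => a) (x := x) c h
      (Sm.of_contDiff contDiff_id x) (Sm.of_contDiff contDiff_const x) t
    have h3 : fderiv ℝ (fun y : E => y) x = ContinuousLinearMap.id ℝ E := fderiv_fun_id
    rw [h3, Fm.pull_id] at h2
    exact h2
  simp only [h1]
  rw [intervalIntegral.integral_smul]
  have h4 := intervalIntegral.smul_integral_comp_mul_add (f := H584.co w u x) (a := 0) (b := L) c a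
  rw [mul_zero, zero_add, add_comm (c * L) a] at h4
  rw [← h4]
  simp only [add_comm a]

/-- naturality of the integration over the orbits -/
theorem KT_nat {f : X → Y} (hf : D.Map D' f) (c : ℝ) (w : Form (D'.prod (Dif.lin ℝ))) :
    Form.pull f hf (KT c w) =
      KT c (Form.pull (fun p : X × ℝ => (f p.1, p.2)) (H584.map_cyl hf) w) := by
  rw [KT, KT, ← H584.K_nat hf]
  congr 1
  have h0 : (D.prod (Dif.lin ℝ)).Map (D'.prod (Dif.lin ℝ))
      (fun p : X × ℝ => (f p.1, c * p.2)) := fun {E} _ _ _ {u x} h =>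
    map_scale c (H584.map_cyl hf h)
  refine (H584.pull_pull (k := fun p : X × ℝ => (f p.1, c * p.2)) (H584.map_cyl hf)
    (map_scale c) h0 (fun p => rfl) w).trans ?_
  exact (H584.pull_pull (k := fun p : X × ℝ => (f p.1, c * p.2)) (map_scale c)
    (H584.map_cyl hf) h0 (fun p => rfl) w).symm

end Time

variable {E : Type*} [NormedAddCommGroup E] [NormedSpace ℝ E]
  {M : Type*} [MetricSpace M] [ChartedSpace E M]
  [RiemannianBundle (fun x : M => TangentSpace 𝓘(ℝ, E) x)]
  {e : ∀ x : M, TangentSpace 𝓘(ℝ, E) x → M}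

variable [FiniteDimensional ℝ E] [IsManifold 𝓘(ℝ, E) ∞ M]
  [IsContMDiffRiemannianBundle 𝓘(ℝ, E) ∞ E (fun x : M => TangentSpace 𝓘(ℝ, E) x)]
  [CompactSpace M] [ConnectedSpace M] [IsRiemannianManifold 𝓘(ℝ, E) M]

/-- the arrival velocity is the linear transport of the plane -/
theorem vel_eq_Tt (F : Facts e) {D : ℝ} (hD : 0 < D) (hB : InjGE e D)
    (hdiam : ∀ p q : M, dist p q ≤ D) {x y : M} (hxy : dist x y = D)
    {u : TangentSpace 𝓘(ℝ, E) x} (hu : u ∈ Lk e D y x) (hu' : u ∈ H703.Pl e D y x) :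
    (vel e x (u : E) D : E) =
      (WD2.Tt F hD hB hdiam hxy ⟨u, hu'⟩ : TangentSpace 𝓘(ℝ, E) y) := by
  obtain ⟨hu1, rfl⟩ := hu
  let b : TangentSpace 𝓘(ℝ, E) (e x (D • u)) := vel (E := E) e x u D
  have h1 : ‖b‖ = 1 := (nm_vel F x (u : E) D).trans hu1
  refine (WD2.Tt_eq F hD hB hdiam hxy (u := ⟨u, hu'⟩) (b := b) h1 (fun s => ?_) hu1).symm
  have h2 := gam_flow F x (u : E) D (s - D)
  rw [add_sub_cancel] at h2
  exact h2.symm

/-- the arrival velocities of combinations -/
theorem vel_comb (F : Facts e) {D : ℝ} (hD : 0 < D) (hB : InjGE e D)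
    (hdiam : ∀ p q : M, dist p q ≤ D) {x y : M} (hxy : dist x y = D)
    {u w : TangentSpace 𝓘(ℝ, E) x} (hu : u ∈ Lk e D y x) (hw : w ∈ Lk e D y x) {a b : ℝ}
    (hz : a • u + b • w ∈ Lk e D y x) :
    vel e x ((a • u + b • w : TangentSpace 𝓘(ℝ, E) x) : E) D =
      a • vel e x (u : E) D + b • vel e x (w : E) D := by
  have hu' := H703.Lk_subset_Pl e D _ _ hu
  have hw' := H703.Lk_subset_Pl e D _ _ hw
  have hz' := H703.Lk_subset_Pl e D _ _ hz
  rw [vel_eq_Tt F hD hB hdiam hxy hz hz', vel_eq_Tt F hD hB hdiam hxy hu hu',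
    vel_eq_Tt F hD hB hdiam hxy hw hw']
  have h1 : (⟨a • u + b • w, hz'⟩ : H703.Pl e D y x) =
      a • (⟨u, hu'⟩ : H703.Pl e D y x) + b • ⟨w, hw'⟩ := rfl
  rw [h1, map_add, map_smul, map_smul]
  rfl

/-- the arrival velocities have the same inner product -/
theorem vel_inner (F : Facts e) {D : ℝ} (hD : 0 < D) (hB : InjGE e D)
    (hdiam : ∀ p q : M, dist p q ≤ D) {x y : M} (hxy : dist x y = D)
    {u w : TangentSpace 𝓘(ℝ, E) x} (hu : u ∈ Lk e D y x) (hw : w ∈ Lk e D y x) :
    ip y (vel e x (u : E) D) (vel e x (w : E) D) = inner ℝ u w := by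
  have hu' := H703.Lk_subset_Pl e D _ _ hu
  have hw' := H703.Lk_subset_Pl e D _ _ hw
  rw [vel_eq_Tt F hD hB hdiam hxy hu hu', vel_eq_Tt F hD hB hdiam hxy hw hw']
  exact (WD2.Tt F hD hB hdiam hxy).inner_map_map ⟨u, hu'⟩ ⟨w, hw'⟩

theorem dist_foot_bar (F : Facts e) {D : ℝ} (hD : 0 < D) (hB : InjGE e D) (v : UT E M) :
    dist (foot v) (bar e D v) = D := dist_bar F hD hB v

theorem vel_w {D : ℝ} {v w : UT E M} (h : IsL e D v w) :
    vel e (foot w) (vec' w) D = vel e (foot v) (vec' w) D := by rw [h.foot_eq]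

theorem bar_phi (F : Facts e) {D : ℝ} (hD : 0 < D) (hB : InjGE e D)
    (hdiam : ∀ p q : M, dist p q ≤ D) (v : UT E M) : bar e D (phi F (v, D)) = foot v := by
  rw [bar, gm_phi, ← foot_phi F (v, D + D), ← two_mul, phi_per F hD hB hdiam]

/-- transported pairs are pairs -/
theorem isL_Th (F : Facts e) {D : ℝ} (hD : 0 < D) (hB : InjGE e D)
    (hdiam : ∀ p q : M, dist p q ≤ D) {v w : UT E M} (h : IsL e D v w) :
    IsL e D (phi F (v, D)) (phi F (w, D)) where
  foot_eq := h.bar_eq
  orth := by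
    rw [foot_phi, vec'_phi, vec'_phi, vel_w h]
    exact (vel_inner F hD hB hdiam (dist_foot_bar F hD hB v) (mem_Lk_self D v) h.mem_Lk).trans
      h.orth
  bar_eq := by rw [bar_phi F hD hB hdiam, bar_phi F hD hB hdiam, h.foot_eq]

/-- transport of pairs along half of the geodesic flow -/
def Th (F : Facts e) {D : ℝ} (hD : 0 < D) (hB : InjGE e D)
    (hdiam : ∀ p q : M, dist p q ≤ D) (p : Pr e D) : Pr e D :=
  ⟨(phi F (p.v, D), phi F (p.w, D)), isL_Th F hD hB hdiam p.isL⟩

@[simp] theorem Th_v (F : Facts e) {D : ℝ} (hD : 0 < D) (hB : InjGE e D)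
    (hdiam : ∀ p q : M, dist p q ≤ D) (p : Pr e D) :
    (Th F hD hB hdiam p).v = phi F (p.v, D) := rfl

@[simp] theorem Th_w (F : Facts e) {D : ℝ} (hD : 0 < D) (hB : InjGE e D)
    (hdiam : ∀ p q : M, dist p q ≤ D) (p : Pr e D) :
    (Th F hD hB hdiam p).w = phi F (p.w, D) := rfl

theorem map_phiD (F : Facts e) (t : ℝ) : (dUT E M).Map (dUT E M) (fun v => phi F (v, t)) :=
  H584.map_at (map_phi F) t

theorem map_Th (F : Facts e) {D : ℝ} (hD : 0 < D) (hB : InjGE e D)
    (hdiam : ∀ p q : M, dist p q ≤ D) : (dPr e D).Map (dPr e D) (Th F hD hB hdiam) :=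
  fun h => ⟨map_phiD F D h.1, map_phiD F D h.2⟩

/-- the half period of the flow commutes with the rotation -/
theorem phi_rv (F : Facts e) {D : ℝ} (hD : 0 < D) (hB : InjGE e D)
    (hdiam : ∀ p q : M, dist p q ≤ D) (p : Pr e D) (t : ℝ) :
    phi F (rv p t, D) = rv (Th F hD hB hdiam p) t := by
  refine mk_congr (bar_rv F hD hB hdiam p t) ?_
  rw [foot_rv, vec'_rv, Th_v, Th_w, vec'_phi, vec'_phi, vel_w p.isL]
  exact vel_comb F hD hB hdiam (dist_foot_bar F hD hB p.v) (mem_Lk_self D p.v) p.isL.mem_Lk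
    (p.isL.comb F hD hB hdiam (Real.cos_sq_add_sin_sq t))

/-! ### reversal of the time -/

theorem gm_ng (v : UT E M) (t : ℝ) : gm e (ng v, t) = gm e (v, -t) := by
  change e (foot v) (t • (-vec' v : E) : E) = e (foot v) ((-t) • vec' v : E)
  congr 1
  change t • (-vec' v) = (-t) • vec' v
  rw [smul_neg, neg_smul]

/-- the form `B₀`: integral of `F` over the minimal geodesic -/
def B0 (F : Facts e) (D : ℝ) (G : Form (dM E M)) : Form (dUT E M) :=
  KT D (Form.pull (gm e) (map_gm F) G)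

theorem gm_periodic (F : Facts e) {D : ℝ} (hD : 0 < D) (hB : InjGE e D)
    (hdiam : ∀ p q : M, dist p q ≤ D) (G : Form (dM E M)) :
    Form.pull (fun p : UT E M × ℝ => (p.1, p.2 + 2 * D)) (H584.map_trans (2 * D))
      (Form.pull (gm e) (map_gm F) G) = Form.pull (gm e) (map_gm F) G :=
  H584.pull_pull (k := gm e) (H584.map_trans (2 * D)) (map_gm F) (map_gm F) (fun p => by
    rw [add_comm p.2, ← gm_phi F, phi_per F hD hB hdiam]) G

/-- reversing the geodesics -/
theorem pull_phi_B0 (F : Facts e) {D : ℝ} (hD : 0 < D) (hB : InjGE e D)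
    (hdiam : ∀ p q : M, dist p q ≤ D) (G : Form (dM E M)) :
    Form.pull (fun v => phi F (v, D)) (map_phiD F D) (B0 F D G) =
      -Form.pull ng map_ng (B0 F D G) := by
  set w := Form.pull (gm e) (map_gm F) G with hw
  have h1 : Form.pull (fun v => phi F (v, D)) (map_phiD F D) (B0 F D G) =
      KT D (Form.pull (fun p : UT E M × ℝ => (p.1, D + 1 * p.2)) (map_aff D 1) w) := by
    rw [B0, KT_nat]
    congr 1
    refine (H584.pull_pull (k := fun p : UT E M × ℝ => gm e (phi F (p.1, D), p.2)) _ _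
      (fun {E} _ _ _ {u x} h => map_gm F (H584.map_cyl (map_phiD F D) h)) (fun p => rfl) G).trans ?_
    refine (H584.pull_pull (k := fun p : UT E M × ℝ => gm e (phi F (p.1, D), p.2)) _ _ _
      (fun p => ?_) G).symm
    rw [gm_phi, one_mul]
  have h2 : Form.pull ng map_ng (B0 F D G) =
      KT D (Form.pull (fun p : UT E M × ℝ => (p.1, 0 + (-1) * p.2)) (map_aff 0 (-1)) w) := by
    rw [B0, KT_nat]
    congr 1
    refine (H584.pull_pull (k := fun p : UT E M × ℝ => gm e (ng p.1, p.2)) _ _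
      (fun {E} _ _ _ {u x} h => map_gm F (H584.map_cyl map_ng h)) (fun p => rfl) G).trans ?_
    refine (H584.pull_pull (k := fun p : UT E M × ℝ => gm e (ng p.1, p.2)) _ _ _
      (fun p => ?_) G).symm
    rw [gm_ng, zero_add, neg_one_mul]
  rw [h1, h2]
  refine Form.ext_val fun E' _ _ _ u x h => ?_
  rw [Form.neg_val, KT_aff_val _ _ _ _ h, KT_aff_val _ _ _ _ h]
  have hper := H584.co_periodic (gm_periodic F hD hB hdiam G) h
  have h3 := intervalIntegral.integral_comp_add_right (a := -D) (b := 0)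
    (H584.co w u x) (2 * D)
  have h4 : ∀ t, H584.co w u x (t + 2 * D) = H584.co w u x t := hper
  simp only [h4] at h3
  rw [one_mul, zero_add, neg_one_mul, ← intervalIntegral.integral_symm, h3]
  congr 1 <;> ring

/-- transport of the rotation integrals -/
theorem pull_Th_KT (F : Facts e) {D : ℝ} (hD : 0 < D) (hB : InjGE e D)
    (hdiam : ∀ p q : M, dist p q ≤ D) {circ : Pr e D × ℝ → UT E M}
    (hcirc : ((dPr e D).prod (Dif.lin ℝ)).Map (dUT E M) circ) (hc : ∀ q, circ q = rv q.1 q.2)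
    {b : Form (dUT E M)}
    (hb : Form.pull (fun v => phi F (v, D)) (map_phiD F D) b = -Form.pull ng map_ng b) :
    Form.pull (Th F hD hB hdiam) (map_Th F hD hB hdiam)
      (KT (2 * Real.pi) (Form.pull circ hcirc b)) =
      -KT (2 * Real.pi) (Form.pull circ hcirc b) := by
  set w := Form.pull circ hcirc b with hw
  have h1 : Form.pull (Th F hD hB hdiam) (map_Th F hD hB hdiam) (KT (2 * Real.pi) w) =
      KT (2 * Real.pi) (Form.pull circ hcirc
        (Form.pull (fun v => phi F (v, D)) (map_phiD F D) b)) := by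
    rw [KT_nat]
    congr 1
    have h2 : ((dPr e D).prod (Dif.lin ℝ)).Map (dUT E M) (fun q => phi F (circ q, D)) :=
      fun {E} _ _ _ {u x} h => map_phiD F D (hcirc h)
    refine (H584.pull_pull (k := fun q => phi F (circ q, D)) _ _ h2 (fun q => ?_) b).trans
      (H584.pull_pull (k := fun q => phi F (circ q, D)) hcirc (map_phiD F D) h2
        (fun q => rfl) b).symm
    rw [hc, hc, phi_rv F hD hB hdiam]
  have hper : Form.pull (fun p : Pr e D × ℝ => (p.1, p.2 + 2 * Real.pi))
      (H584.map_trans (2 * Real.pi)) w = w :=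
    H584.pull_pull (k := circ) _ hcirc hcirc (fun p => by
      rw [hc, hc]
      refine mk_congr rfl ?_
      simp only [Real.cos_add_two_pi, Real.sin_add_two_pi]) b
  have h3 : Form.pull circ hcirc (Form.pull ng map_ng b) =
      Form.pull (fun p : Pr e D × ℝ => (p.1, Real.pi + 1 * p.2)) (map_aff Real.pi 1) w := by
    have h4 : ((dPr e D).prod (Dif.lin ℝ)).Map (dUT E M) (fun q => ng (circ q)) :=
      fun {E} _ _ _ {u x} h => map_ng (hcirc h)
    refine (H584.pull_pull (k := fun q => ng (circ q)) hcirc map_ng h4 (fun q => rfl) b).trans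
      (H584.pull_pull (k := fun q => ng (circ q)) _ hcirc h4 (fun q => ?_) b).symm
    rw [hc, hc]
    refine mk_congr rfl ?_
    rw [one_mul, add_comm Real.pi, Real.cos_add_pi, Real.sin_add_pi, vec'_rv]
    module
  rw [h1, hb]
  have h5 : Form.pull circ hcirc (-Form.pull ng map_ng b) =
      -Form.pull circ hcirc (Form.pull ng map_ng b) := map_neg (Form.pullA circ hcirc) _
  rw [h5, h3, H584.KT_neg]
  congr 1
  refine Form.ext_val fun E' _ _ _ u x h => ?_
  rw [KT_aff_val _ _ _ _ h, H584.KT_val _ _ h, one_mul]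
  have h6 := (H584.co_periodic hper h).intervalIntegral_add_eq Real.pi 0
  rw [zero_add] at h6
  exact h6

/-- ORIENTATION REVERSAL: the oriented section at the far end is minus the transported one -/
theorem IsSec.w_phi (F : Facts e) {D : ℝ} (hD : 0 < D) (hB : InjGE e D)
    (hdiam : ∀ p q : M, dist p q ≤ D)
    (hP : ∀ x y : M, dist x y = D → finrank ℝ (H775.Pl e D x y) = 2)
    {w : UT E M → UT E M} (h : IsSec e D w) (kp : Pr e D → ℝ) {k0 : ℝ} (hk0 : k0 ≠ 0)
    (h1 : ∀ p, kp (Th F hD hB hdiam p) = -kp p) (h2 : ∀ v, kp (h.gr v) = k0) (v : UT E M) :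
    w (phi F (v, D)) = ng (phi F (w v, D)) := by
  rcases (isL_Th F hD hB hdiam (h.isL v)).eq_or F hD hB hdiam hP (h.isL (phi F (v, D)))
    with h3 | h3
  · exfalso
    have h4 : h.gr (phi F (v, D)) = Th F hD hB hdiam (h.gr v) := Pr.ext' rfl h3
    have h5 := h1 (h.gr v)
    rw [← h4, h2, h2] at h5
    exact hk0 (by linarith)
  · exact h3

/-- the same statement in terms of velocities: `Tt (w v) = - w (φ_D v)` -/
theorem IsSec.vel_w_eq (F : Facts e) {D : ℝ} {w : UT E M → UT E M} (h : IsSec e D w) {v : UT E M}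
    (h1 : w (phi F (v, D)) = ng (phi F (w v, D))) :
    vel e (foot v) (vec' (w v)) D = -vec' (w (phi F (v, D))) := by
  rw [h1, vec'_ng, neg_neg, vec'_phi, vel_w (h.isL v)]

/-- the integral over the circle of the transported pair -/
theorem kap_Th (F : Facts e) {D : ℝ} (hD : 0 < D) (hB : InjGE e D)
    (hdiam : ∀ p q : M, dist p q ≤ D) (G : Form (dM E M)) (p : Pr e D) :
    kap F hD hB hdiam (B0 F D G) (Th F hD hB hdiam p) = -kap F hD hB hdiam (B0 F D G) p := by
  unfold kap
  have h1 := pull_Th_KT F hD hB hdiam (map_cv F hD hB hdiam) (fun q => rfl)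
    (pull_phi_B0 F hD hB hdiam G)
  rw [← ptv_pull (map_Th F hD hB hdiam) _ (const_at_Pr p 0), ← ptv_neg]
  exact congrArg (fun a => WF.ptv a p) h1

/-- the oriented section at the far end -/
theorem IsSec.w_phi' (F : Facts e) {D : ℝ} (hD : 0 < D) (hB : InjGE e D)
    (hdiam : ∀ p q : M, dist p q ≤ D)
    (hP : ∀ x y : M, dist x y = D → finrank ℝ (H775.Pl e D x y) = 2)
    {w : UT E M → UT E M} (h : IsSec e D w) (G : Form (dM E M)) {κ : ℝ} (hκ : κ ≠ 0)
    (hk : ∀ v, kap F hD hB hdiam (B0 F D G) (h.gr v) = κ) (v : UT E M) :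
    w (phi F (v, D)) = ng (phi F (w v, D)) :=
  h.w_phi F hD hB hdiam hP (kap F hD hB hdiam (B0 F D G)) hκ (kap_Th F hD hB hdiam G) hk v

end

end Vale.Agent.P231.WR
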