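import Vale.Agent.P231.W.Defs
import Vale.Agent.P231.H775.Lift

/-!
# P231, stage 1, block F2 (part 1): smooth local unit sections of the line field `L_v`
-/

set_option maxSynthPendingDepth 3
set_option linter.unusedSectionVars false
set_option linter.unusedVariables false

open Bundle Manifold Set Filter Module
open scoped ContDiff Manifold Topology

namespace Vale.Agent.P231.WR

noncomputable section

open Vale.Agent.P234 Vale.Agent.P231 Vale.Agent.P231.Fm Vale.Agent.P231.W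

variable {E : Type*} [NormedAddCommGroup E] [NormedSpace ℝ E]
  {M : Type*} [MetricSpace M] [ChartedSpace E M]
  [RiemannianBundle (fun x : M => TangentSpace 𝓘(ℝ, E) x)]
  {e : ∀ x : M, TangentSpace 𝓘(ℝ, E) x → M}

/-- `w` is a unit vector at the foot of `v`, orthogonal to `v`, pointing to the same cut point -/
structure IsL (e : ∀ x : M, TangentSpace 𝓘(ℝ, E) x → M) (D : ℝ) (v w : UT E M) : Prop where
  foot_eq : foot w = foot v
  orth : ip (foot v) (vec' v) (vec' w) = 0
  bar_eq : bar e D w = bar e D v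

/-- the vector of `v` in the tangent space -/
def tv (v : UT E M) : TangentSpace 𝓘(ℝ, E) (foot v) := vec' (E := E) v

/-- the opposite vector -/
def ng (v : UT E M) : UT E M := mk (foot v) (-vec' v : E) (by
  have h : nm (foot v) (-vec' v : E) = nm (foot v) (vec' v) :=
    norm_neg (E := TangentSpace 𝓘(ℝ, E) (foot v)) _
  rw [h]
  exact nm_vec' v)

@[simp] theorem foot_ng (v : UT E M) : foot (ng v) = foot v := rfl

@[simp] theorem vec'_ng (v : UT E M) : vec' (ng v) = -vec' v := rfl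

theorem ng_ng (v : UT E M) : ng (ng v) = v := by
  rw [← mk_eta v]
  exact mk_congr rfl (neg_neg _)

theorem ip_comm' (x : M) (a b : E) : ip x a b = ip x b a :=
  real_inner_comm (F := TangentSpace 𝓘(ℝ, E) x) _ _

theorem ip_neg_right' (x : M) (a b : E) : ip x a (-b) = -ip x a b :=
  inner_neg_right (𝕜 := ℝ) (E := TangentSpace 𝓘(ℝ, E) x) _ _

theorem ip_add_right' (x : M) (a b c : E) : ip x a (b + c) = ip x a b + ip x a c :=
  inner_add_right (𝕜 := ℝ) (E := TangentSpace 𝓘(ℝ, E) x) _ _ _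

theorem ip_add_left' (x : M) (a b c : E) : ip x (a + b) c = ip x a c + ip x b c :=
  inner_add_left (𝕜 := ℝ) (E := TangentSpace 𝓘(ℝ, E) x) _ _ _

theorem ip_smul_right' (x : M) (r : ℝ) (a b : E) : ip x a (r • b) = r * ip x a b :=
  real_inner_smul_right (F := TangentSpace 𝓘(ℝ, E) x) _ _ _

theorem ip_smul_left' (x : M) (r : ℝ) (a b : E) : ip x (r • a) b = r * ip x a b :=
  real_inner_smul_left (F := TangentSpace 𝓘(ℝ, E) x) _ _ _

theorem ip_vec' (v : UT E M) : ip (foot v) (vec' v) (vec' v) = 1 := by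
  have h : ip (foot v) (vec' v) (vec' v) = nm (foot v) (vec' v) ^ 2 :=
    real_inner_self_eq_norm_sq (F := TangentSpace 𝓘(ℝ, E) (foot v)) _
  rw [h, nm_vec' v, one_pow]

theorem nm_eq_one {x : M} {a : E} (h : ip x a a = 1) : nm x a = 1 := by
  have h1 : ip x a a = nm x a ^ 2 :=
    real_inner_self_eq_norm_sq (F := TangentSpace 𝓘(ℝ, E) x) _
  rw [h1] at h
  have h2 : 0 ≤ nm x a := norm_nonneg (E := TangentSpace 𝓘(ℝ, E) x) a
  nlinarith only [h, h2]

theorem IsL.ip_self {D : ℝ} {v w : UT E M} (h : IsL e D v w) :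
    ip (foot v) (vec' w) (vec' w) = 1 := by
  have := ip_vec' w
  rwa [h.foot_eq] at this

variable [FiniteDimensional ℝ E] [IsManifold 𝓘(ℝ, E) ∞ M]
  [IsContMDiffRiemannianBundle 𝓘(ℝ, E) ∞ E (fun x : M => TangentSpace 𝓘(ℝ, E) x)]
  [CompactSpace M] [ConnectedSpace M] [IsRiemannianManifold 𝓘(ℝ, E) M]

/-- the vector of `v` is a link vector -/
theorem mem_Lk_self (D : ℝ) (v : UT E M) :
    tv v ∈ Lk e D (bar e D v) (foot v) :=
  ⟨nm_vec' v, rfl⟩

/-- vectors of `L_v` are link vectors -/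
theorem IsL.mem_Lk {D : ℝ} {v w : UT E M} (h : IsL e D v w) :
    (vec' (E := E) w : TangentSpace 𝓘(ℝ, E) (foot v)) ∈ Lk e D (bar e D v) (foot v) := by
  have h1 := mem_Lk_self (e := e) D w
  have key : ∀ (x y : M) (_ : x = foot v) (_ : y = bar e D v),
      ((vec' (E := E) w : TangentSpace 𝓘(ℝ, E) x) ∈ Lk e D y x) →
      (vec' (E := E) w : TangentSpace 𝓘(ℝ, E) (foot v)) ∈ Lk e D (bar e D v) (foot v) := by
    rintro x y rfl rfl h
    exact h
  exact key _ _ h.foot_eq h.bar_eq h1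

/-- link vectors orthogonal to `v` are vectors of `L_v` -/
theorem isL_mk {D : ℝ} {v : UT E M} {a : E}
    (ha : (a : TangentSpace 𝓘(ℝ, E) (foot v)) ∈ Lk e D (bar e D v) (foot v))
    (ho : ip (foot v) (vec' v) a = 0) : IsL e D v (mk (foot v) a ha.1) where
  foot_eq := rfl
  orth := ho
  bar_eq := ha.2

theorem dist_bar' (F : Facts e) {D : ℝ} (hD : 0 < D) (hB : InjGE e D) (v : UT E M) :
    dist (bar e D v) (foot v) = D := by
  rw [dist_comm]
  exact dist_bar F hD hB v

/-- a unit combination of `v` and `w ∈ L_v` is a link vector -/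
theorem IsL.comb (F : Facts e) {D : ℝ} (hD : 0 < D) (hB : InjGE e D)
    (hdiam : ∀ p q : M, dist p q ≤ D) {v w : UT E M} (h : IsL e D v w) {a b : ℝ}
    (hab : a ^ 2 + b ^ 2 = 1) :
    ((a • vec' v + b • vec' w : E) : TangentSpace 𝓘(ℝ, E) (foot v)) ∈
      Lk e D (bar e D v) (foot v) := by
  refine (H775.mem_Lk_iff F hD hB hdiam (dist_bar' F hD hB v)).2 ⟨?_, ?_⟩
  · refine nm_eq_one ?_
    rw [ip_add_right', ip_add_left', ip_add_left', ip_smul_left', ip_smul_right', ip_smul_left',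
      ip_smul_right', ip_smul_left', ip_smul_right', ip_smul_left', ip_smul_right', ip_vec',
      h.ip_self, ip_comm' _ (vec' w) (vec' v), h.orth]
    linear_combination hab
  · exact Submodule.add_mem _ (Submodule.smul_mem _ _ (H775.Lk_subset_Pl D _ _ (mem_Lk_self D v)))
      (Submodule.smul_mem _ _ (H775.Lk_subset_Pl D _ _ h.mem_Lk))

theorem IsL.ng (F : Facts e) {D : ℝ} (hD : 0 < D) (hB : InjGE e D)
    (hdiam : ∀ p q : M, dist p q ≤ D) {v w : UT E M} (h : IsL e D v w) : IsL e D v (ng w) := by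
  have h1 := h.comb F hD hB hdiam (a := 0) (b := -1) (by norm_num)
  have h2 : (0 : ℝ) • vec' v + (-1 : ℝ) • vec' w = -vec' w := by
    rw [zero_smul, zero_add, neg_smul, one_smul]
  rw [h2] at h1
  have h3 : ip (foot v) (vec' v) (-vec' w) = 0 := by rw [ip_neg_right', h.orth, neg_zero]
  have h4 : WR.ng w = W.mk (foot v) (-vec' w : E) h1.1 := mk_congr h.foot_eq rfl
  rw [h4]
  exact isL_mk h1 h3

/-- in a plane, a unit vector has exactly two unit normals -/
theorem eq_or_neg_of_plane {V : Type*} [NormedAddCommGroup V] [InnerProductSpace ℝ V]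
    {P : Submodule ℝ V} (hfin : finrank ℝ P = 2) {a b c : V} (ha : a ∈ P) (hb : b ∈ P)
    (hc : c ∈ P) (ha1 : ‖a‖ = 1) (hb1 : ‖b‖ = 1) (hc1 : ‖c‖ = 1) (hab : (inner ℝ a b : ℝ) = 0)
    (hac : (inner ℝ a c : ℝ) = 0) : c = b ∨ c = -b := by
  have haa : (inner ℝ a a : ℝ) = 1 := by rw [real_inner_self_eq_norm_sq, ha1, one_pow]
  have hbb : (inner ℝ b b : ℝ) = 1 := by rw [real_inner_self_eq_norm_sq, hb1, one_pow]
  have hcc : (inner ℝ c c : ℝ) = 1 := by rw [real_inner_self_eq_norm_sq, hc1, one_pow]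
  have hfd : FiniteDimensional ℝ P := Module.finite_of_finrank_pos (by omega)
  have hli : LinearIndependent ℝ ![a, b] := by
    rw [LinearIndependent.pair_iff]
    intro s t hst
    have h1 : (inner ℝ a (s • a + t • b) : ℝ) = 0 := by rw [hst, inner_zero_right]
    have h2 : (inner ℝ b (s • a + t • b) : ℝ) = 0 := by rw [hst, inner_zero_right]
    rw [inner_add_right, inner_smul_right, inner_smul_right, haa, hab] at h1
    rw [inner_add_right, inner_smul_right, inner_smul_right, hbb, real_inner_comm, hab] at h2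
    constructor <;> linarith
  have hle : Submodule.span ℝ (Set.range ![a, b]) ≤ P := by
    rw [Submodule.span_le]
    rintro _ ⟨i, rfl⟩
    fin_cases i
    · exact ha
    · exact hb
  have heq : Submodule.span ℝ (Set.range ![a, b]) = P := by
    refine Submodule.eq_of_le_of_finrank_eq hle ?_
    rw [finrank_span_eq_card hli, hfin, Fintype.card_fin]
  have hmem : c ∈ Submodule.span ℝ (Set.range ![a, b]) := by
    rw [heq]
    exact hc
  rw [Matrix.range_cons_cons_empty, Submodule.mem_span_pair] at hmem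
  obtain ⟨r, s, hrs⟩ := hmem
  have hr : r = 0 := by
    have h1 := hac
    rw [← hrs, inner_add_right, inner_smul_right, inner_smul_right, haa, hab] at h1
    linarith
  subst hr
  rw [zero_smul, zero_add] at hrs
  have hs : s * s = 1 := by
    have h1 := hcc
    rw [← hrs, real_inner_smul_left, real_inner_smul_right, hbb] at h1
    linarith
  rcases mul_self_eq_one_iff.1 hs with hs | hs
  · left
    rw [← hrs, hs, one_smul]
  · right
    rw [← hrs, hs, neg_smul, one_smul]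

/-- for multiplicity one, `L_v` has exactly two unit vectors -/
theorem IsL.eq_or (F : Facts e) {D : ℝ} (hD : 0 < D) (hB : InjGE e D)
    (hdiam : ∀ p q : M, dist p q ≤ D)
    (hP : ∀ x y : M, dist x y = D → finrank ℝ (H775.Pl e D x y) = 2)
    {v w w' : UT E M} (h : IsL e D v w) (h' : IsL e D v w') : w' = w ∨ w' = WR.ng w := by
  have hfin := hP _ _ (dist_bar' F hD hB v)
  have key := eq_or_neg_of_plane hfin (H775.Lk_subset_Pl D _ _ (mem_Lk_self D v))
    (H775.Lk_subset_Pl D _ _ h.mem_Lk) (H775.Lk_subset_Pl D _ _ h'.mem_Lk)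
    (mem_Lk_self (e := e) D v).1 h.mem_Lk.1 h'.mem_Lk.1 h.orth h'.orth
  rcases key with h1 | h1
  · left
    rw [← mk_eta w', ← mk_eta w]
    exact mk_congr (h'.foot_eq.trans h.foot_eq.symm) h1
  · right
    rw [← mk_eta w']
    exact mk_congr (h'.foot_eq.trans h.foot_eq.symm) h1

theorem map_bar (F : Facts e) (D : ℝ) : (dUT E M).Map (dM E M) (bar e D) := by
  intro E' _ _ _ u x h
  exact map_gm F (u := fun y => (u y, D)) ⟨h, Sm.of_contDiff contDiff_const _⟩

section Plots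

variable {E' : Type} [NormedAddCommGroup E'] [NormedSpace ℝ E'] [FiniteDimensional ℝ E']

/-- plots of the unit tangent bundle as smooth vector fields along maps -/
theorem at_iff {u : E' → UT E M} {x : E'} : (dUT E M).At u x ↔
    ∀ᶠ s in 𝓝 x, H775.SmV (fun s => foot (u s))
      (fun s => tv (u s)) s := Iff.rfl

/-- LOCAL SECTIONS: a vector of `L_v` extends to a smooth section of `L` along any plot -/
theorem exists_local (F : Facts e) {D : ℝ} (hD : 0 < D) (hB : InjGE e D)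
    (hdiam : ∀ p q : M, dist p q ≤ D) {l : ℕ}
    (hP : ∀ x y : M, dist x y = D → finrank ℝ (H775.Pl e D x y) = l + 1)
    {u : E' → UT E M} {x : E'} (hu : (dUT E M).At u x) {w₀ : UT E M} (hw : IsL e D (u x) w₀) :
    ∃ w : E' → UT E M, w x = w₀ ∧ (dUT E M).At w x ∧ ∀ᶠ s in 𝓝 x, IsL e D (u s) (w s) := by
  classical
  have hf : ∀ᶠ s in 𝓝 x, ContMDiffAt 𝓘(ℝ, E') 𝓘(ℝ, E) ∞ (fun s => foot (u s)) s := map_foot hu
  have hg : ∀ᶠ s in 𝓝 x, ContMDiffAt 𝓘(ℝ, E') 𝓘(ℝ, E) ∞ (fun s => bar e D (u s)) s :=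
    map_bar F D hu
  have hE' : CompleteSpace E' := FiniteDimensional.complete ℝ E'
  obtain ⟨l, hl0, hl⟩ := H775.exists_lift (V := E') F hD hB hdiam hP hf hg
    (Eventually.of_forall fun s => dist_bar F hD hB (u s)) hw.mem_Lk
  set v : ∀ s, TangentSpace 𝓘(ℝ, E) (foot (u s)) := fun s => tv (u s) with hvdef
  have hv : ∀ᶠ s in 𝓝 x, H775.SmV (fun s => foot (u s)) v s := at_iff.1 hu
  set m : ∀ s, TangentSpace 𝓘(ℝ, E) (foot (u s)) :=
    fun s => l s + (-(inner ℝ (v s) (l s) : ℝ)) • v s with hmdef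
  have hm : ∀ᶠ s in 𝓝 x, H775.SmV (fun s => foot (u s)) m s := by
    filter_upwards [hl, hv] with s h1 h2
    exact h1.1.add (H775.SmV.smul (h2.inner h1.1).neg h2)
  have hmx : m x = l x := by
    have h1 : (inner ℝ (v x) (l x) : ℝ) = 0 := by
      rw [hl0]
      exact hw.orth
    simp only [hmdef]
    rw [h1, neg_zero, zero_smul, add_zero]
  have hmn : ‖m x‖ ^ 2 = 1 := by
    rw [hmx, hl0]
    have := hw.mem_Lk.1
    rw [this, one_pow]
  have hpos : ∀ᶠ s in 𝓝 x, 0 < ‖m s‖ ^ 2 := by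
    have h1 : ContinuousAt (fun s => ‖m s‖ ^ 2) x := hm.self_of_nhds.norm_sq.continuousAt
    have h2 : (fun s => ‖m s‖ ^ 2) x = 1 := hmn
    refine h1.eventually (lt_mem_nhds ?_)
    rw [h2]
    exact one_pos
  set n : ∀ s, TangentSpace 𝓘(ℝ, E) (foot (u s)) :=
    fun s => (Real.sqrt (‖m s‖ ^ 2))⁻¹ • m s with hndef
  have hn : ∀ᶠ s in 𝓝 x, H775.SmV (fun s => foot (u s)) n s := by
    filter_upwards [hm, hpos] with s h1 h2
    refine H775.SmV.smul ?_ h1
    refine ContDiffAt.inv (ContDiffAt.sqrt h1.norm_sq h2.ne') ?_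
    exact (Real.sqrt_pos.2 h2).ne'
  have hn1 : ∀ᶠ s in 𝓝 x, ‖n s‖ = 1 := by
    filter_upwards [hpos] with s h2
    have h3 : 0 < ‖m s‖ := by
      rcases (norm_nonneg (m s)).eq_or_lt with h | h
      · rw [← h] at h2
        norm_num at h2
      · exact h
    simp only [hndef]
    rw [Real.sqrt_sq (norm_nonneg _), norm_smul, norm_inv, norm_norm,
      inv_mul_cancel₀ h3.ne']
  have hnx : n x = l x := by
    simp only [hndef]
    rw [hmn, Real.sqrt_one, inv_one, one_smul, hmx]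
  let w : E' → UT E M := fun s => if h : nm (E := E) (foot (u s)) (n s) = 1 then
    mk (E := E) (foot (u s)) (n s) h else w₀
  have hw1 : ∀ᶠ s in 𝓝 x, ∃ h : nm (E := E) (foot (u s)) (n s) = 1, w s = mk (E := E) (foot (u s)) (n s) h := by
    filter_upwards [hn1] with s hs
    exact ⟨hs, dif_pos hs⟩
  refine ⟨w, ?_, ?_, ?_⟩
  · obtain ⟨h, h1⟩ := hw1.self_of_nhds
    rw [h1, ← mk_eta w₀]
    exact mk_congr hw.foot_eq.symm (hnx.trans hl0)
  · rw [at_iff]
    have h2 : ∀ᶠ s in 𝓝 x, ∀ᶠ s' in 𝓝 s, ∃ h : nm (E := E) (foot (u s')) (n s') = 1,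
        w s' = mk (E := E) (foot (u s')) (n s') h := eventually_eventually_nhds.2 hw1
    filter_upwards [hn, h2] with s h3 h4
    refine ContMDiffAt.congr_of_eventuallyEq h3 ?_
    filter_upwards [h4] with s' hs'
    obtain ⟨h5, h6⟩ := hs'
    change (w s').1 = _
    rw [h6]
    rfl
  · filter_upwards [hw1, hl, hn1, hpos] with s hs1 hs2 hs3 hs4
    obtain ⟨h5, h6⟩ := hs1
    have hvP : v s ∈ H775.Pl e D (bar e D (u s)) (foot (u s)) :=
      H775.Lk_subset_Pl D _ _ (mem_Lk_self D (u s))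
    have hlP : l s ∈ H775.Pl e D (bar e D (u s)) (foot (u s)) :=
      H775.Lk_subset_Pl D _ _ hs2.2
    have hnP : n s ∈ H775.Pl e D (bar e D (u s)) (foot (u s)) :=
      Submodule.smul_mem _ _ (Submodule.add_mem _ hlP (Submodule.smul_mem _ _ hvP))
    have hnL : n s ∈ Lk e D (bar e D (u s)) (foot (u s)) :=
      (H775.mem_Lk_iff F hD hB hdiam (dist_bar' F hD hB (u s))).2 ⟨hs3, hnP⟩
    rw [h6]
    refine isL_mk (E := E) (a := n s) hnL ?_
    have h7 : (inner ℝ (v s) (n s) : ℝ) = 0 := by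
      simp only [hndef, hmdef]
      rw [inner_smul_right, inner_add_right, inner_smul_right, real_inner_self_eq_norm_sq]
      have h8 : ‖v s‖ = 1 := nm_vec' (u s)
      rw [h8]
      ring
    exact h7

end Plots

/-- `L_v` is not empty -/
theorem exists_isL (F : Facts e) {D : ℝ} (hD : 0 < D) (hB : InjGE e D)
    (hdiam : ∀ p q : M, dist p q ≤ D)
    (hP : ∀ x y : M, dist x y = D → 2 ≤ finrank ℝ (H775.Pl e D x y)) (v : UT E M) :
    ∃ w, IsL e D v w := by
  set P := H775.Pl e D (bar e D v) (foot v) with hPdef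
  have hfin : 2 ≤ finrank ℝ P := hP _ _ (dist_bar' F hD hB v)
  obtain ⟨a, ha1, ha2, ha3⟩ := H775.exists_unit_ker P
    ((innerSL ℝ (tv v)) :
      TangentSpace 𝓘(ℝ, E) (foot v) →ₗ[ℝ] ℝ) (by rw [finrank_self]; omega)
  have h1 : a ∈ Lk e D (bar e D v) (foot v) :=
    (H775.mem_Lk_iff F hD hB hdiam (dist_bar' F hD hB v)).2 ⟨ha2, ha1⟩
  exact ⟨_, isL_mk (E := E) (a := a) h1 ha3⟩

/-- GLUING: a choice of one of the two unit vectors of `L_v` which is locally constant along
smooth local sections defines a smooth global section. -/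
theorem exists_section (F : Facts e) {D : ℝ} (hD : 0 < D) (hB : InjGE e D)
    (hdiam : ∀ p q : M, dist p q ≤ D) {l : ℕ}
    (hP : ∀ x y : M, dist x y = D → finrank ℝ (H775.Pl e D x y) = l + 1)
    (Pos : UT E M → UT E M → Prop)
    (h1 : ∀ v, ∃ w, IsL e D v w ∧ Pos v w)
    (h2 : ∀ v w w', IsL e D v w → IsL e D v w' → Pos v w → Pos v w' → w = w')
    (h3 : ∀ {E' : Type} [NormedAddCommGroup E'] [NormedSpace ℝ E'] [FiniteDimensional ℝ E']
      (u w : E' → UT E M) (x : E'), (dUT E M).At u x → (dUT E M).At w x →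
      (∀ᶠ s in 𝓝 x, IsL e D (u s) (w s)) → Pos (u x) (w x) → ∀ᶠ s in 𝓝 x, Pos (u s) (w s)) :
    ∃ w : UT E M → UT E M, (dUT E M).Map (dUT E M) w ∧ ∀ v, IsL e D v (w v) ∧ Pos v (w v) := by
  choose w hw using h1
  refine ⟨w, ?_, hw⟩
  intro E' _ _ _ u x hu
  obtain ⟨w', h4, h5, h6⟩ := exists_local F hD hB hdiam hP hu (hw (u x)).1
  have h7 : ∀ᶠ s in 𝓝 x, Pos (u s) (w' s) := h3 u w' x hu h5 h6 (by rw [h4]; exact (hw (u x)).2)
  refine (dUT E M).congr h5 ?_
  filter_upwards [h6, h7] with s h8 h9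
  exact h2 _ _ _ h8 (hw (u s)).1 h9 (hw (u s)).2

end

end Vale.Agent.P231.WR
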