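import Vale.Agent.P231.WR.Sec

/-!
# P231, stage 1, block F2 (part 2): the space of pairs `(v, w)` with `w ∈ L_v`, its rotation flow,
and the rotation flow of the unit tangent bundle attached to a smooth section of `L`
-/

set_option maxSynthPendingDepth 3
set_option linter.unusedSectionVars false
set_option linter.unusedVariables false

open Bundle Manifold Set Filter Module
open scoped ContDiff Manifold Topology

namespace Vale.Agent.P231.WR

noncomputable section

open Vale.Agent.P234 Vale.Agent.P231 Vale.Agent.P231.Fm Vale.Agent.P231.W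

variable {E : Type*} [NormedAddCommGroup E] [NormedSpace ℝ E]
  {M : Type*} [MetricSpace M] [ChartedSpace E M]
  [RiemannianBundle (fun x : M => TangentSpace 𝓘(ℝ, E) x)]
  {e : ∀ x : M, TangentSpace 𝓘(ℝ, E) x → M}

/-- the pairs `(v, w)` with `w` a unit vector of `L_v` -/
def Pr (e : ∀ x : M, TangentSpace 𝓘(ℝ, E) x → M) (D : ℝ) : Type _ :=
  {p : UT E M × UT E M // IsL e D p.1 p.2}

/-- the first vector of a pair -/
def Pr.v {D : ℝ} (p : Pr e D) : UT E M := p.1.1

/-- the second vector of a pair -/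
def Pr.w {D : ℝ} (p : Pr e D) : UT E M := p.1.2

theorem Pr.isL {D : ℝ} (p : Pr e D) : IsL e D p.v p.w := p.2

theorem Pr.ext' {D : ℝ} {p q : Pr e D} (hv : p.v = q.v) (hw : p.w = q.w) : p = q :=
  Subtype.ext (Prod.ext hv hw)

theorem nm_comb {x : M} {a b : E} (haa : ip x a a = 1) (hbb : ip x b b = 1) (hab : ip x a b = 0)
    {c s : ℝ} (hcs : c ^ 2 + s ^ 2 = 1) : nm x (c • a + s • b) = 1 := by
  refine nm_eq_one ?_
  rw [ip_add_right', ip_add_left', ip_add_left', ip_smul_left', ip_smul_right', ip_smul_left',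
    ip_smul_right', ip_smul_left', ip_smul_right', ip_smul_left', ip_smul_right', haa, hbb,
    ip_comm' x b a, hab]
  linear_combination hcs

/-- the first vector of the rotated pair -/
def rv {D : ℝ} (p : Pr e D) (t : ℝ) : UT E M :=
  W.mk (foot p.v) (Real.cos t • vec' p.v + Real.sin t • vec' p.w)
    (nm_comb (ip_vec' p.v) p.isL.ip_self p.isL.orth (Real.cos_sq_add_sin_sq t))

/-- the second vector of the rotated pair -/
def rw_ {D : ℝ} (p : Pr e D) (t : ℝ) : UT E M :=
  W.mk (foot p.v) ((-Real.sin t) • vec' p.v + Real.cos t • vec' p.w)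
    (nm_comb (ip_vec' p.v) p.isL.ip_self p.isL.orth (by
      rw [neg_sq]; exact Real.sin_sq_add_cos_sq t))

@[simp] theorem foot_rv {D : ℝ} (p : Pr e D) (t : ℝ) : foot (rv p t) = foot p.v := rfl

@[simp] theorem foot_rw {D : ℝ} (p : Pr e D) (t : ℝ) : foot (rw_ p t) = foot p.v := rfl

theorem vec'_rv {D : ℝ} (p : Pr e D) (t : ℝ) :
    vec' (rv p t) = Real.cos t • vec' p.v + Real.sin t • vec' p.w := rfl

theorem vec'_rw {D : ℝ} (p : Pr e D) (t : ℝ) :
    vec' (rw_ p t) = (-Real.sin t) • vec' p.v + Real.cos t • vec' p.w := rfl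

variable [FiniteDimensional ℝ E] [IsManifold 𝓘(ℝ, E) ∞ M]
  [IsContMDiffRiemannianBundle 𝓘(ℝ, E) ∞ E (fun x : M => TangentSpace 𝓘(ℝ, E) x)]
  [CompactSpace M] [ConnectedSpace M] [IsRiemannianManifold 𝓘(ℝ, E) M]

theorem bar_rv (F : Facts e) {D : ℝ} (hD : 0 < D) (hB : InjGE e D)
    (hdiam : ∀ p q : M, dist p q ≤ D) (p : Pr e D) (t : ℝ) : bar e D (rv p t) = bar e D p.v :=
  (p.isL.comb F hD hB hdiam (Real.cos_sq_add_sin_sq t)).2

theorem bar_rw (F : Facts e) {D : ℝ} (hD : 0 < D) (hB : InjGE e D)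
    (hdiam : ∀ p q : M, dist p q ≤ D) (p : Pr e D) (t : ℝ) : bar e D (rw_ p t) = bar e D p.v :=
  (p.isL.comb F hD hB hdiam (a := -Real.sin t) (b := Real.cos t) (by
      rw [neg_sq]; exact Real.sin_sq_add_cos_sq t)).2

theorem isL_rot (F : Facts e) {D : ℝ} (hD : 0 < D) (hB : InjGE e D)
    (hdiam : ∀ p q : M, dist p q ≤ D) (p : Pr e D) (t : ℝ) : IsL e D (rv p t) (rw_ p t) where
  foot_eq := rfl
  orth := by
    rw [foot_rv, vec'_rv, vec'_rw, ip_add_right', ip_add_left', ip_add_left', ip_smul_left',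
      ip_smul_right', ip_smul_left', ip_smul_right', ip_smul_left', ip_smul_right',
      ip_smul_left', ip_smul_right', ip_vec', p.isL.ip_self, ip_comm' _ (vec' p.w) (vec' p.v),
      p.isL.orth]
    ring
  bar_eq := (bar_rw F hD hB hdiam p t).trans (bar_rv F hD hB hdiam p t).symm

/-- the rotation flow on pairs -/
def R (F : Facts e) {D : ℝ} (hD : 0 < D) (hB : InjGE e D)
    (hdiam : ∀ p q : M, dist p q ≤ D) (q : Pr e D × ℝ) : Pr e D :=
  ⟨(rv q.1 q.2, rw_ q.1 q.2), isL_rot F hD hB hdiam q.1 q.2⟩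

@[simp] theorem R_v (F : Facts e) {D : ℝ} (hD : 0 < D) (hB : InjGE e D)
    (hdiam : ∀ p q : M, dist p q ≤ D) (q : Pr e D × ℝ) :
    (R F hD hB hdiam q).v = rv q.1 q.2 := rfl

@[simp] theorem R_w (F : Facts e) {D : ℝ} (hD : 0 < D) (hB : InjGE e D)
    (hdiam : ∀ p q : M, dist p q ≤ D) (q : Pr e D × ℝ) :
    (R F hD hB hdiam q).w = rw_ q.1 q.2 := rfl

theorem rv_zero {D : ℝ} (p : Pr e D) : rv p 0 = p.v := by
  rw [← mk_eta p.v]
  refine mk_congr rfl ?_
  rw [Real.cos_zero, Real.sin_zero, one_smul, zero_smul, add_zero]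

theorem rw_zero {D : ℝ} (p : Pr e D) : rw_ p 0 = p.w := by
  rw [← mk_eta p.w]
  refine mk_congr p.isL.foot_eq.symm ?_
  rw [Real.cos_zero, Real.sin_zero, neg_zero, one_smul, zero_smul, zero_add]

theorem rv_add (F : Facts e) {D : ℝ} (hD : 0 < D) (hB : InjGE e D)
    (hdiam : ∀ p q : M, dist p q ≤ D) (p : Pr e D) (s t : ℝ) :
    rv (R F hD hB hdiam (p, s)) t = rv p (s + t) := by
  refine mk_congr rfl ?_
  rw [R_v, R_w, vec'_rv, vec'_rw, Real.cos_add, Real.sin_add]
  module

theorem rw_add (F : Facts e) {D : ℝ} (hD : 0 < D) (hB : InjGE e D)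
    (hdiam : ∀ p q : M, dist p q ≤ D) (p : Pr e D) (s t : ℝ) :
    rw_ (R F hD hB hdiam (p, s)) t = rw_ p (s + t) := by
  refine mk_congr rfl ?_
  rw [R_v, R_w, vec'_rv, vec'_rw, Real.cos_add, Real.sin_add]
  module

/-- the diffeology of the space of pairs -/
def dPr (e : ∀ x : M, TangentSpace 𝓘(ℝ, E) x → M) (D : ℝ) : Dif (Pr e D) :=
  ((dUT E M).prod (dUT E M)).ind Subtype.val

theorem map_v {D : ℝ} : (dPr e D).Map (dUT E M) Pr.v := fun h => h.1

theorem map_w {D : ℝ} : (dPr e D).Map (dUT E M) Pr.w := fun h => h.2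

theorem map_to_Pr {X : Type*} {DX : Dif X} {D : ℝ} {f : X → Pr e D}
    (h1 : DX.Map (dUT E M) (fun x => (f x).v)) (h2 : DX.Map (dUT E M) (fun x => (f x).w)) :
    DX.Map (dPr e D) f := fun h => ⟨h1 h, h2 h⟩

section Plots

variable {E' : Type} [NormedAddCommGroup E'] [NormedSpace ℝ E'] [FiniteDimensional ℝ E']

/-- combinations of plots with the same foot are smooth -/
theorem at_comb {u w z : E' → UT E M} {a b : E' → ℝ} {x : E'} (hu : (dUT E M).At u x)
    (hw : (dUT E M).At w x) (ha : Sm a x) (hb : Sm b x)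
    (hf : ∀ᶠ s in 𝓝 x, foot (w s) = foot (u s))
    (hz : ∀ᶠ s in 𝓝 x, foot (z s) = foot (u s) ∧ vec' (z s) = a s • vec' (u s) + b s • vec' (w s)) :
    (dUT E M).At z x := by
  rw [at_iff] at hu hw ⊢
  have hf' := eventually_eventually_nhds.2 hf
  have hz' := eventually_eventually_nhds.2 hz
  filter_upwards [hu, hw, ha, hb, hf', hz'] with s h1 h2 h3 h4 h5 h6
  let w' : ∀ s, TangentSpace 𝓘(ℝ, E) (foot (u s)) := fun s => vec' (E := E) (w s)
  have h7 : H775.SmV (fun s => foot (u s)) w' s := by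
    refine ContMDiffAt.congr_of_eventuallyEq h2 ?_
    filter_upwards [h5] with s' hs'
    exact tb_congr hs'.symm rfl
  have h8 := (H775.SmV.smul h3 h1).add (H775.SmV.smul h4 h7)
  refine ContMDiffAt.congr_of_eventuallyEq h8 ?_
  filter_upwards [h6] with s' hs'
  exact tb_congr hs'.1 hs'.2

end Plots

theorem map_R (F : Facts e) {D : ℝ} (hD : 0 < D) (hB : InjGE e D)
    (hdiam : ∀ p q : M, dist p q ≤ D) :
    ((dPr e D).prod (Dif.lin ℝ)).Map (dPr e D) (R F hD hB hdiam) := by
  intro E' _ _ _ u x h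
  have h1 : (dUT E M).At (fun s => (u s).1.v) x := h.1.1
  have h2 : (dUT E M).At (fun s => (u s).1.w) x := h.1.2
  have h3 : Sm (fun s => (u s).2) x := h.2
  have hc : Sm (fun s => Real.cos (u s).2) x :=
    Sm.comp (f := Real.cos) (g := fun s => (u s).2) (Sm.of_contDiff Real.contDiff_cos _) h3
  have hs : Sm (fun s => Real.sin (u s).2) x :=
    Sm.comp (f := Real.sin) (g := fun s => (u s).2) (Sm.of_contDiff Real.contDiff_sin _) h3
  have hs' : Sm (fun s => -Real.sin (u s).2) x :=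
    Sm.comp (f := fun t => -Real.sin t) (g := fun s => (u s).2)
      (Sm.of_contDiff Real.contDiff_sin.neg _) h3
  refine ⟨?_, ?_⟩
  · exact at_comb h1 h2 hc hs (Eventually.of_forall fun s => (u s).1.isL.foot_eq)
      (Eventually.of_forall fun s => ⟨rfl, rfl⟩)
  · exact at_comb h1 h2 hs' hc (Eventually.of_forall fun s => (u s).1.isL.foot_eq)
      (Eventually.of_forall fun s => ⟨rfl, rfl⟩)

/-- the rotation flow on pairs has period `2 π` -/
theorem isFlow_R (F : Facts e) {D : ℝ} (hD : 0 < D) (hB : InjGE e D)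
    (hdiam : ∀ p q : M, dist p q ≤ D) :
    IsFlow (dPr e D) (2 * Real.pi) (R F hD hB hdiam) where
  map := map_R F hD hB hdiam
  zero p := Pr.ext' (rv_zero p) (rw_zero p)
  add p s t := Pr.ext' (rv_add F hD hB hdiam p s t) (rw_add F hD hB hdiam p s t)
  per p := by
    refine Pr.ext' ?_ ?_
    · rw [R_v, ← rv_zero p]
      refine mk_congr rfl ?_
      simp only [Real.cos_two_pi, Real.sin_two_pi, Real.cos_zero, Real.sin_zero]
    · rw [R_w, ← rw_zero p]
      refine mk_congr rfl ?_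
      simp only [Real.cos_two_pi, Real.sin_two_pi, Real.cos_zero, Real.sin_zero]

/-! ### the rotation flow of a section -/

/-- a smooth section of `L` -/
structure IsSec (e : ∀ x : M, TangentSpace 𝓘(ℝ, E) x → M) (D : ℝ) (w : UT E M → UT E M) :
    Prop where
  map : (dUT E M).Map (dUT E M) w
  isL : ∀ v, IsL e D v (w v)

/-- the graph of a section -/
def IsSec.gr {D : ℝ} {w : UT E M → UT E M} (h : IsSec e D w) (v : UT E M) : Pr e D :=
  ⟨(v, w v), h.isL v⟩

@[simp] theorem IsSec.gr_v {D : ℝ} {w : UT E M → UT E M} (h : IsSec e D w) (v : UT E M) :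
    (h.gr v).v = v := rfl

@[simp] theorem IsSec.gr_w {D : ℝ} {w : UT E M → UT E M} (h : IsSec e D w) (v : UT E M) :
    (h.gr v).w = w v := rfl

theorem IsSec.map_gr {D : ℝ} {w : UT E M → UT E M} (h : IsSec e D w) :
    (dUT E M).Map (dPr e D) h.gr := fun hu => ⟨hu, h.map hu⟩

/-- the rotation flow attached to a section -/
def IsSec.rot {D : ℝ} {w : UT E M → UT E M} (h : IsSec e D w) (q : UT E M × ℝ) : UT E M :=
  rv (h.gr q.1) q.2

@[simp] theorem IsSec.foot_rot {D : ℝ} {w : UT E M → UT E M} (h : IsSec e D w)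
    (q : UT E M × ℝ) : foot (h.rot q) = foot q.1 := rfl

theorem IsSec.vec'_rot {D : ℝ} {w : UT E M → UT E M} (h : IsSec e D w) (q : UT E M × ℝ) :
    vec' (h.rot q) = Real.cos q.2 • vec' q.1 + Real.sin q.2 • vec' (w q.1) := rfl

theorem IsSec.bar_rot (F : Facts e) {D : ℝ} (hD : 0 < D) (hB : InjGE e D)
    (hdiam : ∀ p q : M, dist p q ≤ D) {w : UT E M → UT E M} (h : IsSec e D w)
    (q : UT E M × ℝ) : bar e D (h.rot q) = bar e D q.1 :=
  bar_rv F hD hB hdiam (h.gr q.1) q.2

theorem IsSec.map_rot (F : Facts e) {D : ℝ} (hD : 0 < D) (hB : InjGE e D)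
    (hdiam : ∀ p q : M, dist p q ≤ D) {w : UT E M → UT E M} (h : IsSec e D w) :
    ((dUT E M).prod (Dif.lin ℝ)).Map (dUT E M) h.rot := by
  intro E' _ _ _ u x hu
  have h1 : ((dPr e D).prod (Dif.lin ℝ)).At (fun s => (h.gr (u s).1, (u s).2)) x :=
    ⟨h.map_gr hu.1, hu.2⟩
  exact map_v (map_R F hD hB hdiam h1)

/-- the inner product of two plots with the same foot is smooth -/
theorem sm_ip {E' : Type} [NormedAddCommGroup E'] [NormedSpace ℝ E'] [FiniteDimensional ℝ E']
    {u w : E' → UT E M} {x : E'} (hu : (dUT E M).At u x) (hw : (dUT E M).At w x)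
    (hf : ∀ᶠ s in 𝓝 x, foot (w s) = foot (u s)) :
    Sm (fun s => ip (foot (u s)) (vec' (u s)) (vec' (w s))) x := by
  rw [at_iff] at hu hw
  have hf' := eventually_eventually_nhds.2 hf
  filter_upwards [hu, hw, hf'] with s h1 h2 h5
  let w' : ∀ s, TangentSpace 𝓘(ℝ, E) (foot (u s)) := fun s => vec' (E := E) (w s)
  have h7 : H775.SmV (fun s => foot (u s)) w' s := by
    refine ContMDiffAt.congr_of_eventuallyEq h2 ?_
    filter_upwards [h5] with s' hs'
    exact tb_congr hs'.symm rfl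
  exact h1.inner h7

/-- the section is equivariant -/
theorem IsSec.w_rot (F : Facts e) {D : ℝ} (hD : 0 < D) (hB : InjGE e D)
    (hdiam : ∀ p q : M, dist p q ≤ D)
    (hP : ∀ x y : M, dist x y = D → finrank ℝ (H775.Pl e D x y) = 2)
    {w : UT E M → UT E M} (h : IsSec e D w) (v : UT E M) (t : ℝ) :
    w (h.rot (v, t)) = rw_ (h.gr v) t := by
  set c : ℝ → ℝ := fun t => ip (foot v) (vec' (w (h.rot (v, t)))) (vec' (rw_ (h.gr v) t)) with hc
  have hflow := isFlow_R F hD hB hdiam
  have hplot : ∀ t : ℝ, (dPr e D).At (fun t : ℝ => R F hD hB hdiam (h.gr v, t)) t := by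
    intro t
    have h0 : (dPr e D).At (fun _ : ℝ => h.gr v) t := by
      have h1 : (dTM E M).At (fun _ : ℝ => v.1) t := Eventually.of_forall fun t => contMDiffAt_const
      have h2 : (dTM E M).At (fun _ : ℝ => (w v).1) t :=
        Eventually.of_forall fun t => contMDiffAt_const
      exact ⟨h1, h2⟩
    exact map_R F hD hB hdiam (u := fun t : ℝ => (h.gr v, t)) ⟨h0, Sm.of_contDiff contDiff_id _⟩
  have hfoot : ∀ t, foot (w (h.rot (v, t))) = foot v := fun t => (h.isL (h.rot (v, t))).foot_eq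
  have hcont : Continuous c := by
    rw [continuous_iff_continuousAt]
    intro t
    have h1 : (dUT E M).At (fun t : ℝ => w (h.rot (v, t))) t := h.map (map_v (hplot t))
    have h2 : (dUT E M).At (fun t : ℝ => rw_ (h.gr v) t) t := map_w (hplot t)
    have h3 := sm_ip h1 h2 (Eventually.of_forall fun s => (hfoot s).symm)
    have h4 : c = fun s => ip (foot (w (h.rot (v, s)))) (vec' (w (h.rot (v, s))))
        (vec' (rw_ (h.gr v) s)) := by
      funext s
      rw [hfoot s]
    rw [h4]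
    exact h3.continuousAt
  have hL : ∀ t, IsL e D (h.rot (v, t)) (rw_ (h.gr v) t) := fun t =>
    isL_rot F hD hB hdiam (h.gr v) t
  have hsq : ∀ t, c t = 1 ∨ c t = -1 := by
    intro t
    have h1 := (hL t).ip_self
    rcases (hL t).eq_or F hD hB hdiam hP (h.isL (h.rot (v, t))) with h2 | h2
    · left
      simp only [hc]
      rw [h2]
      exact h1
    · right
      simp only [hc]
      rw [h2, vec'_ng, ip_comm', ip_neg_right']
      exact congrArg Neg.neg h1
  have h0 : c 0 = 1 := by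
    simp only [hc]
    have h1 : h.rot (v, 0) = v := rv_zero (h.gr v)
    rw [h1, rw_zero, IsSec.gr_w]
    exact (h.isL v).ip_self
  have hall : ∀ t, c t = 1 := by
    intro t
    have h1 : IsPreconnected (univ : Set ℝ) := isPreconnected_univ
    have h2 := h1.eq_of_sq_eq (f := c) (g := fun _ => (1 : ℝ)) hcont.continuousOn
      continuousOn_const (fun s _ => by
        rcases hsq s with h3 | h3
        · simp only [Pi.pow_apply, h3]
        · simp only [Pi.pow_apply, h3]; norm_num) (fun _ => one_ne_zero) (mem_univ (0 : ℝ)) h0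
    exact h2 (mem_univ t)
  rcases (hL t).eq_or F hD hB hdiam hP (h.isL (h.rot (v, t))) with h2 | h2
  · exact h2
  · exfalso
    have h3 := hall t
    simp only [hc] at h3
    rw [h2, vec'_ng, ip_comm', ip_neg_right'] at h3
    have h4 := (hL t).ip_self
    have h5 : ip (foot v) (vec' (rw_ (h.gr v) t)) (vec' (rw_ (h.gr v) t)) = 1 := h4
    rw [h5] at h3
    norm_num at h3

theorem IsSec.gr_rot (F : Facts e) {D : ℝ} (hD : 0 < D) (hB : InjGE e D)
    (hdiam : ∀ p q : M, dist p q ≤ D)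
    (hP : ∀ x y : M, dist x y = D → finrank ℝ (H775.Pl e D x y) = 2)
    {w : UT E M → UT E M} (h : IsSec e D w) (v : UT E M) (t : ℝ) :
    h.gr (h.rot (v, t)) = R F hD hB hdiam (h.gr v, t) :=
  Pr.ext' rfl (h.w_rot F hD hB hdiam hP v t)

/-- THE ROTATION FLOW of the unit tangent bundle -/
theorem IsSec.isFlow_rot (F : Facts e) {D : ℝ} (hD : 0 < D) (hB : InjGE e D)
    (hdiam : ∀ p q : M, dist p q ≤ D)
    (hP : ∀ x y : M, dist x y = D → finrank ℝ (H775.Pl e D x y) = 2)
    {w : UT E M → UT E M} (h : IsSec e D w) :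
    IsFlow (dUT E M) (2 * Real.pi) h.rot where
  map := h.map_rot F hD hB hdiam
  zero v := rv_zero (h.gr v)
  add v s t := by
    change rv (h.gr (h.rot (v, s))) t = rv (h.gr v) (s + t)
    rw [h.gr_rot F hD hB hdiam hP, rv_add]
  per v := congrArg Pr.v ((isFlow_R F hD hB hdiam).per (h.gr v))

end

end Vale.Agent.P231.WR
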