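import Vale.Agent.P231.WR.Kap
import Vale.Agent.P231.WE.F
import Vale.Agent.P231.H584.Ops

/-!
# P231, stage 1, block F2 (part 3): the primitive `B₀` on the unit sphere of `T_p M` is the
connection form; its integral over the great circles of the fibration is `2 π`
-/

set_option maxSynthPendingDepth 3
set_option linter.unusedSectionVars false
set_option linter.unusedVariables false

open Bundle Manifold Set Filter Module Topology
open scoped ContDiff Manifold Topology

namespace Vale.Agent.P231.WR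

noncomputable section

open Vale.Agent.P234 Vale.Agent.P231 Vale.Agent.P231.Fm Vale.Agent.P231.W Vale.Agent.P231.WF
  Vale.Agent.P231.WE

/-! ### polar coordinates in a vector space -/

section Vec

variable {V : Type*} [NormedAddCommGroup V] [InnerProductSpace ℝ V] [FiniteDimensional ℝ V]
  {J : V → V} {X : Type} [NormedAddCommGroup X] [NormedSpace ℝ X] [FiniteDimensional ℝ X]

/-- the connection form in polar coordinates does not see the radius -/
theorem pb_psi_polar (h : RJ J) {u : X → V} {x : X} {r : ℝ} (hu : DifferentiableAt ℝ u x)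
    (hr : 0 < r) (hn : ∀ᶠ y in 𝓝 x, ‖u y‖ = 1) :
    Fm.pb (fun q : X × ℝ => q.2 • u q.1) (psi J) (x, r) =
      Fm.pull (ContinuousLinearMap.fst ℝ X ℝ) (Fm.pb u (psi J) x) := by
  unfold Fm.pb psi
  rw [Fm.pull_dx, Fm.pull_dx, Fm.pull_dx]
  congr 1
  have h1 : HasFDerivAt (fun q : X × ℝ => q.2 • u q.1)
      (r • (fderiv ℝ u x).comp (ContinuousLinearMap.fst ℝ X ℝ) +
        (ContinuousLinearMap.snd ℝ X ℝ).smulRight (u x)) (x, r) := by
    have h2 : HasFDerivAt (fun q : X × ℝ => u q.1)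
        ((fderiv ℝ u x).comp (ContinuousLinearMap.fst ℝ X ℝ)) (x, r) :=
      HasFDerivAt.comp (x, r) (g := u) hu.hasFDerivAt hasFDerivAt_fst
    exact hasFDerivAt_snd.smul h2
  rw [h1.fderiv]
  have hux : ‖u x‖ = 1 := hn.self_of_nhds
  refine ContinuousLinearMap.ext fun z => ?_
  simp only [ContinuousLinearMap.comp_apply, add_apply, smul_apply,
    ContinuousLinearMap.smulRight_apply, ContinuousLinearMap.coe_fst', ContinuousLinearMap.coe_snd',
    cov_apply]
  rw [h.hom r hr, norm_smul, hux, inner_add_right, real_inner_smul_left, real_inner_smul_left,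
    inner_smul_right, inner_smul_right, h.orth (u x), Real.norm_of_nonneg hr.le]
  field_simp
  ring

theorem at1_dx_mul_fst (a : X × ℝ →L[ℝ] ℝ) (b : Lam X) :
    at1 (dx a * Fm.pull (ContinuousLinearMap.fst ℝ X ℝ) b) = a (0, 1) • b := by
  rw [at1_apply, iprod_dx_mul, map_sub, map_smul]
  have h1 := Form.at1_fst_mul b (1 : Lam (X × ℝ))
  rw [mul_one] at h1
  have h2 : at1 (Fm.pull (ContinuousLinearMap.fst ℝ X ℝ) b) = 0 := by
    rw [h1, at1_apply, iprod_one, map_zero, mul_zero]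
  have h3 : ∀ p q : Lam (X × ℝ), at0 (p * q) = at0 p * at0 q := fun p q =>
    map_mul (Fm.pull (ContinuousLinearMap.inl ℝ X ℝ)) p q
  rw [h3, ← at1_apply, h2, mul_zero, sub_zero]
  congr 1
  rw [at0_apply, ← pull_comp_apply]
  have h4 : (ContinuousLinearMap.fst ℝ X ℝ).comp (ContinuousLinearMap.inl ℝ X ℝ) =
      ContinuousLinearMap.id ℝ X := by ext; simp
  rw [h4, Fm.pull_id]
  rfl

/-- the cut-off curvature in polar coordinates, contracted with the radial direction -/
theorem at1_GG (h : RJ J) {ρ : V → ℝ} (hρ : ContDiff ℝ ∞ ρ) (h0 : ∀ᶠ v in 𝓝 0, ρ v = 0)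
    {u : X → V} {x : X} {r : ℝ} (hu : Sm u x) (hr : 0 < r) (hn : ∀ᶠ y in 𝓝 x, ‖u y‖ = 1) :
    at1 (Fm.pb (fun q : X × ℝ => q.2 • u q.1) (WE.GG J ρ) (x, r)) =
      (deriv (fun t : ℝ => ρ (t • u x)) r) • Fm.pb u (psi J) x := by
  have hw : Sm (fun q : X × ℝ => q.2 • u q.1) (x, r) := by
    have h1 : Sm (fun q : X × ℝ => u q.1) (x, r) :=
      Sm.comp (f := u) (g := Prod.fst) (x := ((x, r) : X × ℝ)) hu (Sm.of_contDiff contDiff_fst _)
    filter_upwards [h1] with q hq
    exact contDiff_snd.contDiffAt.smul hq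
  have hc := h.cut_contDiff hρ h0
  have h1 : Fm.pb (fun q : X × ℝ => q.2 • u q.1) (WE.GG J ρ) (x, r) =
      extd (Fm.pb (fun q : X × ℝ => q.2 • u q.1) (fun v => ρ v • psi J v)) (x, r) :=
    (extd_pb (hw.contDiffAt.of_le Fm.two_le_infty) ((hc.differentiable (by simp)) _)).symm
  have hev1 : ∀ᶠ q in 𝓝 ((x, r) : X × ℝ), (∀ᶠ y in 𝓝 q.1, ‖u y‖ = 1) ∧ Sm u q.1 ∧ 0 < q.2 := by
    have k1 : ∀ᶠ q in 𝓝 ((x, r) : X × ℝ), ∀ᶠ y in 𝓝 q.1, ‖u y‖ = 1 :=
      (continuous_fst.tendsto _).eventually (eventually_eventually_nhds.2 hn)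
    have k2 : ∀ᶠ q in 𝓝 ((x, r) : X × ℝ), Sm u q.1 :=
      (continuous_fst.tendsto _).eventually hu.eventually
    have k3 : ∀ᶠ q in 𝓝 ((x, r) : X × ℝ), 0 < q.2 :=
      (continuous_snd.tendsto ((x, r) : X × ℝ)).eventually (lt_mem_nhds hr)
    filter_upwards [k1, k2, k3] with q a b c using ⟨a, b, c⟩
  have h2 : (Fm.pb (fun q : X × ℝ => q.2 • u q.1) (fun v => ρ v • psi J v)) =ᶠ[𝓝 (x, r)]
      fun q => (fun q : X × ℝ => ρ (q.2 • u q.1)) q •
        Fm.pb (Prod.fst : X × ℝ → X) (Fm.pb u (psi J)) q := by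
    filter_upwards [hev1] with q hq
    obtain ⟨a, b, c⟩ := hq
    have h3 := pb_psi_polar h (x := q.1) (r := q.2) b.differentiableAt c a
    unfold Fm.pb at h3 ⊢
    rw [map_smul, fderiv_fst]
    simp only [Prod.mk.eta] at h3
    rw [h3]
  have hf : DifferentiableAt ℝ (fun q : X × ℝ => ρ (q.2 • u q.1)) (x, r) :=
    (hρ.differentiable (by simp)).differentiableAt.comp _ hw.differentiableAt
  have hux : u x ≠ 0 := by
    intro h3
    have := hn.self_of_nhds
    rw [h3, norm_zero] at this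
    exact zero_ne_one this
  have hps : ContDiffAt ℝ ∞ (Fm.pb u (psi J)) x :=
    contDiffAt_pb (n := ∞) hu.contDiffAt (h.psi_contDiffAt hux) (by simp)
  have hg : DifferentiableAt ℝ (Fm.pb (Prod.fst : X × ℝ → X) (Fm.pb u (psi J))) (x, r) :=
    (contDiffAt_pb (m := ∞) (n := ∞) (f := (Prod.fst : X × ℝ → X)) (x := (x, r))
      contDiff_fst.contDiffAt hps (by simp)).differentiableAt (by simp)
  have h5 : extd (Fm.pb (Prod.fst : X × ℝ → X) (Fm.pb u (psi J))) (x, r) =
      Fm.pull (ContinuousLinearMap.fst ℝ X ℝ) (extd (Fm.pb u (psi J)) x) := by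
    rw [extd_pb (f := (Prod.fst : X × ℝ → X)) (x := (x, r)) contDiff_fst.contDiffAt
      (hps.differentiableAt (by simp))]
    unfold Fm.pb
    rw [fderiv_fst]
  have h6 : at1 (Fm.pull (ContinuousLinearMap.fst ℝ X ℝ) (extd (Fm.pb u (psi J)) x)) = 0 := by
    have h1 := Form.at1_fst_mul (extd (Fm.pb u (psi J)) x) (1 : Lam (X × ℝ))
    rw [mul_one] at h1
    rw [h1, at1_apply, iprod_one, map_zero, mul_zero]
  have h7 : Fm.pb (Prod.fst : X × ℝ → X) (Fm.pb u (psi J)) (x, r) =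
      Fm.pull (ContinuousLinearMap.fst ℝ X ℝ) (Fm.pb u (psi J) x) := by
    change Fm.pull (fderiv ℝ (Prod.fst : X × ℝ → X) (x, r)) _ = _
    rw [fderiv_fst]
  rw [h1, extd_congr h2, extd_smul hf hg, map_add, h5, map_smul, h6, smul_zero, add_zero, h7,
    at1_dx_mul_fst]
  congr 1
  have h8 : HasDerivAt (fun t : ℝ => ((x, t) : X × ℝ)) (0, 1) r :=
    (hasDerivAt_const r x).prodMk (hasDerivAt_id r)
  have h9 := hf.hasFDerivAt.comp_hasDerivAt r h8
  exact h9.deriv.symm

end Vec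

/-! ### the primitive on the unit sphere -/

variable {E : Type*} [NormedAddCommGroup E] [NormedSpace ℝ E]
  {M : Type*} [MetricSpace M] [ChartedSpace E M]
  [RiemannianBundle (fun x : M => TangentSpace 𝓘(ℝ, E) x)]
  {e : ∀ x : M, TangentSpace 𝓘(ℝ, E) x → M}
  [FiniteDimensional ℝ E] [IsManifold 𝓘(ℝ, E) ∞ M]
  [IsContMDiffRiemannianBundle 𝓘(ℝ, E) ∞ E (fun x : M => TangentSpace 𝓘(ℝ, E) x)]
  [CompactSpace M] [ConnectedSpace M] [IsRiemannianManifold 𝓘(ℝ, E) M]

/-- plots of the unit sphere of `T_p M` are plots of the unit tangent bundle -/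
theorem at_sphere {X : Type} [NormedAddCommGroup X] [NormedSpace ℝ X] [FiniteDimensional ℝ X]
    {p : M} {u : X → TangentSpace 𝓘(ℝ, E) p} {U : X → UT E M} {x : X} (hu : Sm u x)
    (hU : ∀ᶠ y in 𝓝 x, foot (U y) = p ∧ (vec' (U y) : E) = u y) : (dUT E M).At U x := by
  rw [at_iff]
  filter_upwards [hu, eventually_eventually_nhds.2 hU] with s hs1 hs2
  have h1 : H775.SmV (E := E) (M := M) (fun _ : X => p) u s := by
    rw [H775.smV_iff p (mem_extChartAt_source p)]
    refine ⟨contMDiffAt_const, ?_⟩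
    exact (crd (E := E) p p).contDiff.contDiffAt.comp s hs1
  unfold H775.SmV at h1 ⊢
  refine ContMDiffAt.congr_of_eventuallyEq h1 ?_
  filter_upwards [hs2] with y hy
  exact tb_congr hy.1 hy.2

variable {D : ℝ} {p : M} {J : TangentSpace 𝓘(ℝ, E) p → TangentSpace 𝓘(ℝ, E) p}
  {ρ : TangentSpace 𝓘(ℝ, E) p → ℝ} {r₀ : ℝ}

/-- **The primitive on the unit sphere of `T_p M` is the connection form.** -/
theorem B0_sphere (F : Facts e) (hD : 0 < D) (hB : InjGE e D)
    (hdiam : ∀ p q : M, dist p q ≤ D)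
    (hl : ∀ x y : M, dist x y = D → finrank ℝ (H775.Pl e D x y) = 2) (hJ : LineJ e D p J)
    (hρ : Rho e D p ρ r₀) {X : Type} [NormedAddCommGroup X] [NormedSpace ℝ X]
    [FiniteDimensional ℝ X] {u : X → TangentSpace 𝓘(ℝ, E) p} {U : X → UT E M} {x : X}
    (hu : Sm u x) (hU : ∀ᶠ y in 𝓝 x, foot (U y) = p ∧ (vec' (U y) : E) = u y) :
    (KT D (Form.pull (gm e) (map_gm F) (FF F hD hB hdiam hl hJ hρ))).val U x =
      Fm.pb u (psi J) x := by
  have hUx : (dUT E M).At U x := at_sphere hu hU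
  have hn : ∀ᶠ y in 𝓝 x, ‖u y‖ = 1 := by
    filter_upwards [hU] with y hy
    have h1 := nm_vec' (U y)
    rw [hy.1, hy.2] at h1
    exact h1
  rw [H584.KT_val _ _ hUx]
  have hux : ‖u x‖ = 1 := hn.self_of_nhds
  set g : ℝ → ℝ := fun t => ρ (t • u x) with hg
  have hgd : ContDiff ℝ ∞ g := hρ.smooth.comp (contDiff_id.smul contDiff_const)
  have key : ∀ r ∈ Set.Ioo (0 : ℝ) D, H584.co (Form.pull (gm e) (map_gm F)
      (FF F hD hB hdiam hl hJ hρ)) U x r = (deriv g r) • Fm.pb u (psi J) x := by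
    intro r hr
    rw [H584.co, Form.pull_val (map_gm F) _ (Form.cyl_at hUx r)]
    have hw : Sm (fun q : X × ℝ => q.2 • u q.1) (x, r) := by
      have h1 : Sm (fun q : X × ℝ => u q.1) (x, r) :=
        Sm.comp (f := u) (g := Prod.fst) (x := ((x, r) : X × ℝ)) hu
          (Sm.of_contDiff contDiff_fst _)
      filter_upwards [h1] with q hq
      exact contDiff_snd.contDiffAt.smul hq
    have h2 : (gm e ∘ Form.cyl U) =ᶠ[𝓝 (x, r)] fun q : X × ℝ => e p (q.2 • u q.1) := by
      have h3 : ∀ᶠ q in 𝓝 ((x, r) : X × ℝ), foot (U q.1) = p ∧ (vec' (U q.1) : E) = u q.1 :=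
        (continuous_fst.tendsto ((x, r) : X × ℝ)).eventually hU
      filter_upwards [h3] with q hq
      change e (foot (U q.1)) (q.2 • vec' (U q.1) : E) = _
      have key : ∀ (y : M) (a : E), y = p → a = u q.1 →
          e y (q.2 • a : E) = e p (q.2 • u q.1) := by
        rintro y a rfl rfl
        rfl
      exact key _ _ hq.1 hq.2
    have h4 : (dM E M).At (gm e ∘ Form.cyl U) (x, r) := map_gm F (Form.cyl_at hUx r)
    rw [Form.congr _ h4 h2, FF_exp F hD hB hdiam hl hJ hρ hw (by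
      rw [norm_smul, hux, mul_one, Real.norm_of_nonneg hr.1.le]
      exact hr.2)]
    exact at1_GG hJ.rj hρ.smooth hρ.zero hu hr.1 hn
  have h5 : ∫ r in (0 : ℝ)..D, H584.co (Form.pull (gm e) (map_gm F)
      (FF F hD hB hdiam hl hJ hρ)) U x r = ∫ r in (0 : ℝ)..D, (deriv g r) • Fm.pb u (psi J) x := by
    refine intervalIntegral.integral_congr_ae ?_
    have h6 : ∀ᵐ r : ℝ ∂MeasureTheory.volume, r ≠ D := by
      simp [MeasureTheory.ae_iff, MeasureTheory.measure_singleton]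
    filter_upwards [h6] with r hr1 hr2
    rw [uIoc_of_le hD.le] at hr2
    exact key r ⟨hr2.1, lt_of_le_of_ne hr2.2 hr1⟩
  rw [h5, intervalIntegral.integral_smul_const, intervalIntegral.integral_deriv_eq_sub
    (fun r _ => (hgd.differentiable (by simp)) r)
    ((hgd.continuous_deriv (by simp)).intervalIntegrable _ _)]
  have h7 : g D = 1 := by
    refine hρ.one _ ?_
    rw [norm_smul, hux, mul_one, Real.norm_of_nonneg hD.le]
    exact hρ.lt
  have h8 : g 0 = 0 := by
    change ρ ((0 : ℝ) • u x) = 0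
    rw [zero_smul]
    exact hρ.zero.self_of_nhds
  rw [h7, h8, sub_zero, one_smul]

/-- the pair `(u, J u)` -/
def pairJ (hJ : LineJ e D p J) {u : TangentSpace 𝓘(ℝ, E) p} (hu : ‖u‖ = 1) : Pr e D :=
  ⟨(W.mk (E := E) p u hu, W.mk (E := E) p (J u) ((hJ.rj.norm u).trans hu)),
    { foot_eq := rfl
      orth := (real_inner_comm (F := TangentSpace 𝓘(ℝ, E) p) _ _).trans (hJ.rj.orth u)
      bar_eq := hJ.cut u hu }⟩

/-- **The integral over the great circles is `2 π`.** -/
theorem kap_pairJ (F : Facts e) (hD : 0 < D) (hB : InjGE e D)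
    (hdiam : ∀ p q : M, dist p q ≤ D)
    (hl : ∀ x y : M, dist x y = D → finrank ℝ (H775.Pl e D x y) = 2) (hJ : LineJ e D p J)
    (hρ : Rho e D p ρ r₀) {u : TangentSpace 𝓘(ℝ, E) p} (hu : ‖u‖ = 1) :
    kap F hD hB hdiam (KT D (Form.pull (gm e) (map_gm F) (FF F hD hB hdiam hl hJ hρ)))
      (pairJ hJ hu) = 2 * Real.pi := by
  set B := KT D (Form.pull (gm e) (map_gm F) (FF F hD hB hdiam hl hJ hρ)) with hBdef
  have hq : (dPr e D).At (fun _ : ℝ => pairJ hJ hu) 0 := const_at_Pr _ 0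
  have key : ∀ θ : ℝ, H584.co (Form.pull (cv e D) (map_cv F hD hB hdiam) B)
      (fun _ : ℝ => pairJ hJ hu) 0 θ = 1 := by
    intro θ
    rw [H584.co, Form.pull_val (map_cv F hD hB hdiam) _ (Form.cyl_at hq θ)]
    set U : ℝ × ℝ → UT E M := cv e D ∘ Form.cyl (fun _ : ℝ => pairJ hJ hu) with hU
    set c : ℝ × ℝ → TangentSpace 𝓘(ℝ, E) p := fun z => Real.cos z.2 • u + Real.sin z.2 • J u
      with hc
    have hcs : ContDiff ℝ ∞ c :=
      ((Real.contDiff_cos.comp contDiff_snd).smul contDiff_const).add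
        ((Real.contDiff_sin.comp contDiff_snd).smul contDiff_const)
    have h1 := B0_sphere F hD hB hdiam hl hJ hρ (U := U) (x := ((0, θ) : ℝ × ℝ))
      (Sm.of_contDiff hcs _) (Eventually.of_forall fun z => ⟨rfl, rfl⟩)
    rw [← hBdef] at h1
    rw [h1]
    unfold Fm.pb psi
    rw [Fm.pull_dx, at1_apply, iprod_dx, at0_apply, AlgHom.commutes]
    have h2 : fderiv ℝ c (0, θ) (0, 1) = (-Real.sin θ) • u + Real.cos θ • J u := by
      have h3 : HasDerivAt (fun t : ℝ => ((0, t) : ℝ × ℝ)) (0, 1) θ :=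
        (hasDerivAt_const θ (0 : ℝ)).prodMk (hasDerivAt_id θ)
      have h4 := ((hcs.differentiable (by simp)) (0, θ)).hasFDerivAt.comp_hasDerivAt θ h3
      have h5 : HasDerivAt (fun t : ℝ => Real.cos t • u + Real.sin t • J u)
          ((-Real.sin θ) • u + Real.cos θ • J u) θ :=
        ((Real.hasDerivAt_cos θ).smul_const u).add ((Real.hasDerivAt_sin θ).smul_const (J u))
      exact h4.unique h5
    have h6 : J (c (0, θ)) = (-Real.sin θ) • u + Real.cos θ • J u := by
      have := hJ.rj.rot u (Real.cos θ) (Real.sin θ) (Real.cos_sq_add_sin_sq θ)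
      rw [← neg_smul] at this
      exact this
    have h7 : ‖J (c (0, θ))‖ = 1 := by
      rw [hJ.rj.norm]
      have h8 : (inner ℝ u (J u) : ℝ) = 0 := by
        rw [real_inner_comm]
        exact hJ.rj.orth u
      have h9 : ‖c (0, θ)‖ ^ 2 = 1 := by
        simp only [hc]
        rw [norm_add_sq_real, norm_smul, norm_smul, inner_smul_left, inner_smul_right, h8,
          hJ.rj.norm, hu, mul_one, mul_one, Real.norm_eq_abs, Real.norm_eq_abs, sq_abs, sq_abs]
        simp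
      nlinarith [norm_nonneg (c (0, θ))]
    have h10 : ‖c (0, θ)‖ = 1 := by rw [← hJ.rj.norm, h7]
    rw [ContinuousLinearMap.comp_apply, cov_apply, h2, h10, ← h6, real_inner_self_eq_norm_sq, h7]
    norm_num
  rw [kap, ptv, kf, H584.KT_val _ _ hq]
  simp only [key]
  rw [intervalIntegral.integral_const, map_smul, map_one]
  simp

/-- **Block F2.** The rotation flow, with the integral of `B₀` over its orbits. -/
theorem exists_rot (F : Facts e) (hD : 0 < D) (hB : InjGE e D)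
    (hdiam : ∀ p q : M, dist p q ≤ D) (h2 : 2 ≤ finrank ℝ E)
    (hl : ∀ x y : M, dist x y = D → finrank ℝ (H775.Pl e D x y) = 2) (hJ : LineJ e D p J)
    (hρ : Rho e D p ρ r₀) :
    ∃ (w : UT E M → UT E M) (hw : IsSec e D w) (hf : IsFlow (dUT E M) (2 * Real.pi) hw.rot),
      (∀ v t, foot (hw.rot (v, t)) = foot v) ∧ (∀ v t, bar e D (hw.rot (v, t)) = bar e D v) ∧
      W.J hw.rot hf.map (2 * Real.pi)
        (KT D (Form.pull (gm e) (map_gm F) (FF F hD hB hdiam hl hJ hρ))) = (2 * Real.pi) • 1 := by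
  have : Nontrivial (TangentSpace 𝓘(ℝ, E) p) := by
    have h3 : 0 < finrank ℝ (TangentSpace 𝓘(ℝ, E) p) := by
      change 0 < finrank ℝ E
      omega
    exact Module.nontrivial_of_finrank_pos h3
  obtain ⟨u, hu⟩ := exists_norm_eq (TangentSpace 𝓘(ℝ, E) p) zero_le_one
  have hIsB := isB_B0 F D (FF_deg F hD hB hdiam hl hJ hρ) (FF_d F hD hB hdiam hl hJ hρ)
  obtain ⟨w, hw, hk⟩ := exists_orient F hD hB hdiam h2 hl hIsB (κ := 2 * Real.pi)
    (by positivity) (p₀ := pairJ hJ hu)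
    (by rw [kap_pairJ F hD hB hdiam hl hJ hρ hu, abs_of_pos (by positivity)])
  refine ⟨w, hw, hw.isFlow_rot F hD hB hdiam hl, fun v t => rfl,
    fun v t => hw.bar_rot F hD hB hdiam (v, t), ?_⟩
  have h3 := J_rot F hD hB hdiam hIsB hw hk
  rw [Algebra.algebraMap_eq_smul_one] at h3
  exact h3

end

end Vale.Agent.P231.WR
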