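import Vale.Agent.P231.WR.PenS

/-!
# P231, stage 2: the pencil and the rotation of pairs; the transport of planes
-/

set_option maxSynthPendingDepth 3
set_option linter.unusedSectionVars false
set_option linter.unusedVariables false

open Bundle Manifold Set Filter Module
open scoped ContDiff Manifold Topology

namespace Vale.Agent.P231.WR

noncomputable section

open Vale.Agent.P234 Vale.Agent.P231 Vale.Agent.P231.Fm Vale.Agent.P231.W Vale.Agent.P231.H775

variable {E : Type*} [NormedAddCommGroup E] [NormedSpace ℝ E]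
  {M : Type*} [MetricSpace M] [ChartedSpace E M]
  [RiemannianBundle (fun x : M => TangentSpace 𝓘(ℝ, E) x)]
  {e : ∀ x : M, TangentSpace 𝓘(ℝ, E) x → M}
  [FiniteDimensional ℝ E] [IsManifold 𝓘(ℝ, E) ∞ M]
  [IsContMDiffRiemannianBundle 𝓘(ℝ, E) ∞ E (fun x : M => TangentSpace 𝓘(ℝ, E) x)]
  [CompactSpace M] [ConnectedSpace M] [IsRiemannianManifold 𝓘(ℝ, E) M]

/-! ### the complementary projections -/

/-- the projection to `P_{pq}ᗮ` -/
def nP (e : ∀ x : M, TangentSpace 𝓘(ℝ, E) x → M) (D : ℝ) (v : UT E M) (a : E) : E :=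
  a - prP e D v a

/-- the projection to `P_{qp}ᗮ` -/
def nQ (e : ∀ x : M, TangentSpace 𝓘(ℝ, E) x → M) (D : ℝ) (v : UT E M) (z : E) : E :=
  z - prQ e D v z

theorem nP_add (D : ℝ) (v : UT E M) (a b : E) : nP e D v (a + b) = nP e D v a + nP e D v b := by
  rw [nP, prP_add, nP, nP]
  abel

theorem nP_smul (D : ℝ) (v : UT E M) (c : ℝ) (a : E) : nP e D v (c • a) = c • nP e D v a := by
  rw [nP, prP_smul, nP, smul_sub]

theorem nQ_add (D : ℝ) (v : UT E M) (a b : E) : nQ e D v (a + b) = nQ e D v a + nQ e D v b := by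
  rw [nQ, prQ_add, nQ, nQ]
  abel

theorem nQ_smul (D : ℝ) (v : UT E M) (c : ℝ) (a : E) : nQ e D v (c • a) = c • nQ e D v a := by
  rw [nQ, prQ_smul, nQ, smul_sub]

theorem prP_nP (D : ℝ) (v : UT E M) (a : E) : prP e D v (nP e D v a) = 0 := by
  rw [nP, prP_sub, prP_prP, sub_self]

theorem prQ_nQ (D : ℝ) (v : UT E M) (a : E) : prQ e D v (nQ e D v a) = 0 := by
  rw [nQ, prQ_sub, prQ_prQ, sub_self]

theorem nP_prP (D : ℝ) (v : UT E M) (a : E) : nP e D v (prP e D v a) = 0 := by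
  rw [nP, prP_prP, sub_self]

theorem nQ_prQ (D : ℝ) (v : UT E M) (a : E) : nQ e D v (prQ e D v a) = 0 := by
  rw [nQ, prQ_prQ, sub_self]

theorem nP_nP (D : ℝ) (v : UT E M) (a : E) : nP e D v (nP e D v a) = nP e D v a := by
  have h1 : nP e D v (nP e D v a) = nP e D v a - prP e D v (nP e D v a) := rfl
  rw [h1, prP_nP, sub_zero]

theorem nQ_nQ (D : ℝ) (v : UT E M) (a : E) : nQ e D v (nQ e D v a) = nQ e D v a := by
  have h1 : nQ e D v (nQ e D v a) = nQ e D v a - prQ e D v (nQ e D v a) := rfl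
  rw [h1, prQ_nQ, sub_zero]

theorem ip_prQ (D : ℝ) (v : UT E M) (a c : E) :
    ip (bar e D v) (prQ e D v a) c = ip (bar e D v) a (prQ e D v c) :=
  Submodule.inner_starProjection_left_eq_right (H775.Pl e D (foot v) (bar e D v))
    (a : TangentSpace 𝓘(ℝ, E) (bar e D v)) (c : TangentSpace 𝓘(ℝ, E) (bar e D v))

theorem ip_nP (D : ℝ) (v : UT E M) (a c : E) :
    ip (foot v) (nP e D v a) c = ip (foot v) a (nP e D v c) := by
  rw [nP, nP, ip_sub_left', ip_sub_right', ip_prP]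

theorem ip_nQ (D : ℝ) (v : UT E M) (a c : E) :
    ip (bar e D v) (nQ e D v a) c = ip (bar e D v) a (nQ e D v c) := by
  rw [nQ, nQ, ip_sub_left', ip_sub_right', ip_prQ]

theorem nP_phi (F : Facts e) {D : ℝ} (hD : 0 < D) (hB : InjGE e D)
    (hdiam : ∀ p q : M, dist p q ≤ D) (v : UT E M) (a : E) :
    nP e D (phi F (v, D)) a = nQ e D v a := by
  rw [nP, nQ, prP_phi F hD hB hdiam]

theorem nQ_phi (F : Facts e) {D : ℝ} (hD : 0 < D) (hB : InjGE e D)
    (hdiam : ∀ p q : M, dist p q ≤ D) (v : UT E M) (a : E) :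
    nQ e D (phi F (v, D)) a = nP e D v a := by
  rw [nP, nQ, prQ_phi F hD hB hdiam]

theorem nP_congr {D : ℝ} {v w : UT E M} (hf : foot w = foot v) (hb : bar e D w = bar e D v)
    (a : E) : nP e D w a = nP e D v a := by rw [nP, nP, prP_congr hf hb]

theorem nQ_congr {D : ℝ} {v w : UT E M} (hf : foot w = foot v) (hb : bar e D w = bar e D v)
    (a : E) : nQ e D w a = nQ e D v a := by rw [nQ, nQ, prQ_congr hf hb]

/-! ### the relations between the pencil and the differential of the exponential map -/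

/-- (1) -/
theorem BB_AD_nP (F : Facts e) {D : ℝ} (hD : 0 < D) (hB : InjGE e D)
    (hdiam : ∀ p q : M, dist p q ≤ D) (v : UT E M) (a : E) :
    BB e D v (AD e D v (nP e D v a)) = nP e D v a := by
  rw [BB_AD F hD hB hdiam, prP_nP, sub_zero]

/-- (2) -/
theorem AD_BB' (F : Facts e) {D : ℝ} (hD : 0 < D) (hB : InjGE e D)
    (hdiam : ∀ p q : M, dist p q ≤ D) (v : UT E M) (z : E) :
    AD e D v (BB e D v z) = nQ e D v z := AD_BB F hD hB hdiam v z

/-- (3) -/
theorem nP_BB (F : Facts e) {D : ℝ} (hD : 0 < D) (hB : InjGE e D)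
    (hdiam : ∀ p q : M, dist p q ≤ D) (v : UT E M) (z : E) :
    nP e D v (BB e D v z) = BB e D v z := by
  have h1 : nP e D v (BB e D v z) = BB e D v z - prP e D v (BB e D v z) := rfl
  rw [h1, prP_BB F hD hB hdiam, sub_zero]

/-- (4) -/
theorem BB_nQ (F : Facts e) {D : ℝ} (hD : 0 < D) (hB : InjGE e D)
    (hdiam : ∀ p q : M, dist p q ≤ D) (v : UT E M) (z : E) :
    BB e D v (nQ e D v z) = BB e D v z := by
  have h1 := map_sub (BBL F hD hB hdiam v) z (prQ e D v z)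
  have h2 : BB e D v (z - prQ e D v z) = BB e D v z - BB e D v (prQ e D v z) := h1
  rw [BB_prQ F hD hB hdiam, sub_zero] at h2
  exact h2

/-- (5) -/
theorem nQ_AD (F : Facts e) {D : ℝ} (hD : 0 < D) (hB : InjGE e D)
    (hdiam : ∀ p q : M, dist p q ≤ D) (v : UT E M) (a : E) :
    nQ e D v (AD e D v (nP e D v a)) = AD e D v (nP e D v a) := by
  have h1 : nQ e D v (AD e D v (nP e D v a)) = AD e D v (nP e D v a) -
    prQ e D v (AD e D v (nP e D v a)) := rfl
  rw [h1, prQ_AD_of_prP F hD hB hdiam (prP_nP D v a), sub_zero]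

/-- (6) the pencil along the rotation -/
theorem BB_rv (F : Facts e) {D : ℝ} (hD : 0 < D) (hB : InjGE e D)
    (hdiam : ∀ p q : M, dist p q ≤ D) {l : ℕ}
    (hP : ∀ x y : M, dist x y = D → finrank ℝ (H775.Pl e D x y) = l + 1) (p : Pr e D) (t : ℝ)
    (z : E) : BB e D (rv p t) z = Real.cos t • BB e D p.v z + Real.sin t • BB e D p.w z :=
  BB_rot F hD hB hdiam hP p.isL (foot_rv p t) (bar_rv F hD hB hdiam p t) (vec'_rv p t) z

theorem BB_rw (F : Facts e) {D : ℝ} (hD : 0 < D) (hB : InjGE e D)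
    (hdiam : ∀ p q : M, dist p q ≤ D) {l : ℕ}
    (hP : ∀ x y : M, dist x y = D → finrank ℝ (H775.Pl e D x y) = l + 1) (p : Pr e D) (t : ℝ)
    (z : E) : BB e D (rw_ p t) z = (-Real.sin t) • BB e D p.v z + Real.cos t • BB e D p.w z :=
  BB_rot F hD hB hdiam hP p.isL (foot_rw p t) (bar_rw F hD hB hdiam p t) (vec'_rw p t) z

/-- (8) the planes do not change -/
theorem prP_rv (F : Facts e) {D : ℝ} (hD : 0 < D) (hB : InjGE e D)
    (hdiam : ∀ p q : M, dist p q ≤ D) (p : Pr e D) (t : ℝ) (a : E) :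
    prP e D (rv p t) a = prP e D p.v a := prP_congr (foot_rv p t) (bar_rv F hD hB hdiam p t) a

theorem prQ_rv (F : Facts e) {D : ℝ} (hD : 0 < D) (hB : InjGE e D)
    (hdiam : ∀ p q : M, dist p q ≤ D) (p : Pr e D) (t : ℝ) (a : E) :
    prQ e D (rv p t) a = prQ e D p.v a := prQ_congr (foot_rv p t) (bar_rv F hD hB hdiam p t) a

theorem prP_rw (F : Facts e) {D : ℝ} (hD : 0 < D) (hB : InjGE e D)
    (hdiam : ∀ p q : M, dist p q ≤ D) (p : Pr e D) (t : ℝ) (a : E) :
    prP e D (rw_ p t) a = prP e D p.v a := prP_congr (foot_rw p t) (bar_rw F hD hB hdiam p t) a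

theorem prQ_rw (F : Facts e) {D : ℝ} (hD : 0 < D) (hB : InjGE e D)
    (hdiam : ∀ p q : M, dist p q ≤ D) (p : Pr e D) (t : ℝ) (a : E) :
    prQ e D (rw_ p t) a = prQ e D p.v a := prQ_congr (foot_rw p t) (bar_rw F hD hB hdiam p t) a

theorem nP_rv (F : Facts e) {D : ℝ} (hD : 0 < D) (hB : InjGE e D)
    (hdiam : ∀ p q : M, dist p q ≤ D) (p : Pr e D) (t : ℝ) (a : E) :
    nP e D (rv p t) a = nP e D p.v a := nP_congr (foot_rv p t) (bar_rv F hD hB hdiam p t) a

theorem nQ_rv (F : Facts e) {D : ℝ} (hD : 0 < D) (hB : InjGE e D)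
    (hdiam : ∀ p q : M, dist p q ≤ D) (p : Pr e D) (t : ℝ) (a : E) :
    nQ e D (rv p t) a = nQ e D p.v a := nQ_congr (foot_rv p t) (bar_rv F hD hB hdiam p t) a

theorem nP_phi_rv (F : Facts e) {D : ℝ} (hD : 0 < D) (hB : InjGE e D)
    (hdiam : ∀ p q : M, dist p q ≤ D) (p : Pr e D) (t : ℝ) (a : E) :
    nP e D (phi F (rv p t, D)) a = nP e D (phi F (p.v, D)) a := by
  rw [nP_phi F hD hB hdiam, nP_phi F hD hB hdiam, nQ_rv F hD hB hdiam]

/-- `w` has the same planes as `v` -/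
theorem prP_w (D : ℝ) (p : Pr e D) (a : E) : prP e D p.w a = prP e D p.v a :=
  prP_congr p.isL.foot_eq p.isL.bar_eq a

theorem prQ_w (D : ℝ) (p : Pr e D) (a : E) : prQ e D p.w a = prQ e D p.v a :=
  prQ_congr p.isL.foot_eq p.isL.bar_eq a

theorem nP_w (D : ℝ) (p : Pr e D) (a : E) : nP e D p.w a = nP e D p.v a :=
  nP_congr p.isL.foot_eq p.isL.bar_eq a

theorem nQ_w (D : ℝ) (p : Pr e D) (a : E) : nQ e D p.w a = nQ e D p.v a :=
  nQ_congr p.isL.foot_eq p.isL.bar_eq a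

/-! ### (9) the isometric transport of planes -/

/-- the projection as a vector of the plane -/
def ppl (e : ∀ x : M, TangentSpace 𝓘(ℝ, E) x → M) (D : ℝ) (v : UT E M) (a : E) :
    H703.Pl e D (bar e D v) (foot v) :=
  ⟨(prP (E := E) e D v a : TangentSpace 𝓘(ℝ, E) (foot v)), prP_mem D v a⟩

/-- the transport of the planes, composed with the projection -/
def TP (F : Facts e) {D : ℝ} (hD : 0 < D) (hB : InjGE e D)
    (hdiam : ∀ p q : M, dist p q ≤ D) (v : UT E M) (a : E) : E :=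
  (WD2.Tt F hD hB hdiam (dist_bar F hD hB v) (ppl e D v a) :
    TangentSpace 𝓘(ℝ, E) (bar e D v))

theorem TP_add (F : Facts e) {D : ℝ} (hD : 0 < D) (hB : InjGE e D)
    (hdiam : ∀ p q : M, dist p q ≤ D) (v : UT E M) (a b : E) :
    TP F hD hB hdiam v (a + b) = TP F hD hB hdiam v a + TP F hD hB hdiam v b := by
  have h1 : ppl e D v (a + b) = ppl e D v a + ppl e D v b := Subtype.ext (prP_add D v a b)
  unfold TP
  rw [h1, map_add]
  rfl

theorem TP_smul (F : Facts e) {D : ℝ} (hD : 0 < D) (hB : InjGE e D)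
    (hdiam : ∀ p q : M, dist p q ≤ D) (v : UT E M) (c : ℝ) (a : E) :
    TP F hD hB hdiam v (c • a) = c • TP F hD hB hdiam v a := by
  have h1 : ppl e D v (c • a) = c • ppl e D v a := Subtype.ext (prP_smul D v c a)
  unfold TP
  rw [h1, map_smul]
  rfl

theorem TP_prP (F : Facts e) {D : ℝ} (hD : 0 < D) (hB : InjGE e D)
    (hdiam : ∀ p q : M, dist p q ≤ D) (v : UT E M) (a : E) :
    TP F hD hB hdiam v (prP e D v a) = TP F hD hB hdiam v a := by
  have h1 : ppl e D v (prP e D v a) = ppl e D v a := Subtype.ext (prP_prP D v a)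
  unfold TP
  rw [h1]

theorem prQ_TP' (F : Facts e) {D : ℝ} (hD : 0 < D) (hB : InjGE e D)
    (hdiam : ∀ p q : M, dist p q ≤ D) (v : UT E M) (a : E) :
    prQ e D v (TP F hD hB hdiam v a) = TP F hD hB hdiam v a :=
  prQ_of_mem (WD2.Tt F hD hB hdiam (dist_bar F hD hB v) (ppl e D v a)).2

theorem ip_TP (F : Facts e) {D : ℝ} (hD : 0 < D) (hB : InjGE e D)
    (hdiam : ∀ p q : M, dist p q ≤ D) (v : UT E M) (a c : E) :
    ip (bar e D v) (TP F hD hB hdiam v a) (TP F hD hB hdiam v c) =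
      ip (foot v) (prP e D v a) (prP e D v c) :=
  (WD2.Tt F hD hB hdiam (dist_bar F hD hB v)).inner_map_map (ppl e D v a) (ppl e D v c)

theorem TP_TP (F : Facts e) {D : ℝ} (hD : 0 < D) (hB : InjGE e D)
    (hdiam : ∀ p q : M, dist p q ≤ D) (v : UT E M) (a : E) :
    TP F hD hB hdiam (phi F (v, D)) (TP F hD hB hdiam v a) = prP e D v a := by
  have h2 : prP (E := E) e D (phi F (v, D)) (TP F hD hB hdiam v a) = TP F hD hB hdiam v a := by
    rw [prP_phi F hD hB hdiam, prQ_TP' F hD hB hdiam]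
  exact Tt_Tt_raw F hD hB hdiam (bar_phi F hD hB hdiam v) (dist_bar F hD hB v)
    (dist_bar F hD hB (phi F (v, D))) (ppl e D v a)
    (prP_mem D (phi F (v, D)) (TP F hD hB hdiam v a)) h2

/-- the transport is adjoint to its inverse -/
theorem ip_TP_adj (F : Facts e) {D : ℝ} (hD : 0 < D) (hB : InjGE e D)
    (hdiam : ∀ p q : M, dist p q ≤ D) (v : UT E M) (a z : E) :
    ip (bar e D v) (TP F hD hB hdiam v a) z =
      ip (foot v) a (TP F hD hB hdiam (phi F (v, D)) z) := by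
  have hphi : phi F (phi F (v, D), D) = v := by
    rw [phi_add, ← two_mul]
    exact phi_per F hD hB hdiam v
  have h1 := ip_TP F hD hB hdiam v a (TP F hD hB hdiam (phi F (v, D)) z)
  have h2 : TP F hD hB hdiam v (TP F hD hB hdiam (phi F (v, D)) z) = prQ e D v z := by
    have h3 := TP_TP F hD hB hdiam (phi F (v, D)) z
    rw [hphi, prP_phi F hD hB hdiam] at h3
    exact h3
  rw [h2, ← ip_prQ, prQ_TP' F hD hB hdiam] at h1
  have h4 : prP e D v (TP F hD hB hdiam (phi F (v, D)) z) =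
      TP F hD hB hdiam (phi F (v, D)) z := by
    have h3 := prQ_TP' F hD hB hdiam (phi F (v, D)) z
    rw [prQ_phi F hD hB hdiam] at h3
    exact h3
  rw [h1, ip_prP, h4]
  exact congrArg (fun b => ip (foot v) a b) h4

theorem TP_congr (F : Facts e) {D : ℝ} (hD : 0 < D) (hB : InjGE e D)
    (hdiam : ∀ p q : M, dist p q ≤ D) {v w : UT E M} (hf : foot w = foot v)
    (hb : bar e D w = bar e D v) (a : E) : TP F hD hB hdiam w a = TP F hD hB hdiam v a := by
  have key : ∀ (x x' y y' : M) (hx : x = x') (hy : y = y') (h : dist x y = D) (h' : dist x' y' = D)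
      (c c' : E) (hc : (c : TangentSpace 𝓘(ℝ, E) x) ∈ H775.Pl e D y x)
      (hc' : (c' : TangentSpace 𝓘(ℝ, E) x') ∈ H775.Pl e D y' x') (hcc : c = c'),
      ((WD2.Tt F hD hB hdiam h ⟨(c : TangentSpace 𝓘(ℝ, E) x), hc⟩ : TangentSpace 𝓘(ℝ, E) y) : E) =
      (WD2.Tt F hD hB hdiam h' ⟨(c' : TangentSpace 𝓘(ℝ, E) x'), hc'⟩ :
        TangentSpace 𝓘(ℝ, E) y') := by
    rintro x x' y y' rfl rfl h h' c c' hc hc' rfl
    rfl
  exact key _ _ _ _ hf hb _ _ _ _ _ _ (prP_congr hf hb a)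

/-- the transport of the direction itself -/
theorem TP_self (F : Facts e) {D : ℝ} (hD : 0 < D) (hB : InjGE e D)
    (hdiam : ∀ p q : M, dist p q ≤ D) (v : UT E M) :
    TP F hD hB hdiam v (vec' v) = vec' (phi F (v, D)) := by
  have h2 := vel_eq_Tt F hD hB hdiam (dist_bar F hD hB v) (mem_Lk_self D v)
    (H703.Lk_subset_Pl e D _ _ (mem_Lk_self D v))
  rw [vec'_phi]
  refine Eq.trans ?_ h2.symm
  have h4 : ppl e D v (vec' v) = ⟨tv v, H703.Lk_subset_Pl e D _ _ (mem_Lk_self D v)⟩ :=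
    Subtype.ext (prP_of_mem (E := E) (self_mem_Pl D v))
  unfold TP
  rw [h4]

/-- the transport of the vectors with the same cut point -/
theorem TP_vec (F : Facts e) {D : ℝ} (hD : 0 < D) (hB : InjGE e D)
    (hdiam : ∀ p q : M, dist p q ≤ D) {v w : UT E M} (hf : foot w = foot v)
    (hb : bar e D w = bar e D v) : TP F hD hB hdiam v (vec' w) = vec' (phi F (w, D)) := by
  rw [← TP_congr F hD hB hdiam hf hb, TP_self F hD hB hdiam]

theorem TP_of_prP (F : Facts e) {D : ℝ} (hD : 0 < D) (hB : InjGE e D)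
    (hdiam : ∀ p q : M, dist p q ≤ D) {v : UT E M} {a : E} (h : prP e D v a = 0) :
    TP F hD hB hdiam v a = 0 := by
  rw [← TP_prP, h]
  have h1 := TP_smul F hD hB hdiam v 0 (0 : E)
  rw [zero_smul, zero_smul] at h1
  exact h1

theorem Tr_eq_TP (F : Facts e) {D : ℝ} (hD : 0 < D) (hB : InjGE e D)
    (hdiam : ∀ p q : M, dist p q ≤ D) (v : UT E M) (a : E) :
    Tr F hD hB hdiam v a = TP F hD hB hdiam v (prL e D v a) := by
  have h1 : ppl e D v (prL e D v a) = pl e D v a :=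
    Subtype.ext (prP_of_mem (E := E) (mem_Lf.1 (prL_mem D v a)).1)
  unfold TP Tr
  rw [h1]

/-- the transport in terms of `Tr` -/
theorem TP_eq (F : Facts e) {D : ℝ} (hD : 0 < D) (hB : InjGE e D)
    (hdiam : ∀ p q : M, dist p q ≤ D) (v : UT E M) (a : E) :
    TP F hD hB hdiam v a =
      ip (foot v) (vec' v) a • vec' (phi F (v, D)) + Tr F hD hB hdiam v a := by
  rw [← TP_prP, prP_eq, TP_add, TP_smul, TP_self F hD hB hdiam, Tr_eq_TP]

theorem TP_rv (F : Facts e) {D : ℝ} (hD : 0 < D) (hB : InjGE e D)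
    (hdiam : ∀ p q : M, dist p q ≤ D) (p : Pr e D) (t : ℝ) (a : E) :
    TP F hD hB hdiam (rv p t) a = TP F hD hB hdiam p.v a :=
  TP_congr F hD hB hdiam (foot_rv p t) (bar_rv F hD hB hdiam p t) a

section Plots

variable {E' : Type} [NormedAddCommGroup E'] [NormedSpace ℝ E'] [FiniteDimensional ℝ E']

theorem at_TP (F : Facts e) {D : ℝ} (hD : 0 < D) (hB : InjGE e D)
    (hdiam : ∀ p q : M, dist p q ≤ D) {l : ℕ}
    (hP : ∀ x y : M, dist x y = D → finrank ℝ (H775.Pl e D x y) = l + 1)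
    {u : E' → UT E M} {x : E'} (hu : (dUT E M).At u x) {a : E' → E}
    (ha : (dTM E M).At (fun s => tb (foot (u s)) (a s)) x) :
    (dTM E M).At (fun s => tb (bar e D (u s)) (TP F hD hB hdiam (u s) (a s))) x := by
  have h2 : (dTM E M).At (fun s => tb (bar e D (u s)) (vec' (phi F (u s, D)))) x :=
    at_vec_tb (map_phiD F D hu)
  have h3 := at_smul_tb (sm_ip_raw hu ha (Eventually.of_forall fun _ => rfl)) h2
  have h4 := at_add_tb h3 (at_Tr F hD hB hdiam hP hu ha)
  have h5 : (fun s => tb (bar e D (u s)) (ip (foot (u s)) (vec' (u s)) (a s) •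
      vec' (phi F (u s, D)) + Tr F hD hB hdiam (u s) (a s))) =
      fun s => tb (bar e D (u s)) (TP F hD hB hdiam (u s) (a s)) := by
    funext s
    rw [TP_eq]
  rw [h5] at h4
  exact h4

theorem at_nP (F : Facts e) {D : ℝ} (hD : 0 < D) (hB : InjGE e D)
    (hdiam : ∀ p q : M, dist p q ≤ D) {l : ℕ}
    (hP : ∀ x y : M, dist x y = D → finrank ℝ (H775.Pl e D x y) = l + 1)
    {u : E' → UT E M} {x : E'} (hu : (dUT E M).At u x) {a : E' → E}
    (ha : (dTM E M).At (fun s => tb (foot (u s)) (a s)) x) :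
    (dTM E M).At (fun s => tb (foot (u s)) (nP e D (u s) (a s))) x :=
  at_sub_tb ha (at_prP F hD hB hdiam hP hu ha)

theorem at_nQ (F : Facts e) {D : ℝ} (hD : 0 < D) (hB : InjGE e D)
    (hdiam : ∀ p q : M, dist p q ≤ D) {l : ℕ}
    (hP : ∀ x y : M, dist x y = D → finrank ℝ (H775.Pl e D x y) = l + 1)
    {u : E' → UT E M} {x : E'} (hu : (dUT E M).At u x) {z : E' → E}
    (hz : (dTM E M).At (fun s => tb (bar e D (u s)) (z s)) x) :
    (dTM E M).At (fun s => tb (bar e D (u s)) (nQ e D (u s) (z s))) x :=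
  at_sub_tb hz (at_prQ F hD hB hdiam hP hu hz)

end Plots

end

end Vale.Agent.P231.WR
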