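import Vale.Agent.P231.WR.Ext
import Vale.Agent.P231.WR.Th
import Vale.Agent.P231.H304.FirstVar

/-!
# P231, stage 2: the bundle `L` as a field of subspaces, its orthogonal projection, and the
transport `Tr` along half a period, for every cut multiplicity
-/

set_option maxSynthPendingDepth 3
set_option linter.unusedSectionVars false
set_option linter.unusedVariables false

open Bundle Manifold Set Filter Module
open scoped ContDiff Manifold Topology

namespace Vale.Agent.P231.WR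

noncomputable section

open Vale.Agent.P234 Vale.Agent.P231 Vale.Agent.P231.Fm Vale.Agent.P231.W

variable {E : Type*} [NormedAddCommGroup E] [NormedSpace ℝ E]
  {M : Type*} [MetricSpace M] [ChartedSpace E M]
  [RiemannianBundle (fun x : M => TangentSpace 𝓘(ℝ, E) x)]
  {e : ∀ x : M, TangentSpace 𝓘(ℝ, E) x → M}
  [FiniteDimensional ℝ E] [IsManifold 𝓘(ℝ, E) ∞ M]
  [IsContMDiffRiemannianBundle 𝓘(ℝ, E) ∞ E (fun x : M => TangentSpace 𝓘(ℝ, E) x)]

/-- the space `L_v`: the vectors of the plane of the cut pair of `v` which are orthogonal to `v` -/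
def Lf (e : ∀ x : M, TangentSpace 𝓘(ℝ, E) x → M) (D : ℝ) (v : UT E M) :
    Submodule ℝ (TangentSpace 𝓘(ℝ, E) (foot v)) :=
  H775.Pl e D (bar e D v) (foot v) ⊓ (ℝ ∙ tv v)ᗮ

theorem mem_Lf {D : ℝ} {v : UT E M} {a : TangentSpace 𝓘(ℝ, E) (foot v)} :
    a ∈ Lf e D v ↔ a ∈ H775.Pl e D (bar e D v) (foot v) ∧ ip (foot v) (vec' v) a = 0 := by
  rw [Lf, Submodule.mem_inf, Submodule.mem_orthogonal_singleton_iff_inner_right]
  rfl

/-- the orthogonal projection to `L_v`, as a map of raw vectors -/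
def prL (e : ∀ x : M, TangentSpace 𝓘(ℝ, E) x → M) (D : ℝ) (v : UT E M) (a : E) : E :=
  (Lf e D v).starProjection (a : TangentSpace 𝓘(ℝ, E) (foot v))

theorem prL_add (D : ℝ) (v : UT E M) (a b : E) : prL e D v (a + b) = prL e D v a + prL e D v b :=
  map_add (Lf e D v).starProjection _ _

theorem prL_smul (D : ℝ) (v : UT E M) (c : ℝ) (a : E) : prL e D v (c • a) = c • prL e D v a :=
  map_smul (Lf e D v).starProjection c _

theorem prL_mem (D : ℝ) (v : UT E M) (a : E) :
    (prL (E := E) e D v a : TangentSpace 𝓘(ℝ, E) (foot v)) ∈ Lf e D v :=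
  Submodule.starProjection_apply_mem (Lf e D v) (a : TangentSpace 𝓘(ℝ, E) (foot v))

theorem prL_of_mem {D : ℝ} {v : UT E M} {a : E}
    (h : (a : TangentSpace 𝓘(ℝ, E) (foot v)) ∈ Lf e D v) : prL e D v a = a :=
  (Submodule.starProjection_eq_self_iff (K := Lf e D v)
    (v := (a : TangentSpace 𝓘(ℝ, E) (foot v)))).2 h

theorem ip_prL (D : ℝ) (v : UT E M) (a c : E) :
    ip (foot v) (prL e D v a) c = ip (foot v) a (prL e D v c) :=
  Submodule.inner_starProjection_left_eq_right (Lf e D v)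
    (a : TangentSpace 𝓘(ℝ, E) (foot v)) (c : TangentSpace 𝓘(ℝ, E) (foot v))

variable [CompactSpace M] [ConnectedSpace M] [IsRiemannianManifold 𝓘(ℝ, E) M]

theorem finrank_Lf (F : Facts e) {D : ℝ} (hD : 0 < D) (hB : InjGE e D) {l : ℕ}
    (hP : ∀ x y : M, dist x y = D → finrank ℝ (H775.Pl e D x y) = l + 1) (v : UT E M) :
    finrank ℝ (Lf e D v) = l := by
  have hfin := hP _ _ (dist_bar' F hD hB v)
  have hfd : FiniteDimensional ℝ (H775.Pl e D (bar e D v) (foot v)) :=
    Module.finite_of_finrank_pos (by omega)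
  have hv : tv v ≠ 0 := by
    intro h
    have h2 : ‖tv v‖ = 1 := nm_vec' v
    rw [h, norm_zero] at h2
    exact zero_ne_one h2
  have h1 := Submodule.finrank_add_inf_finrank_orthogonal (K₁ := ℝ ∙ tv v)
    (K₂ := H775.Pl e D (bar e D v) (foot v)) (by
      rw [Submodule.span_singleton_le_iff_mem]
      exact H775.Lk_subset_Pl D _ _ (mem_Lk_self D v))
  rw [finrank_span_singleton hv, hfin, inf_comm] at h1
  change 1 + finrank ℝ (Lf e D v) = l + 1 at h1
  omega

/-- the unit vectors of `L_v` -/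
theorem isL_iff (F : Facts e) {D : ℝ} (hD : 0 < D) (hB : InjGE e D)
    (hdiam : ∀ p q : M, dist p q ≤ D) {v : UT E M} {a : E}
    (ha : nm (foot v) a = 1) : (a : TangentSpace 𝓘(ℝ, E) (foot v)) ∈ Lf e D v ↔
      IsL e D v (W.mk (E := E) (foot v) a ha) := by
  refine (mem_Lf (a := (a : TangentSpace 𝓘(ℝ, E) (foot v)))).trans ?_
  constructor
  · rintro ⟨h1, h2⟩
    exact isL_mk (E := E) ((H775.mem_Lk_iff F hD hB hdiam (dist_bar' F hD hB v)).2 ⟨ha, h1⟩) h2
  · intro h
    exact ⟨H775.Lk_subset_Pl D _ _ h.mem_Lk, h.orth⟩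

theorem IsL.mem_Lf {D : ℝ} {v w : UT E M} (h : IsL e D v w) :
    (vec' (E := E) w : TangentSpace 𝓘(ℝ, E) (foot v)) ∈ Lf e D v :=
  WR.mem_Lf.2 ⟨H775.Lk_subset_Pl D _ _ h.mem_Lk, h.orth⟩

/-- the projection in a frame -/
theorem IsLF.prL_eq (F : Facts e) {D : ℝ} (hD : 0 < D) (hB : InjGE e D)
    (hdiam : ∀ p q : M, dist p q ≤ D) {l : ℕ}
    (hP : ∀ x y : M, dist x y = D → finrank ℝ (H775.Pl e D x y) = l + 1) {v : UT E M}
    {W : Fin l → UT E M} (h : IsLF e D v W) (a : E) :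
    prL e D v a = ∑ i, ip (foot v) (vec' (W i)) a • vec' (W i) := by
  have h1 := prL_mem (E := E) (e := e) D v a
  have h2 := (WR.mem_Lf (E := E)).1 h1
  have h3 := h.sum_eq F hD hB hdiam hP h2.1
  rw [h2.2, zero_smul, zero_add] at h3
  rw [h3]
  refine Finset.sum_congr rfl fun i _ => ?_
  rw [ip_comm', ip_prL, prL_of_mem (h.isL i).mem_Lf, ip_comm']

section Plots

variable {E' : Type} [NormedAddCommGroup E'] [NormedSpace ℝ E'] [FiniteDimensional ℝ E']

/-- a raw field along the footpoints of a plot -/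
theorem smV_iff_tb {u : E' → UT E M} {a : E' → E} {x : E'} :
    (dTM E M).At (fun s => tb (foot (u s)) (a s)) x ↔
      ∀ᶠ s in 𝓝 x, H775.SmV (E := E) (fun s => foot (u s)) (fun s => a s) s := Iff.rfl

/-- the inner product with a plot of vectors is smooth -/
theorem sm_ip_raw {u w : E' → UT E M} {a : E' → E} {x : E'} (hw : (dUT E M).At w x)
    (ha : (dTM E M).At (fun s => tb (foot (u s)) (a s)) x)
    (hf : ∀ᶠ s in 𝓝 x, foot (w s) = foot (u s)) :
    Sm (fun s => ip (foot (u s)) (vec' (w s)) (a s)) x := by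
  have h1 := at_iff.1 hw
  have h2 := smV_iff_tb.1 ha
  filter_upwards [h1, h2, eventually_eventually_nhds.2 hf] with s g1 g2 g3
  let w' : ∀ s, TangentSpace 𝓘(ℝ, E) (foot (u s)) := fun s => vec' (E := E) (w s)
  have h7 : H775.SmV (fun s => foot (u s)) w' s := by
    refine ContMDiffAt.congr_of_eventuallyEq g1 ?_
    filter_upwards [g3] with s' hs'
    exact tb_congr hs'.symm rfl
  exact h7.inner g2

/-- local orthonormal frames of `L` -/
theorem exists_frame (F : Facts e) {D : ℝ} (hD : 0 < D) (hB : InjGE e D)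
    (hdiam : ∀ p q : M, dist p q ≤ D) {l : ℕ}
    (hP : ∀ x y : M, dist x y = D → finrank ℝ (H775.Pl e D x y) = l + 1)
    {u : E' → UT E M} {x : E'} (hu : (dUT E M).At u x) {W₀ : Fin l → UT E M}
    (h : IsLF e D (u x) W₀) :
    ∃ W : Fin l → E' → UT E M, (∀ i, W i x = W₀ i) ∧ (∀ i, (dUT E M).At (W i) x) ∧
      ∀ᶠ s in 𝓝 x, IsLF e D (u s) (fun i => W i s) := by
  obtain ⟨W, h1, h2, h3, h4⟩ := exists_exts F hD hB hdiam hP hu W₀ h.isL h.orth
  refine ⟨W, h1, h2, ?_⟩
  have h5 : ∀ᶠ s in 𝓝 x, ∀ i, IsL e D (u s) (W i s) := eventually_all.2 h3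
  have h6 : ∀ᶠ s in 𝓝 x, ∀ i j, i ≠ j →
      ip (foot (u s)) (vec' (W i s)) (vec' (W j s)) = 0 :=
    eventually_all.2 fun i => eventually_all.2 fun j => by
      by_cases hij : i = j
      · exact Eventually.of_forall fun s h => absurd hij h
      · exact (h4 i j hij).mono fun s h _ => h
  filter_upwards [h5, h6] with s g1 g2
  exact ⟨g1, g2⟩

/-- **P1**: the projection to `L` is smooth -/
theorem at_prL (F : Facts e) {D : ℝ} (hD : 0 < D) (hB : InjGE e D)
    (hdiam : ∀ p q : M, dist p q ≤ D) {l : ℕ}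
    (hP : ∀ x y : M, dist x y = D → finrank ℝ (H775.Pl e D x y) = l + 1)
    {u : E' → UT E M} {x : E'} (hu : (dUT E M).At u x) {a : E' → E}
    (ha : (dTM E M).At (fun s => tb (foot (u s)) (a s)) x) :
    (dTM E M).At (fun s => tb (foot (u s)) (prL e D (u s) (a s))) x := by
  obtain ⟨W₀, hW₀⟩ := exists_isLF F hD hB hdiam hP (u x)
  obtain ⟨W, h1, h2, h3⟩ := exists_frame F hD hB hdiam hP hu hW₀
  have h4 : ∀ i, ∀ᶠ s in 𝓝 x, foot (W i s) = foot (u s) := fun i =>
    h3.mono fun s hs => (hs.isL i).foot_eq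
  have h5 := smV_sum Finset.univ hu h2 h4 (fun i => sm_ip_raw (h2 i) ha (h4 i))
  rw [smV_iff_tb]
  filter_upwards [h5, eventually_eventually_nhds.2 h3] with s g1 g2
  refine ContMDiffAt.congr_of_eventuallyEq g1 ?_
  filter_upwards [g2] with s' hs'
  exact tb_congr rfl (hs'.prL_eq F hD hB hdiam hP (a s'))

end Plots

/-! ### the transport along half a period -/

/-- the projection to `L_v`, as a vector of the plane -/
def pl (e : ∀ x : M, TangentSpace 𝓘(ℝ, E) x → M) (D : ℝ) (v : UT E M) (a : E) :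
    H703.Pl e D (bar e D v) (foot v) :=
  ⟨(prL (E := E) e D v a : TangentSpace 𝓘(ℝ, E) (foot v)), (mem_Lf.1 (prL_mem D v a)).1⟩

theorem pl_add (D : ℝ) (v : UT E M) (a b : E) : pl e D v (a + b) = pl e D v a + pl e D v b :=
  Subtype.ext (prL_add D v a b)

theorem pl_smul (D : ℝ) (v : UT E M) (c : ℝ) (a : E) : pl e D v (c • a) = c • pl e D v a :=
  Subtype.ext (prL_smul D v c a)

theorem pl_prL (D : ℝ) (v : UT E M) (a : E) : pl e D v (prL e D v a) = pl e D v a := by
  have h1 : prL (E := E) e D v (prL e D v a) = prL e D v a := prL_of_mem (prL_mem D v a)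
  exact Subtype.ext h1

/-- the transport `Tt` along half a period, composed with the projection to `L` -/
def Tr (F : Facts e) {D : ℝ} (hD : 0 < D) (hB : InjGE e D)
    (hdiam : ∀ p q : M, dist p q ≤ D) (v : UT E M) (a : E) : E :=
  (WD2.Tt F hD hB hdiam (dist_bar F hD hB v) (pl e D v a) :
    TangentSpace 𝓘(ℝ, E) (bar e D v))

theorem Tr_add (F : Facts e) {D : ℝ} (hD : 0 < D) (hB : InjGE e D)
    (hdiam : ∀ p q : M, dist p q ≤ D) (v : UT E M) (a b : E) :
    Tr F hD hB hdiam v (a + b) = Tr F hD hB hdiam v a + Tr F hD hB hdiam v b := by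
  unfold Tr
  rw [pl_add, map_add]
  rfl

theorem Tr_smul (F : Facts e) {D : ℝ} (hD : 0 < D) (hB : InjGE e D)
    (hdiam : ∀ p q : M, dist p q ≤ D) (v : UT E M) (c : ℝ) (a : E) :
    Tr F hD hB hdiam v (c • a) = c • Tr F hD hB hdiam v a := by
  unfold Tr
  rw [pl_smul, map_smul]
  rfl

theorem Tr_prL (F : Facts e) {D : ℝ} (hD : 0 < D) (hB : InjGE e D)
    (hdiam : ∀ p q : M, dist p q ≤ D) (v : UT E M) (a : E) :
    Tr F hD hB hdiam v (prL e D v a) = Tr F hD hB hdiam v a := by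
  unfold Tr
  rw [pl_prL]

/-- on vectors of `L_v` the transport is the arrival velocity -/
theorem IsL.Tr_eq (F : Facts e) {D : ℝ} (hD : 0 < D) (hB : InjGE e D)
    (hdiam : ∀ p q : M, dist p q ≤ D) {v w : UT E M} (h : IsL e D v w) :
    Tr F hD hB hdiam v (vec' w) = vec' (phi F (w, D)) := by
  have h1 : prL (E := E) e D v (vec' w) = vec' w := prL_of_mem h.mem_Lf
  have h2 := vel_eq_Tt F hD hB hdiam (dist_bar F hD hB v) h.mem_Lk
    (H703.Lk_subset_Pl e D _ _ h.mem_Lk)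
  have h3 : vec' (phi F (w, D)) = vel e (foot v) (vec' w) D := by
    rw [vec'_phi]
    exact vel_w h
  rw [h3]
  refine Eq.trans ?_ h2.symm
  have h4 : pl e D v (vec' w) = ⟨(vec' (E := E) w : TangentSpace 𝓘(ℝ, E) (foot v)),
    H703.Lk_subset_Pl e D _ _ h.mem_Lk⟩ := Subtype.ext h1
  unfold Tr
  rw [h4]

/-- the transport preserves the inner product -/
theorem ip_Tr (F : Facts e) {D : ℝ} (hD : 0 < D) (hB : InjGE e D)
    (hdiam : ∀ p q : M, dist p q ≤ D) (v : UT E M) (a c : E) :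
    ip (bar e D v) (Tr F hD hB hdiam v a) (Tr F hD hB hdiam v c) =
      ip (foot v) (prL e D v a) (prL e D v c) :=
  (WD2.Tt F hD hB hdiam (dist_bar F hD hB v)).inner_map_map (pl e D v a) (pl e D v c)

theorem ip_Tr_of_mem (F : Facts e) {D : ℝ} (hD : 0 < D) (hB : InjGE e D)
    (hdiam : ∀ p q : M, dist p q ≤ D) {v : UT E M} {a c : E}
    (ha : (a : TangentSpace 𝓘(ℝ, E) (foot v)) ∈ Lf e D v)
    (hc : (c : TangentSpace 𝓘(ℝ, E) (foot v)) ∈ Lf e D v) :
    ip (gm e (v, D)) (Tr F hD hB hdiam v a) (Tr F hD hB hdiam v c) = ip (foot v) a c := by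
  have h1 := ip_Tr F hD hB hdiam v a c
  rw [prL_of_mem ha, prL_of_mem hc] at h1
  exact h1

/-- the transported vectors are vectors of `L` at the far end -/
theorem Tr_mem (F : Facts e) {D : ℝ} (hD : 0 < D) (hB : InjGE e D)
    (hdiam : ∀ p q : M, dist p q ≤ D) (v : UT E M) (a : E) :
    (Tr (E := E) F hD hB hdiam v a : TangentSpace 𝓘(ℝ, E) (foot (phi F (v, D)))) ∈
      Lf e D (phi F (v, D)) := by
  refine mem_Lf.2 ⟨?_, ?_⟩
  · rw [bar_phi F hD hB hdiam v]
    exact (WD2.Tt F hD hB hdiam (dist_bar F hD hB v) (pl e D v a)).2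
  · have h1 := vel_eq_Tt F hD hB hdiam (dist_bar F hD hB v) (mem_Lk_self D v)
      (H703.Lk_subset_Pl e D _ _ (mem_Lk_self D v))
    have h2 : ip (bar e D v) (vel e (foot v) (vec' v) D) (Tr F hD hB hdiam v a) =
        ip (foot v) (vec' v) (prL e D v a) := by
      have h3 := (WD2.Tt F hD hB hdiam (dist_bar F hD hB v)).inner_map_map
        ⟨tv v, H703.Lk_subset_Pl e D _ _ (mem_Lk_self D v)⟩ (pl e D v a)
      refine Eq.trans ?_ h3
      exact congrArg (fun b : E => ip (bar e D v) b (Tr F hD hB hdiam v a)) h1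
    exact h2.trans (mem_Lf.1 (prL_mem D v a)).2

/-- raw form of `Tt_Tt` -/
theorem Tt_Tt_raw (F : Facts e) {D : ℝ} (hD : 0 < D) (hB : InjGE e D)
    (hdiam : ∀ p q : M, dist p q ≤ D) {x y x' : M} (hx : x' = x) (hxy : dist x y = D)
    (hyx : dist y x' = D) (a : H775.Pl e D y x) {b : TangentSpace 𝓘(ℝ, E) y}
    (hb : b ∈ H775.Pl e D x' y) (hab : b = WD2.Tt F hD hB hdiam hxy a) :
    ((WD2.Tt F hD hB hdiam hyx ⟨b, hb⟩ : TangentSpace 𝓘(ℝ, E) x') : E) =
      (a : TangentSpace 𝓘(ℝ, E) x) := by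
  subst hx
  subst hab
  exact congrArg Subtype.val (WD2.Tt_Tt F hD hB hdiam hxy hyx a)

/-- the transport along a full period is the identity -/
theorem Tr_Tr (F : Facts e) {D : ℝ} (hD : 0 < D) (hB : InjGE e D)
    (hdiam : ∀ p q : M, dist p q ≤ D) (v : UT E M) (a : E) :
    Tr F hD hB hdiam (phi F (v, D)) (Tr F hD hB hdiam v a) = prL e D v a := by
  have h1 := Tr_mem F hD hB hdiam v a
  have h2 : prL (E := E) e D (phi F (v, D)) (Tr F hD hB hdiam v a) = Tr F hD hB hdiam v a :=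
    prL_of_mem h1
  exact Tt_Tt_raw F hD hB hdiam (bar_phi F hD hB hdiam v) (dist_bar F hD hB v)
    (dist_bar F hD hB (phi F (v, D))) (pl e D v a)
    (mem_Lf.1 (prL_mem D (phi F (v, D)) (Tr F hD hB hdiam v a))).1 h2

theorem Tr_Tr_of_mem (F : Facts e) {D : ℝ} (hD : 0 < D) (hB : InjGE e D)
    (hdiam : ∀ p q : M, dist p q ≤ D) {v : UT E M} {a : E}
    (ha : (a : TangentSpace 𝓘(ℝ, E) (foot v)) ∈ Lf e D v) :
    Tr F hD hB hdiam (phi F (v, D)) (Tr F hD hB hdiam v a) = a := by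
  rw [Tr_Tr, prL_of_mem ha]

/-- the transport as a linear map -/
def TrL (F : Facts e) {D : ℝ} (hD : 0 < D) (hB : InjGE e D)
    (hdiam : ∀ p q : M, dist p q ≤ D) (v : UT E M) : E →ₗ[ℝ] E where
  toFun := Tr F hD hB hdiam v
  map_add' := Tr_add F hD hB hdiam v
  map_smul' := Tr_smul F hD hB hdiam v

@[simp] theorem TrL_apply (F : Facts e) {D : ℝ} (hD : 0 < D) (hB : InjGE e D)
    (hdiam : ∀ p q : M, dist p q ≤ D) (v : UT E M) (a : E) :
    TrL F hD hB hdiam v a = Tr F hD hB hdiam v a := rfl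

/-- the transport in a frame -/
theorem IsLF.Tr_eq (F : Facts e) {D : ℝ} (hD : 0 < D) (hB : InjGE e D)
    (hdiam : ∀ p q : M, dist p q ≤ D) {l : ℕ}
    (hP : ∀ x y : M, dist x y = D → finrank ℝ (H775.Pl e D x y) = l + 1) {v : UT E M}
    {W : Fin l → UT E M} (h : IsLF e D v W) (a : E) :
    Tr F hD hB hdiam v a = ∑ i, ip (foot v) (vec' (W i)) a • vec' (phi F (W i, D)) := by
  rw [← Tr_prL, h.prL_eq F hD hB hdiam hP a, ← TrL_apply, map_sum]
  refine Finset.sum_congr rfl fun i _ => ?_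
  rw [map_smul, TrL_apply, (h.isL i).Tr_eq F hD hB hdiam]

/-- **P3**: the transport is smooth -/
theorem at_Tr (F : Facts e) {D : ℝ} (hD : 0 < D) (hB : InjGE e D)
    (hdiam : ∀ p q : M, dist p q ≤ D) {l : ℕ}
    (hP : ∀ x y : M, dist x y = D → finrank ℝ (H775.Pl e D x y) = l + 1)
    {E' : Type} [NormedAddCommGroup E'] [NormedSpace ℝ E'] [FiniteDimensional ℝ E']
    {u : E' → UT E M} {x : E'} (hu : (dUT E M).At u x) {a : E' → E}
    (ha : (dTM E M).At (fun s => tb (foot (u s)) (a s)) x) :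
    (dTM E M).At (fun s => tb (gm e (u s, D)) (Tr F hD hB hdiam (u s) (a s))) x := by
  obtain ⟨W₀, hW₀⟩ := exists_isLF F hD hB hdiam hP (u x)
  obtain ⟨W, h1, h2, h3⟩ := exists_frame F hD hB hdiam hP hu hW₀
  have h4 : ∀ i, ∀ᶠ s in 𝓝 x, foot (W i s) = foot (u s) := fun i =>
    h3.mono fun s hs => (hs.isL i).foot_eq
  have hu' : (dUT E M).At (fun s => phi F (u s, D)) x := map_phiD F D hu
  have h2' : ∀ i, (dUT E M).At (fun s => phi F (W i s, D)) x := fun i => map_phiD F D (h2 i)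
  have h4' : ∀ i, ∀ᶠ s in 𝓝 x, foot (phi F (W i s, D)) = foot (phi F (u s, D)) := fun i =>
    h3.mono fun s hs => (hs.isL i).bar_eq
  have h5 := smV_sum Finset.univ hu' h2' h4' (fun i => sm_ip_raw (h2 i) ha (h4 i))
  change ∀ᶠ s in 𝓝 x, H775.SmV (E := E) (fun s => gm e (u s, D))
    (fun s => Tr (E := E) F hD hB hdiam (u s) (a s)) s
  filter_upwards [h5, eventually_eventually_nhds.2 h3] with s g1 g2
  refine ContMDiffAt.congr_of_eventuallyEq g1 ?_
  filter_upwards [g2] with s' hs'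
  exact tb_congr rfl (hs'.Tr_eq F hD hB hdiam hP (a s'))

/-! ### the first variation at a cut pair -/

theorem ip_congr3' {x y : M} {a b a' b' : E} (h : x = y) (ha : a = a') (hb : b = b') :
    ip x a b = ip y a' b' := by
  subst h ha hb
  rfl

/-- **First variation at a cut pair**: for a variation of `v` the displacements of the two ends of
the minimal geodesics have the same component along every vector of `L_v` (and its transport). -/
theorem first_var_L (F : Facts e) {D : ℝ} (hD : 0 < D) (hB : InjGE e D)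
    (hdiam : ∀ p q : M, dist p q ≤ D) {l : ℕ}
    (hP : ∀ x y : M, dist x y = D → finrank ℝ (H775.Pl e D x y) = l + 1)
    {E' : Type} [NormedAddCommGroup E'] [NormedSpace ℝ E'] [FiniteDimensional ℝ E']
    {u : E' → UT E M} {x : E'} (hu : (dUT E M).At u x) {w : UT E M} (hw : IsL e D (u x) w)
    (ζ : E') :
    ip (bar e D (u x)) (vec' (phi F (w, D)))
        (mfderiv 𝓘(ℝ, E') 𝓘(ℝ, E) (fun y => bar e D (u y)) x ζ) =
      ip (foot (u x)) (vec' w) (mfderiv 𝓘(ℝ, E') 𝓘(ℝ, E) (fun y => foot (u y)) x ζ) := by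
  obtain ⟨W, h1, h2, h3⟩ := exists_local F hD hB hdiam hP hu hw
  have h4 := CV.first_var F h2 D ζ
  have h5 : (fun y => gm e (W y, D)) =ᶠ[𝓝 x] fun y => bar e D (u y) :=
    h3.mono fun y hy => hy.bar_eq
  have h6 : (foot ∘ W) =ᶠ[𝓝 x] fun y => foot (u y) := h3.mono fun y hy => hy.foot_eq
  have h7 : (mfderiv 𝓘(ℝ, E') 𝓘(ℝ, E) (fun y => gm e (W y, D)) x ζ : E) =
      mfderiv 𝓘(ℝ, E') 𝓘(ℝ, E) (fun y => bar e D (u y)) x ζ :=
    congrArg (fun T : E' →L[ℝ] E => T ζ) (Filter.EventuallyEq.mfderiv_eq h5)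
  have h8 : (mfderiv 𝓘(ℝ, E') 𝓘(ℝ, E) (foot ∘ W) x ζ : E) =
      mfderiv 𝓘(ℝ, E') 𝓘(ℝ, E) (fun y => foot (u y)) x ζ :=
    congrArg (fun T : E' →L[ℝ] E => T ζ) (Filter.EventuallyEq.mfderiv_eq h6)
  have h9 := h3.self_of_nhds
  rw [h1] at h9
  have g1 : bar e D (u x) = gm e (W x, D) := by
    rw [h1]
    exact h9.bar_eq.symm
  have g2 : vec' (phi F (w, D)) = vel e (foot (W x)) (vec' (W x)) D := by rw [h1, vec'_phi]
  have g3 : foot (W x) = foot (u x) := by
    rw [h1]
    exact h9.foot_eq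
  have g4 : vec' (W x) = vec' w := by rw [h1]
  exact (ip_congr3' (E := E) g1 g2 h7.symm).trans (h4.trans (ip_congr3' (E := E) g3 g4 h8))

/-- the rotated vectors in a fixed tangent space form a plot -/
theorem at_circle (x : M) {a b : E} (ha : ip x a a = 1) (hb : ip x b b = 1) (hab : ip x a b = 0)
    (t : ℝ) : (dUT E M).At (fun σ : ℝ => W.mk x (Real.cos σ • a + Real.sin σ • b)
      (nm_comb ha hb hab (Real.cos_sq_add_sin_sq σ))) t := by
  refine at_comb (u := fun _ => W.mk x a (nm_eq_one ha)) (w := fun _ => W.mk x b (nm_eq_one hb))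
    (a := Real.cos) (b := Real.sin) (WF.const_at _ t) (WF.const_at _ t)
    (Sm.of_contDiff Real.contDiff_cos _) (Sm.of_contDiff Real.contDiff_sin _)
    (Eventually.of_forall fun _ => rfl) (Eventually.of_forall fun _ => ⟨rfl, rfl⟩)

theorem mfderiv_circle (F : Facts e) (x : M) (a b : E) (t : ℝ) :
    (mfderiv 𝓘(ℝ, ℝ) 𝓘(ℝ, E) (fun σ : ℝ => e x (t • (Real.cos σ • a + Real.sin σ • b) : E)) 0
      (1 : ℝ) : E) = t • dE e x (t • a) b := by
  let a' : TangentSpace 𝓘(ℝ, E) x := a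
  let b' : TangentSpace 𝓘(ℝ, E) x := b
  have h1 : HasDerivAt (fun s : ℝ => t • (Real.cos s • a' + Real.sin s • b')) (t • b') 0 :=
    (H703.hasDerivAt_circle a' b').const_smul t
  have h2 := mfderiv_exp_curve F.isExp x h1
  have h3 : (t • (Real.cos 0 • a' + Real.sin 0 • b') : TangentSpace 𝓘(ℝ, E) x) = t • a' := by
    rw [Real.cos_zero, Real.sin_zero, one_smul, zero_smul, add_zero]
  rw [h3] at h2
  exact h2.trans (dE_smul e x _ _ t)

/-- **P4, first case**: the Wronskian of a Jacobi field with the rotation field, unit vectors -/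
theorem wronskian_unit (F : Facts e) {D : ℝ} (hD : 0 < D) (hB : InjGE e D)
    (hdiam : ∀ p q : M, dist p q ≤ D) {l : ℕ}
    (hP : ∀ x y : M, dist x y = D → finrank ℝ (H775.Pl e D x y) = l + 1)
    {v w : UT E M} (hw : IsL e D v w) (s : ℝ) {c : E} (hc : ip (gm e (v, s)) c c = 1)
    (hvc : ip (gm e (v, s)) (vel e (foot v) (vec' v) s) c = 0) :
    ip (gm e (v, D)) (vec' (phi F (w, D))) (jf e (foot v) (vec' v) s D c) =
      ip (foot v) (vec' w) (jf e (foot v) (vec' v) s 0 c) := by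
  set y : M := gm e (v, s) with hy
  set b : E := vel e (foot v) (vec' v) s with hb
  have hbb : ip y b b = 1 := by
    have h1 := ip_vec' (phi F (v, s))
    exact h1
  set m : ℝ → UT E M := fun σ => W.mk y (Real.cos σ • b + Real.sin σ • c)
    (nm_comb hbb hc hvc (Real.cos_sq_add_sin_sq σ)) with hm
  have hmat : (dUT E M).At m 0 := at_circle y hbb hc hvc 0
  have hm0 : m 0 = phi F (v, s) := by
    refine mk_congr rfl ?_
    rw [Real.cos_zero, Real.sin_zero, one_smul, zero_smul, add_zero]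
  set u : ℝ → UT E M := fun σ => phi F (m σ, -s) with hu
  have hua : (dUT E M).At u 0 := map_phiD F (-s) hmat
  have hu0 : u 0 = v := by
    simp only [hu]
    rw [hm0, phi_add, add_neg_cancel, phi_zero]
  have hwu : IsL e D (u 0) w := by
    rw [hu0]
    exact hw
  have key := first_var_L F hD hB hdiam hP hua hwu (1 : ℝ)
  have k1 : (fun σ => foot (u σ)) =
      fun σ : ℝ => e y ((-s) • (Real.cos σ • b + Real.sin σ • c) : E) := rfl
  have k2 : (fun σ => bar e D (u σ)) =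
      fun σ : ℝ => e y ((D - s) • (Real.cos σ • b + Real.sin σ • c) : E) := by
    funext σ
    change gm e (phi F (m σ, -s), D) = _
    rw [gm_phi]
    have h1 : -s + D = D - s := by ring
    rw [h1]
    rfl
  have k3 : (mfderiv 𝓘(ℝ, ℝ) 𝓘(ℝ, E) (fun σ => foot (u σ)) 0 (1 : ℝ) : E) =
      jf e (foot v) (vec' v) s 0 c := by
    have h1 := mfderiv_circle F y b c (-s)
    rw [jf, zero_sub]
    exact h1
  have k4 : (mfderiv 𝓘(ℝ, ℝ) 𝓘(ℝ, E) (fun σ => bar e D (u σ)) 0 (1 : ℝ) : E) =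
      jf e (foot v) (vec' v) s D c := by
    rw [jf]
    refine Eq.trans ?_ (mfderiv_circle F y b c (D - s))
    exact congrArg (fun f : ℝ → M => (mfderiv 𝓘(ℝ, ℝ) 𝓘(ℝ, E) f 0 (1 : ℝ) : E)) k2
  have g1 : gm e (v, D) = bar e D (u 0) := by rw [hu0]; rfl
  have g2 : foot (u 0) = foot v := by rw [hu0]
  exact (ip_congr3' (E := E) g1 rfl k4.symm).trans
    (key.trans (ip_congr3' (E := E) g2 rfl k3))

theorem jf_add' (x : M) (u : E) (s t : ℝ) (c c' : E) :
    jf e x u s t (c + c') = jf e x u s t c + jf e x u s t c' := by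
  rw [jf, dE_add, smul_add]
  rfl

theorem jf_smul' (x : M) (u : E) (s t : ℝ) (r : ℝ) (c : E) :
    jf e x u s t (r • c) = r • jf e x u s t c := by
  rw [jf, dE_smul, smul_comm]
  rfl

/-- **P4, second case** -/
theorem wronskian_w (F : Facts e) {D : ℝ} (hD : 0 < D) (hB : InjGE e D)
    (hdiam : ∀ p q : M, dist p q ≤ D) {l : ℕ}
    (hP : ∀ x y : M, dist x y = D → finrank ℝ (H775.Pl e D x y) = l + 1)
    {v w : UT E M} (hw : IsL e D v w) (s : ℝ) (c : E) :
    ip (gm e (v, D)) (vec' (phi F (w, D))) (jf e (foot v) (vec' v) s D c) =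
      ip (foot v) (vec' w) (jf e (foot v) (vec' v) s 0 c) := by
  set y : M := gm e (v, s) with hy
  set b : E := vel e (foot v) (vec' v) s with hb
  have hbb : ip y b b = 1 := ip_vec' (phi F (v, s))
  -- the tangential part
  have htan : ip (gm e (v, D)) (vec' (phi F (w, D))) (jf e (foot v) (vec' v) s D b) =
      ip (foot v) (vec' w) (jf e (foot v) (vec' v) s 0 b) := by
    have h1 : jf e (foot v) (vec' v) s D b = (D - s) • vel e (foot v) (vec' v) D :=
      jf_vel F (foot v) (vec' v) D s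
    have h2 : jf e (foot v) (vec' v) s 0 b = (0 - s) • vel e (foot v) (vec' v) 0 :=
      jf_vel F (foot v) (vec' v) 0 s
    have h3 := (isL_Th F hD hB hdiam hw).orth
    have h4 : vel e (foot v) (vec' v) 0 = vec' v := vel_zero F.isExp _ _
    rw [h1, h2, h4, ip_smul_right', ip_smul_right', ip_comm' _ (vec' w), hw.orth,
      ip_comm' _ (vec' (phi F (w, D)))]
    have h5 : ip (gm e (v, D)) (vel e (foot v) (vec' v) D) (vec' (phi F (w, D))) = 0 := h3
    rw [h5, mul_zero, mul_zero]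
  -- the normal part
  set α : ℝ := ip y b c with hα
  set c' : E := c - α • b with hc'
  have hbc : ip y b c' = 0 := by
    rw [hc', ip_sub_right', ip_smul_right', hbb, ← hα]
    ring
  have hcc : c = α • b + c' := by rw [hc', add_sub_cancel]
  have hnor : ip (gm e (v, D)) (vec' (phi F (w, D))) (jf e (foot v) (vec' v) s D c') =
      ip (foot v) (vec' w) (jf e (foot v) (vec' v) s 0 c') := by
    set ρ : ℝ := nm y c' with hρ
    have hρ2 : ip y c' c' = ρ ^ 2 :=
      real_inner_self_eq_norm_sq (F := TangentSpace 𝓘(ℝ, E) y) _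
    rcases eq_or_ne ρ 0 with h0 | h0
    · have h1 : (c' : E) = 0 := norm_eq_zero (E := TangentSpace 𝓘(ℝ, E) y) |>.1 h0
      have h2 : jf e (foot v) (vec' v) s D c' = (0 : ℝ) • jf e (foot v) (vec' v) s D c' := by
        conv_lhs => rw [h1, ← zero_smul ℝ c', jf_smul']
      have h3 : jf e (foot v) (vec' v) s 0 c' = (0 : ℝ) • jf e (foot v) (vec' v) s 0 c' := by
        conv_lhs => rw [h1, ← zero_smul ℝ c', jf_smul']
      rw [h2, h3, ip_smul_right', ip_smul_right', zero_mul, zero_mul]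
    · have h2 : ip y (ρ⁻¹ • c') (ρ⁻¹ • c') = 1 := by
        rw [ip_smul_left', ip_smul_right', hρ2]
        field_simp
      have h3 : ip y b (ρ⁻¹ • c') = 0 := by rw [ip_smul_right', hbc, mul_zero]
      have h4 := wronskian_unit F hD hB hdiam hP hw s h2 h3
      rw [jf_smul', jf_smul', ip_smul_right', ip_smul_right'] at h4
      exact mul_left_cancel₀ (inv_ne_zero h0) h4
  rw [hcc, jf_add', jf_add', jf_smul', jf_smul', ip_add_right', ip_add_right', ip_smul_right',
    ip_smul_right', htan, hnor]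

/-- **P4**: the Wronskian of a Jacobi field with the rotation field -/
theorem wronskian_D (F : Facts e) {D : ℝ} (hD : 0 < D) (hB : InjGE e D)
    (hdiam : ∀ p q : M, dist p q ≤ D) {l : ℕ}
    (hP : ∀ x y : M, dist x y = D → finrank ℝ (H775.Pl e D x y) = l + 1)
    {v : UT E M} {a : E} (ha : (a : TangentSpace 𝓘(ℝ, E) (foot v)) ∈ Lf e D v) (s : ℝ) (c : E) :
    ip (gm e (v, D)) (Tr F hD hB hdiam v a) (jf e (foot v) (vec' v) s D c) =
      ip (foot v) a (jf e (foot v) (vec' v) s 0 c) := by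
  set ρ : ℝ := nm (foot v) a with hρ
  rcases eq_or_ne ρ 0 with h0 | h0
  · have h1 : (a : E) = 0 := norm_eq_zero (E := TangentSpace 𝓘(ℝ, E) (foot v)) |>.1 h0
    have h2 : Tr F hD hB hdiam v a = (0 : ℝ) • Tr F hD hB hdiam v a := by
      conv_lhs => rw [h1, ← zero_smul ℝ a, Tr_smul]
    have h3 : a = (0 : ℝ) • a := by rw [zero_smul, h1]
    rw [h2, ip_smul_left', zero_mul, h3, ip_smul_left', zero_mul]
  · have h1 : a = ρ • (ρ⁻¹ • a) := by rw [smul_smul, mul_inv_cancel₀ h0, one_smul]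
    have h2 : ip (foot v) (ρ⁻¹ • a) (ρ⁻¹ • a) = 1 := by
      have h3 : ip (foot v) a a = ρ ^ 2 :=
        real_inner_self_eq_norm_sq (F := TangentSpace 𝓘(ℝ, E) (foot v)) _
      rw [ip_smul_left', ip_smul_right', h3]
      field_simp
    have h3 : ((ρ⁻¹ • a : E) : TangentSpace 𝓘(ℝ, E) (foot v)) ∈ Lf e D v :=
      Submodule.smul_mem _ ρ⁻¹ ha
    have h4 := (isL_iff F hD hB hdiam (nm_eq_one h2)).1 h3
    have h5 := wronskian_w F hD hB hdiam hP h4 s c
    have h6 := h4.Tr_eq F hD hB hdiam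
    rw [← h6, vec'_mk] at h5
    rw [h1, Tr_smul, ip_smul_left', ip_smul_left', h5]

end

end Vale.Agent.P231.WR
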