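import Vale.Agent.P231.WR.Sec

/-!
# P231, stage 1, block F2 (part 3): parity. If the cut multiplicity `l` is at least one, the
dimension of the cut loci is even; for `l = 1` the manifold has even dimension.
-/

set_option maxSynthPendingDepth 3
set_option linter.unusedSectionVars false
set_option linter.unusedVariables false

open Bundle Manifold Set Filter Module
open scoped ContDiff Manifold Topology

namespace Vale.Agent.P231.WR

noncomputable section

open Vale.Agent.P234 Vale.Agent.P231 Vale.Agent.P231.Fm Vale.Agent.P231.W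

/-- a path of isomorphisms from `B` to `-B` exists only in even dimension -/
theorem even_of_path {Q Q' : Type*} [NormedAddCommGroup Q] [NormedSpace ℝ Q]
    [FiniteDimensional ℝ Q] [NormedAddCommGroup Q'] [NormedSpace ℝ Q'] [FiniteDimensional ℝ Q']
    (hQ : finrank ℝ Q = finrank ℝ Q') (B : ℝ → Q →ₗ[ℝ] Q')
    (hc : ∀ ζ, Continuous fun θ => B θ ζ) (hinj : ∀ θ, Function.Injective (B θ)) {a b : ℝ}
    (hab : B b = -B a) : Even (finrank ℝ Q) := by
  let T : Q' ≃ₗ[ℝ] Q := (LinearEquiv.ofFinrankEq Q Q' hQ).symm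
  let bs := Module.finBasis ℝ Q
  let f : ℝ → ℝ := fun θ => LinearMap.det ((T : Q' →ₗ[ℝ] Q) ∘ₗ B θ)
  have hf : Continuous f := by
    have h1 : f = fun θ => (LinearMap.toMatrix bs bs ((T : Q' →ₗ[ℝ] Q) ∘ₗ B θ)).det := by
      funext θ
      exact (LinearMap.det_toMatrix bs _).symm
    rw [h1]
    refine Continuous.matrix_det ?_
    refine continuous_matrix fun i j => ?_
    have h2 : (fun θ => LinearMap.toMatrix bs bs ((T : Q' →ₗ[ℝ] Q) ∘ₗ B θ) i j) =
        fun θ => ((bs.coord i) ∘ₗ (T : Q' →ₗ[ℝ] Q)) (B θ (bs j)) := by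
      funext θ
      rw [LinearMap.toMatrix_apply]
      rfl
    rw [h2]
    exact (LinearMap.continuous_of_finiteDimensional _).comp (hc (bs j))
  have hne : ∀ θ, f θ ≠ 0 := by
    intro θ
    have h1 : Function.Injective ((T : Q' →ₗ[ℝ] Q) ∘ₗ B θ) := T.injective.comp (hinj θ)
    have h2 := LinearMap.isUnit_iff_ker_eq_bot ((T : Q' →ₗ[ℝ] Q) ∘ₗ B θ)
    exact (LinearMap.isUnit_det _ (h2.2 (LinearMap.ker_eq_bot.2 h1))).ne_zero
  have hneg : f b = (-1) ^ finrank ℝ Q * f a := by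
    have h1 : (T : Q' →ₗ[ℝ] Q) ∘ₗ B b = (-1 : ℝ) • ((T : Q' →ₗ[ℝ] Q) ∘ₗ B a) := by
      rw [hab, LinearMap.comp_neg, neg_smul, one_smul]
    simp only [f]
    rw [h1, LinearMap.det_smul]
  by_contra hodd
  rw [Nat.not_even_iff_odd] at hodd
  rw [hodd.neg_one_pow] at hneg
  have hsq : 0 < f a * f a := mul_self_pos.2 (hne a)
  have h3 : f b = -f a := by linarith
  have h4 : IsPreconnected (univ : Set ℝ) := isPreconnected_univ
  rcases lt_or_gt_of_ne (hne a) with h5 | h5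
  · have h6 : (0 : ℝ) ∈ f '' univ := by
      have h7 := h4.intermediate_value (mem_univ a) (mem_univ b) hf.continuousOn
      exact h7 ⟨h5.le, by rw [h3]; linarith⟩
    obtain ⟨θ, -, hθ⟩ := h6
    exact hne θ hθ
  · have h6 : (0 : ℝ) ∈ f '' univ := by
      have h7 := h4.intermediate_value (mem_univ b) (mem_univ a) hf.continuousOn
      exact h7 ⟨by rw [h3]; linarith, h5.le⟩
    obtain ⟨θ, -, hθ⟩ := h6
    exact hne θ hθ

variable {E : Type*} [NormedAddCommGroup E] [NormedSpace ℝ E]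
  {M : Type*} [MetricSpace M] [ChartedSpace E M]
  [RiemannianBundle (fun x : M => TangentSpace 𝓘(ℝ, E) x)]
  {e : ∀ x : M, TangentSpace 𝓘(ℝ, E) x → M}

variable [FiniteDimensional ℝ E] [IsManifold 𝓘(ℝ, E) ∞ M]
  [IsContMDiffRiemannianBundle 𝓘(ℝ, E) ∞ E (fun x : M => TangentSpace 𝓘(ℝ, E) x)]
  [CompactSpace M] [ConnectedSpace M] [IsRiemannianManifold 𝓘(ℝ, E) M]

/-- antipodal directions have the same cut point -/
theorem exp_neg_eq (F : Facts e) {D : ℝ} (hD : 0 < D) (hB : InjGE e D)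
    (hdiam : ∀ p q : M, dist p q ≤ D) {x : M} {u : TangentSpace 𝓘(ℝ, E) x} (hu : ‖u‖ = 1) :
    e x (D • (-u)) = e x (D • u) := by
  have h1 : u ∈ Lk e D (e x (D • u)) x := ⟨hu, rfl⟩
  exact (link_neg F hD hB hdiam h1).2

/-- the differentials of the exponential map at antipodal directions -/
theorem dE_antipodal (F : Facts e) {D : ℝ} (hD : 0 < D) (hB : InjGE e D)
    (hdiam : ∀ p q : M, dist p q ≤ D) {x : M} {u z : TangentSpace 𝓘(ℝ, E) x} (hu : ‖u‖ = 1)
    (hz : ‖z‖ = 1) (huz : (inner ℝ u z : ℝ) = 0) :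
    (dE e x (D • (-u) : TangentSpace 𝓘(ℝ, E) x) z : E) =
      -(dE e x (D • u : TangentSpace 𝓘(ℝ, E) x) z : E) := by
  have hunit : ∀ s : ℝ, ‖Real.cos s • u + Real.sin s • z‖ = 1 := by
    intro s
    have h1 : ‖Real.cos s • u + Real.sin s • z‖ ^ 2 = 1 := by
      rw [norm_add_sq_real, norm_smul, norm_smul, hu, hz, inner_smul_left, inner_smul_right, huz]
      simp
    nlinarith only [h1, norm_nonneg (Real.cos s • u + Real.sin s • z)]
  have h1 : HasDerivAt (fun s : ℝ => D • (Real.cos s • u + Real.sin s • z)) (D • z) 0 :=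
    (H703.hasDerivAt_circle u z).const_smul D
  have h2 : HasDerivAt (fun s : ℝ => D • (-(Real.cos s • u + Real.sin s • z))) (D • (-z)) 0 :=
    (H703.hasDerivAt_circle u z).neg.const_smul D
  have h3 := mfderiv_exp_curve F.isExp x h1
  have h4 := mfderiv_exp_curve F.isExp x h2
  have h5 : (fun s : ℝ => e x (D • (-(Real.cos s • u + Real.sin s • z)))) =
      fun s : ℝ => e x (D • (Real.cos s • u + Real.sin s • z)) := by
    funext s
    exact exp_neg_eq F hD hB hdiam (hunit s)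
  rw [mfderiv_congr_curve h5 0, h3] at h4
  have h6 : (D • (Real.cos 0 • u + Real.sin 0 • z) : TangentSpace 𝓘(ℝ, E) x) = D • u := by
    rw [Real.cos_zero, Real.sin_zero, one_smul, zero_smul, add_zero]
  have h7 : (D • (-(Real.cos 0 • u + Real.sin 0 • z)) : TangentSpace 𝓘(ℝ, E) x) = D • (-u) := by
    rw [Real.cos_zero, Real.sin_zero, one_smul, zero_smul, add_zero]
  rw [h6, h7] at h4
  have h8 : (dE e x (D • u : TangentSpace 𝓘(ℝ, E) x) (D • z : TangentSpace 𝓘(ℝ, E) x) : E) =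
      D • dE e x (D • u : TangentSpace 𝓘(ℝ, E) x) z := dE_smul e x _ _ D
  have h9 : (D • (-z) : TangentSpace 𝓘(ℝ, E) x) = (-D) • z := by rw [smul_neg, neg_smul]
  have h10 : (dE e x (D • (-u) : TangentSpace 𝓘(ℝ, E) x) (D • (-z) : TangentSpace 𝓘(ℝ, E) x) : E)
      = (-D) • dE e x (D • (-u) : TangentSpace 𝓘(ℝ, E) x) z := by
    rw [h9]
    exact dE_smul e x _ _ (-D)
  have h11 : D • dE e x (D • u : TangentSpace 𝓘(ℝ, E) x) z =
      (-D) • dE e x (D • (-u) : TangentSpace 𝓘(ℝ, E) x) z := h8.symm.trans (h4.trans h10)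
  rw [neg_smul] at h11
  have h12 : D • (dE e x (D • (-u) : TangentSpace 𝓘(ℝ, E) x) z +
      dE e x (D • u : TangentSpace 𝓘(ℝ, E) x) z) = 0 := by
    rw [smul_add, h11, add_neg_cancel]
  have h13 := (smul_eq_zero.1 h12).resolve_left hD.ne'
  exact eq_neg_of_add_eq_zero_left h13

/-- PARITY: the orthogonal complement of the plane of a cut pair has even dimension -/
theorem even_orth (F : Facts e) {D : ℝ} (hD : 0 < D) (hB : InjGE e D)
    (hdiam : ∀ p q : M, dist p q ≤ D) {x y : M} (hyx : dist y x = D)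
    (h2 : 2 ≤ finrank ℝ (H775.Pl e D y x)) :
    Even (finrank ℝ ((H775.Pl e D y x)ᗮ : Submodule ℝ (TangentSpace 𝓘(ℝ, E) x))) := by
  obtain ⟨v, hv⟩ := H775.exists_Lk F hD (x := x) (y := y) (by rw [dist_comm]; exact hyx)
  obtain ⟨w, hwP, hw1, hvw⟩ := H775.exists_unit_ker (H775.Pl e D y x)
    ((innerSL ℝ v) : TangentSpace 𝓘(ℝ, E) x →ₗ[ℝ] ℝ) (by rw [finrank_self]; omega)
  have hvw' : (inner ℝ v w : ℝ) = 0 := hvw
  have hvP := H775.Lk_subset_Pl D _ _ hv
  set u : ℝ → TangentSpace 𝓘(ℝ, E) x := fun θ => Real.cos θ • v + Real.sin θ • w with hu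
  have hunit : ∀ θ, ‖u θ‖ = 1 := by
    intro s
    have h1 : ‖u s‖ ^ 2 = 1 := by
      simp only [hu]
      rw [norm_add_sq_real, norm_smul, norm_smul, hv.1, hw1, inner_smul_left, inner_smul_right,
        hvw']
      simp
    nlinarith only [h1, norm_nonneg (u s)]
  have huP : ∀ θ, u θ ∈ H775.Pl e D y x := fun θ =>
    Submodule.add_mem _ (Submodule.smul_mem _ _ hvP) (Submodule.smul_mem _ _ hwP)
  have huL : ∀ θ, u θ ∈ Lk e D y x := fun θ =>
    (H775.mem_Lk_iff F hD hB hdiam hyx).2 ⟨hunit θ, huP θ⟩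
  have hucont : Continuous u := by
    simp only [hu]
    exact (Real.continuous_cos.smul continuous_const).add
      (Real.continuous_sin.smul continuous_const)
  have hupi : ∀ θ, u (θ + Real.pi) = -u θ := by
    intro θ
    simp only [hu]
    rw [Real.cos_add_pi, Real.sin_add_pi]
    module
  set B : ℝ → TangentSpace 𝓘(ℝ, E) x →L[ℝ] TangentSpace 𝓘(ℝ, E) y :=
    fun θ => fderiv ℝ (kap e D x y) (u θ) with hBdef
  have hBc : Continuous B := by
    rw [continuous_iff_continuousAt]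
    intro θ
    obtain ⟨b, hb, hvb⟩ := link_of_dir F (D := D) (y := y) (hunit θ) (huL θ).2
    have h3 := kap_contDiffAt F hD le_rfl hB (hunit θ) hb.1 hvb
    have h4 : ContinuousAt (fderiv ℝ (kap e D x y)) (u θ) :=
      (h3.fderiv_right (m := ∞) (by simp)).continuousAt
    exact ContinuousAt.comp (f := u) h4 hucont.continuousAt
  have hBval : ∀ θ (ζ : TangentSpace 𝓘(ℝ, E) x),
      (B θ ζ : E) = D • dE e x (D • u θ : TangentSpace 𝓘(ℝ, E) x) ζ := fun θ ζ =>
    H775.fderiv_kap F (huL θ).2 ζ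
  set Q : Submodule ℝ (TangentSpace 𝓘(ℝ, E) x) := (H775.Pl e D y x)ᗮ with hQ
  set Q' : Submodule ℝ (TangentSpace 𝓘(ℝ, E) y) := (H775.Pl e D x y)ᗮ with hQ'
  have hmaps : ∀ θ, ∀ ζ ∈ Q, B θ ζ ∈ Q' := by
    intro θ ζ hζ
    obtain ⟨b, hb, hvb⟩ := link_of_dir F (D := D) (y := y) (hunit θ) (huL θ).2
    have hζu : (inner ℝ (u θ) ζ : ℝ) = 0 := (Submodule.mem_orthogonal _ _).1 hζ _ (huP θ)
    rw [hQ', Submodule.mem_orthogonal]
    intro c hc
    induction hc using Submodule.span_induction with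
    | mem z hz => exact kap_orth_link F hD hB (hunit θ) hb.1 hvb hz hζu
    | zero => exact inner_zero_left _
    | add a b _ _ ha hb => rw [inner_add_left, ha, hb, add_zero]
    | smul c a _ ha => rw [inner_smul_left, ha, mul_zero]
  have hfr : finrank ℝ Q = finrank ℝ Q' := by
    have h3 : finrank ℝ (H775.Pl e D y x) + finrank ℝ Q = finrank ℝ E :=
      Submodule.finrank_add_finrank_orthogonal (H775.Pl e D y x)
    have h4 : finrank ℝ (H775.Pl e D x y) + finrank ℝ Q' = finrank ℝ E :=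
      Submodule.finrank_add_finrank_orthogonal (H775.Pl e D x y)
    have h5 := H775.finrank_Pl_comm F hD hB hdiam hyx
    omega
  let BQ : ℝ → Q →ₗ[ℝ] Q' := fun θ =>
    ((B θ : TangentSpace 𝓘(ℝ, E) x →L[ℝ] TangentSpace 𝓘(ℝ, E) y) :
      TangentSpace 𝓘(ℝ, E) x →ₗ[ℝ] TangentSpace 𝓘(ℝ, E) y).restrict (hmaps θ)
  refine even_of_path hfr BQ (a := 0) (b := 0 + Real.pi) ?_ ?_ ?_
  · intro ζ
    refine Continuous.subtype_mk ?_ _
    exact (hBc.clm_apply continuous_const : Continuous fun θ => B θ (ζ : TangentSpace 𝓘(ℝ, E) x))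
  · intro θ
    rw [← LinearMap.ker_eq_bot, LinearMap.ker_eq_bot']
    intro ζ hζ
    have h3 : B θ (ζ : TangentSpace 𝓘(ℝ, E) x) = 0 := congrArg Subtype.val hζ
    have h4 : (ζ : TangentSpace 𝓘(ℝ, E) x) ∈ H775.Kr e D x (u θ) := by
      rw [H775.mem_Kr]
      have h5 : D • dE e x (D • u θ : TangentSpace 𝓘(ℝ, E) x) (ζ : TangentSpace 𝓘(ℝ, E) x) = 0 :=
        (hBval θ _).symm.trans h3
      exact (smul_eq_zero.1 h5).resolve_left hD.ne'
    have h5 := ((H775.mem_Kr_iff F hD hB hdiam (huL θ)).1 h4).1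
    have h6 := (Submodule.mem_orthogonal _ _).1 ζ.2 _ h5
    exact Subtype.ext (inner_self_eq_zero.1 h6)
  · refine LinearMap.ext fun ζ => Subtype.ext ?_
    change B (0 + Real.pi) (ζ : TangentSpace 𝓘(ℝ, E) x) = -(B 0 (ζ : TangentSpace 𝓘(ℝ, E) x))
    by_cases hζ : (ζ : TangentSpace 𝓘(ℝ, E) x) = 0
    · rw [hζ, map_zero, map_zero, neg_zero]
    · have hn : 0 < ‖(ζ : TangentSpace 𝓘(ℝ, E) x)‖ := norm_pos_iff.2 hζ
      set z : TangentSpace 𝓘(ℝ, E) x := ‖(ζ : TangentSpace 𝓘(ℝ, E) x)‖⁻¹ •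
        (ζ : TangentSpace 𝓘(ℝ, E) x) with hz
      have hz1 : ‖z‖ = 1 := by rw [hz, norm_smul, norm_inv, norm_norm, inv_mul_cancel₀ hn.ne']
      have huz : (inner ℝ (u 0) z : ℝ) = 0 := by
        rw [hz, inner_smul_right, (Submodule.mem_orthogonal _ _).1 ζ.2 _ (huP 0), mul_zero]
      have hζz : (ζ : TangentSpace 𝓘(ℝ, E) x) = ‖(ζ : TangentSpace 𝓘(ℝ, E) x)‖ • z := by
        rw [hz, smul_smul, mul_inv_cancel₀ hn.ne', one_smul]
      have h3 : B (0 + Real.pi) z = -(B 0 z) := by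
        have h4 := hBval (0 + Real.pi) z
        have h5 := hBval 0 z
        rw [hupi 0] at h4
        have h6 := dE_antipodal F hD hB hdiam (hunit 0) hz1 huz
        rw [h6, smul_neg] at h4
        exact h4.trans (congrArg Neg.neg h5.symm)
      have h4 : ∀ r : ℝ, B (0 + Real.pi) (r • z) = -(B 0 (r • z)) := fun r =>
        ((B (0 + Real.pi)).map_smul r z).trans ((congrArg (fun a => r • a) h3).trans
          ((smul_neg r (B 0 z)).trans (congrArg Neg.neg ((B 0).map_smul r z).symm)))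
      rw [hζz]
      exact h4 _

/-- for cut multiplicity one the dimension is even -/
theorem even_dim (F : Facts e) {D : ℝ} (hD : 0 < D) (hB : InjGE e D)
    (hdiam : ∀ p q : M, dist p q ≤ D)
    (hP : ∀ x y : M, dist x y = D → finrank ℝ (H775.Pl e D x y) = 2) (v : UT E M) :
    Even (finrank ℝ E) := by
  have hyx := dist_bar' F hD hB v
  have h1 := even_orth F hD hB hdiam hyx (by rw [hP _ _ hyx])
  have h2 := Submodule.finrank_add_finrank_orthogonal (H775.Pl e D (bar e D v) (foot v))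
  have h3 : finrank ℝ (TangentSpace 𝓘(ℝ, E) (foot v)) = finrank ℝ E := rfl
  rw [hP _ _ hyx, h3] at h2
  rw [← h2]
  exact even_two.add h1

end

end Vale.Agent.P231.WR
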