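import Vale.Agent.P231.X3.Op
import Vale.Agent.P231.WR.PenR

/-!
# P231, stage 2: the trace of the projection to the plane; the half period commutes with rotations
-/

set_option maxSynthPendingDepth 3
set_option linter.unusedSectionVars false
set_option linter.unusedVariables false

open Bundle Manifold Set Filter Module
open scoped ContDiff Manifold Topology

namespace Vale.Agent.P231.WR

noncomputable section

open Vale.Agent.P234 Vale.Agent.P231 Vale.Agent.P231.Fm Vale.Agent.P231.W Vale.Agent.P231.H775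

variable {E : Type*} [NormedAddCommGroup E] [NormedSpace ℝ E]
  {M : Type*} [MetricSpace M] [ChartedSpace E M]
  [RiemannianBundle (fun x : M => TangentSpace 𝓘(ℝ, E) x)]
  {e : ∀ x : M, TangentSpace 𝓘(ℝ, E) x → M}
  [FiniteDimensional ℝ E] [IsManifold 𝓘(ℝ, E) ∞ M]
  [IsContMDiffRiemannianBundle 𝓘(ℝ, E) ∞ E (fun x : M => TangentSpace 𝓘(ℝ, E) x)]

/-- the projection to the plane as a linear map -/
def prPL (e : ∀ x : M, TangentSpace 𝓘(ℝ, E) x → M) (D : ℝ) (v : UT E M) : E →ₗ[ℝ] E where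
  toFun := prP e D v
  map_add' := prP_add D v
  map_smul' := prP_smul D v

/-- the trace of the projection is the dimension of the plane -/
theorem trace_prPL (D : ℝ) (v : UT E M) :
    LinearMap.trace ℝ E (prPL e D v) = finrank ℝ (H775.Pl e D (bar e D v) (foot v)) := by
  have hfd : FiniteDimensional ℝ (TangentSpace 𝓘(ℝ, E) (foot v)) :=
    inferInstanceAs (FiniteDimensional ℝ E)
  let P : Submodule ℝ (TangentSpace 𝓘(ℝ, E) (foot v)) := H775.Pl e D (bar e D v) (foot v)
  have h1 : LinearMap.IsProj P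
      (P.starProjection : TangentSpace 𝓘(ℝ, E) (foot v) →ₗ[ℝ] TangentSpace 𝓘(ℝ, E) (foot v)) :=
    ⟨fun a => P.starProjection_apply_mem a, fun a ha => (P.starProjection_eq_self_iff).2 ha⟩
  exact h1.trace

variable [CompactSpace M] [ConnectedSpace M] [IsRiemannianManifold 𝓘(ℝ, E) M]

theorem trace_prPL' (F : Facts e) {D : ℝ} (hD : 0 < D) (hB : InjGE e D) {l : ℕ}
    (hP : ∀ x y : M, dist x y = D → finrank ℝ (H775.Pl e D x y) = l + 1) (v : UT E M) :
    LinearMap.trace ℝ E (prPL e D v) = (l : ℝ) + 1 := by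
  rw [trace_prPL, hP _ _ (dist_bar' F hD hB v)]
  push_cast
  rfl

/-- the matrix of the projection in a Parseval frame -/
theorem trace_mat_prP (F : Facts e) {D : ℝ} (hD : 0 < D) (hB : InjGE e D) {l : ℕ}
    (hP : ∀ x y : M, dist x y = D → finrank ℝ (H775.Pl e D x y) = l + 1) {K : ℕ}
    (P : X3.PF E M K) (v : UT E M) :
    Matrix.trace (P.mat (foot v) (foot v) (prPL e D v)) = (l : ℝ) + 1 := by
  rw [X3.PF.trace_mat, trace_prPL' F hD hB hP]

theorem trace_tm {K : ℕ} (P : X3.PF E M K) (x : M) : Matrix.trace (P.tm x) = finrank ℝ E := by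
  rw [X3.PF.tm, X3.PF.trace_mat, LinearMap.trace_id]

theorem phi_rw (F : Facts e) {D : ℝ} (hD : 0 < D) (hB : InjGE e D)
    (hdiam : ∀ p q : M, dist p q ≤ D) (p : Pr e D) (t : ℝ) :
    phi F (rw_ p t, D) = rw_ (Th F hD hB hdiam p) t := by
  refine mk_congr (bar_rw F hD hB hdiam p t) ?_
  rw [foot_rw, vec'_rw, Th_v, Th_w, vec'_phi, vec'_phi, vel_w p.isL]
  exact vel_comb F hD hB hdiam (dist_foot_bar F hD hB p.v) (mem_Lk_self D p.v) p.isL.mem_Lk
    (p.isL.comb F hD hB hdiam (a := -Real.sin t) (b := Real.cos t) (by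
      rw [neg_sq]; exact Real.sin_sq_add_cos_sq t))

/-- the half period commutes with the rotation of pairs -/
theorem Th_R (F : Facts e) {D : ℝ} (hD : 0 < D) (hB : InjGE e D)
    (hdiam : ∀ p q : M, dist p q ≤ D) (p : Pr e D) (t : ℝ) :
    Th F hD hB hdiam (R F hD hB hdiam (p, t)) = R F hD hB hdiam (Th F hD hB hdiam p, t) :=
  Pr.ext' (phi_rv F hD hB hdiam p t) (phi_rw F hD hB hdiam p t)

theorem Th_Th (F : Facts e) {D : ℝ} (hD : 0 < D) (hB : InjGE e D)
    (hdiam : ∀ p q : M, dist p q ≤ D) (p : Pr e D) :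
    Th F hD hB hdiam (Th F hD hB hdiam p) = p := by
  have h : ∀ v : UT E M, phi F (phi F (v, D), D) = v := fun v => by
    rw [phi_add, ← two_mul]
    exact phi_per F hD hB hdiam v
  exact Pr.ext' (h p.v) (h p.w)

end

end Vale.Agent.P231.WR
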