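import Vale.Agent.P231.WR.Pencil

/-!
# P231, stage 2: the pencil is smooth, and linear in the direction
-/

set_option maxSynthPendingDepth 3
set_option linter.unusedSectionVars false
set_option linter.unusedVariables false

open Bundle Manifold Set Filter Module
open scoped ContDiff Manifold Topology

namespace Vale.Agent.P231.WR

noncomputable section

open Vale.Agent.P234 Vale.Agent.P231 Vale.Agent.P231.Fm Vale.Agent.P231.W Vale.Agent.P231.H775

variable {E : Type*} [NormedAddCommGroup E] [NormedSpace ℝ E]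
  {M : Type*} [MetricSpace M] [ChartedSpace E M]
  [RiemannianBundle (fun x : M => TangentSpace 𝓘(ℝ, E) x)]
  {e : ∀ x : M, TangentSpace 𝓘(ℝ, E) x → M}
  [FiniteDimensional ℝ E] [IsManifold 𝓘(ℝ, E) ∞ M]
  [IsContMDiffRiemannianBundle 𝓘(ℝ, E) ∞ E (fun x : M => TangentSpace 𝓘(ℝ, E) x)]
  [CompactSpace M] [ConnectedSpace M] [IsRiemannianManifold 𝓘(ℝ, E) M]

/-! ### curves at a fixed foot -/

theorem hasDerivAt_tan (x : M) {c : ℝ → E} {c' : E} {s : ℝ} (h : HasDerivAt c c' s) :
    HasDerivAt (F := TangentSpace 𝓘(ℝ, E) x) (fun s => c s) c' s := by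
  let L : E →ₗ[ℝ] TangentSpace 𝓘(ℝ, E) x :=
    { toFun := fun a => a, map_add' := fun _ _ => rfl, map_smul' := fun _ _ => rfl }
  have hL : Continuous L := LinearMap.continuous_of_finiteDimensional L
  exact (⟨L, hL⟩ : E →L[ℝ] TangentSpace 𝓘(ℝ, E) x).hasFDerivAt.comp_hasDerivAt s h

theorem mfderiv_exp_raw (F : Facts e) (x : M) {c : ℝ → TangentSpace 𝓘(ℝ, E) x}
    {c' : TangentSpace 𝓘(ℝ, E) x} {s : ℝ} (h : HasDerivAt c c' s) (t : ℝ) :
    (mfderiv 𝓘(ℝ, ℝ) 𝓘(ℝ, E) (fun s => e x (t • c s)) s (1 : ℝ) : E) =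
      t • dE e x (t • c s) c' := by
  have h2 := mfderiv_exp_curve F.isExp x (h.const_smul t)
  exact h2.trans (dE_smul e x _ _ t)

/-- a lift of a curve of cut points: its velocity solves `AD w c' = q'` -/
theorem AD_lift (F : Facts e) {D : ℝ} {p : M} {q : ℝ → M} {c : ℝ → TangentSpace 𝓘(ℝ, E) p}
    {c' : TangentSpace 𝓘(ℝ, E) p} (h : HasDerivAt c c' 0) (hq : ∀ᶠ s in 𝓝 0, e p (D • c s) = q s)
    {w : UT E M} (hw : foot w = p) (hw0 : vec' w = (c 0 : E)) :
    AD e D w (c' : E) = (mfderiv 𝓘(ℝ, ℝ) 𝓘(ℝ, E) q 0 (1 : ℝ) : E) := by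
  have h1 := mfderiv_exp_raw F p h D
  have h2 : (mfderiv 𝓘(ℝ, ℝ) 𝓘(ℝ, E) (fun s => e p (D • c s)) 0 (1 : ℝ) : E) =
      mfderiv 𝓘(ℝ, ℝ) 𝓘(ℝ, E) q 0 (1 : ℝ) :=
    congrArg (fun T : ℝ →L[ℝ] E => T 1) (Filter.EventuallyEq.mfderiv_eq hq)
  refine Eq.trans ?_ (h1.symm.trans h2)
  have key : ∀ (x y : M) (_ : x = y) (a b z : E) (_ : a = b),
      (D • dE e x (D • a : E) z : E) = D • dE e y (D • b : E) z := by
    rintro x y rfl a b z rfl
    rfl
  exact key _ _ hw _ _ _ hw0

/-- the link vectors with a given foot and cut point -/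
theorem mem_Lk_of_eq {D : ℝ} {v w : UT E M} (hf : foot w = foot v) (hb : bar e D w = bar e D v) :
    (vec' (E := E) w : TangentSpace 𝓘(ℝ, E) (foot v)) ∈ Lk e D (bar e D v) (foot v) := by
  have key : ∀ (x y : M) (_ : foot w = x) (_ : bar e D w = y),
      (vec' (E := E) w : TangentSpace 𝓘(ℝ, E) x) ∈ Lk e D y x := by
    rintro x y rfl rfl
    exact mem_Lk_self D w
  exact key _ _ hf hb

/-- lifts of the cut points of a circle of directions -/
theorem exists_lift_circle (F : Facts e) {D : ℝ} (hD : 0 < D) (hB : InjGE e D)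
    (hdiam : ∀ p q : M, dist p q ≤ D) {l : ℕ}
    (hP : ∀ x y : M, dist x y = D → finrank ℝ (H775.Pl e D x y) = l + 1) {v : UT E M}
    {m : ℝ → UT E M} (hm : (dUT E M).At m 0) (hm0 : m 0 = v) (hmf : ∀ s, foot (m s) = foot v)
    {w : UT E M} (hf : foot w = foot v) (hb : bar e D w = bar e D v) :
    ∃ (c : ℝ → TangentSpace 𝓘(ℝ, E) (foot v)) (c' : TangentSpace 𝓘(ℝ, E) (foot v)),
      c 0 = vec' (E := E) w ∧ HasDerivAt c c' 0 ∧
        ∀ᶠ s in 𝓝 0, c s ∈ Lk e D (bar e D (m s)) (foot v) := by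
  have hg : ∀ᶠ s in 𝓝 (0 : ℝ), ContMDiffAt 𝓘(ℝ, ℝ) 𝓘(ℝ, E) ∞ (fun s => bar e D (m s)) s :=
    map_bar F D hm
  have hmem : (vec' (E := E) w : TangentSpace 𝓘(ℝ, E) (foot v)) ∈
      Lk e D (bar e D (m 0)) (foot v) := by
    rw [hm0]
    exact mem_Lk_of_eq hf hb
  obtain ⟨u, hu0, hu⟩ := H775.exists_lift (V := ℝ) F hD hB hdiam hP
    (f := fun _ => foot v) (g := fun s => bar e D (m s)) (s₀ := (0 : ℝ))
    (Eventually.of_forall fun s => contMDiffAt_const) hg
    (Eventually.of_forall fun s => by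
      have h1 := dist_bar F hD hB (m s)
      rwa [hmf s] at h1)
    (u₀ := (vec' (E := E) w : TangentSpace 𝓘(ℝ, E) (foot v))) hmem
  let c : ℝ → E := u
  have h1 : SmV (fun _ : ℝ => foot v) (fun s => (c s : E)) 0 := hu.self_of_nhds.1
  have h2 : ContDiffAt ℝ ∞ c 0 :=
    WG.contDiffAt_raw (E := E) (f := fun _ : ℝ => foot v) (u := c) h1 (fun _ => rfl)
  have h3 : HasDerivAt c (deriv c 0) 0 := (h2.differentiableAt (by simp)).hasDerivAt
  exact ⟨u, deriv c 0, hu0, hasDerivAt_tan (E := E) (foot v) h3, hu.mono fun s hs => hs.2⟩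

/-- the normalisation of a differentiable curve -/
theorem hasDerivAt_normalize {V : Type*} [NormedAddCommGroup V] [InnerProductSpace ℝ V]
    {c : ℝ → V} {c' : V} (h : HasDerivAt c c' 0) (h0 : ‖c 0‖ = 1) :
    ∃ μ : ℝ, HasDerivAt (fun s => ‖c s‖⁻¹ • c s) (c' + μ • c 0) 0 := by
  have hne : c 0 ≠ 0 := by
    intro h1
    rw [h1, norm_zero] at h0
    exact zero_ne_one h0
  have h1 : DifferentiableAt ℝ (fun s => ‖c s‖) 0 := h.differentiableAt.norm ℝ hne
  have h2 : DifferentiableAt ℝ (fun s => ‖c s‖⁻¹) 0 := h1.inv (by rw [h0]; exact one_ne_zero)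
  refine ⟨deriv (fun s => ‖c s‖⁻¹) 0, ?_⟩
  have h3 := h2.hasDerivAt.smul h
  rw [h0, inv_one, one_smul] at h3
  exact h3

/-- **linearity of the pencil in the direction**, at a unit vector of the image of `AD` -/
theorem BB_lin_aux (F : Facts e) {D : ℝ} (hD : 0 < D) (hB : InjGE e D)
    (hdiam : ∀ p q : M, dist p q ≤ D) {l : ℕ}
    (hP : ∀ x y : M, dist x y = D → finrank ℝ (H775.Pl e D x y) = l + 1) {ι : Type*} [Fintype ι]
    {v u : UT E M} {W : ι → UT E M} {c : ι → ℝ} (hfu : foot u = foot v)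
    (hbu : bar e D u = bar e D v) (hfW : ∀ i, foot (W i) = foot v)
    (hbW : ∀ i, bar e D (W i) = bar e D v) (hu : vec' u = ∑ i, c i • vec' (W i)) {n : E}
    (hn : ip (foot v) n n = 1) (hvn : ip (foot v) (vec' v) n = 0) :
    BB e D u (AD e D v n) = ∑ i, c i • BB e D (W i) (AD e D v n) := by
  set m : ℝ → UT E M := fun σ => mk (foot v) (Real.cos σ • vec' v + Real.sin σ • n)
    (nm_comb (ip_vec' v) hn hvn (Real.cos_sq_add_sin_sq σ)) with hmdef
  have hm : (dUT E M).At m 0 := at_circle (foot v) (ip_vec' v) hn hvn 0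
  have hm0 : m 0 = v := by
    rw [← mk_eta v]
    refine mk_congr rfl ?_
    rw [Real.cos_zero, Real.sin_zero, one_smul, zero_smul, add_zero]
  have hq' : (mfderiv 𝓘(ℝ, ℝ) 𝓘(ℝ, E) (fun s => bar e D (m s)) 0 (1 : ℝ) : E) = AD e D v n :=
    mfderiv_circle F (foot v) (vec' v) n D
  -- the lifts
  choose C C' hC0 hC1 hC2 using fun i =>
    exists_lift_circle F hD hB hdiam hP hm hm0 (fun _ => rfl) (hfW i) (hbW i)
  have hAD : ∀ i, AD e D (W i) (C' i : E) = AD e D v n := by
    intro i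
    have h1 : ∀ᶠ s in 𝓝 0, e (foot v) (D • C i s) = bar e D (m s) := (hC2 i).mono fun s hs => hs.2
    exact (AD_lift F (hC1 i) h1 (hfW i) (hC0 i).symm).trans hq'
  -- the combination
  set U : ℝ → TangentSpace 𝓘(ℝ, E) (foot v) := fun s => ∑ i, c i • C i s with hUdef
  set U' : TangentSpace 𝓘(ℝ, E) (foot v) := ∑ i, c i • C' i with hU'def
  have hU : HasDerivAt U U' 0 := HasDerivAt.fun_sum fun i _ => (hC1 i).const_smul (c i)
  have hU0 : U 0 = (vec' (E := E) u : TangentSpace 𝓘(ℝ, E) (foot v)) := by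
    have h1 : U 0 = ∑ i, c i • (vec' (E := E) (W i) : TangentSpace 𝓘(ℝ, E) (foot v)) :=
      Finset.sum_congr rfl fun i _ => congrArg (fun z => c i • z) (hC0 i)
    exact h1.trans hu.symm
  have hUn : ‖U 0‖ = 1 := by
    rw [hU0]
    exact (mem_Lk_of_eq hfu hbu).1
  obtain ⟨μ, hμ⟩ := hasDerivAt_normalize hU hUn
  have hev : ∀ᶠ s in 𝓝 0, e (foot v) (D • (‖U s‖⁻¹ • U s)) = bar e D (m s) := by
    have h1 : ∀ᶠ s in 𝓝 (0 : ℝ), ∀ i, C i s ∈ Lk e D (bar e D (m s)) (foot v) :=
      eventually_all.2 hC2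
    have h2 : ∀ᶠ s in 𝓝 (0 : ℝ), 0 < ‖U s‖ := by
      have h3 : ContinuousAt (fun s => ‖U s‖) 0 := hU.continuousAt.norm
      refine h3.eventually (lt_mem_nhds ?_)
      change 0 < ‖U 0‖
      rw [hUn]
      exact one_pos
    filter_upwards [h1, h2] with s h3 h4
    have h5 : U s ∈ H775.Pl e D (bar e D (m s)) (foot v) :=
      Submodule.sum_mem _ fun i _ => Submodule.smul_mem _ _ (H775.Lk_subset_Pl D _ _ (h3 i))
    have h6 : ‖U s‖⁻¹ • U s ∈ Lk e D (bar e D (m s)) (foot v) := by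
      have h7 : ‖‖U s‖⁻¹ • U s‖ = 1 := by
        rw [norm_smul, norm_inv, norm_norm, inv_mul_cancel₀ h4.ne']
      exact (H775.mem_Lk_iff F hD hB hdiam (dist_bar' F hD hB (m s))).2
        ⟨h7, Submodule.smul_mem _ _ h5⟩
    exact h6.2
  have hADu : AD e D u ((U' + μ • U 0 : TangentSpace 𝓘(ℝ, E) (foot v)) : E) = AD e D v n := by
    refine (AD_lift F hμ hev hfu ?_).trans hq'
    rw [hUn, inv_one, one_smul]
    exact hU0.symm
  -- conclusion
  let Cr : ι → E := fun i => C' i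
  let Ur : E := U'
  have k1 : ∀ i, BB e D (W i) (AD e D v n) = Cr i - prP e D v (Cr i) := by
    intro i
    have h1 : AD e D (W i) (Cr i) = AD e D v n := hAD i
    rw [← h1, BB_AD F hD hB hdiam, prP_congr (hfW i) (hbW i)]
  have k2 : prP (E := E) e D v (vec' (E := E) u) = vec' u :=
    prP_of_mem (E := E) (H775.Lk_subset_Pl D _ _ (mem_Lk_of_eq (E := E) hfu hbu))
  have k3 : BB e D u (AD e D v n) = Ur - prP e D v Ur := by
    have h1 : AD e D u (Ur + μ • vec' u) = AD e D v n := by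
      rw [hU0] at hADu
      exact hADu
    rw [← h1, BB_AD F hD hB hdiam, prP_congr hfu hbu, prP_add, prP_smul, k2]
    exact add_sub_add_right_eq_sub _ _ _
  rw [k3, Finset.sum_congr rfl fun i _ => congrArg (fun z => c i • z) (k1 i)]
  have h2 : prP (E := E) e D v Ur = ∑ i, c i • prP e D v (Cr i) := by
    have h3 := map_sum (H775.Pl e D (bar e D v) (foot v)).starProjection (fun i => c i • C' i)
      Finset.univ
    refine Eq.trans h3 (Finset.sum_congr rfl fun i _ => ?_)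
    exact prP_smul (E := E) D v (c i) (Cr i)
  rw [h2]
  have h4 : Ur = ∑ i, c i • Cr i := rfl
  rw [h4, ← Finset.sum_sub_distrib]
  exact Finset.sum_congr rfl fun i _ => (smul_sub _ _ _).symm

/-- **linearity of the pencil in the direction** -/
theorem BB_lin (F : Facts e) {D : ℝ} (hD : 0 < D) (hB : InjGE e D)
    (hdiam : ∀ p q : M, dist p q ≤ D) {l : ℕ}
    (hP : ∀ x y : M, dist x y = D → finrank ℝ (H775.Pl e D x y) = l + 1) {ι : Type*} [Fintype ι]
    {v u : UT E M} {W : ι → UT E M} {c : ι → ℝ} (hfu : foot u = foot v)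
    (hbu : bar e D u = bar e D v) (hfW : ∀ i, foot (W i) = foot v)
    (hbW : ∀ i, bar e D (W i) = bar e D v) (hu : vec' u = ∑ i, c i • vec' (W i)) (z : E) :
    BB e D u z = ∑ i, c i • BB e D (W i) z := by
  -- reduction to the complement of the plane
  have red : ∀ w : UT E M, foot w = foot v → bar e D w = bar e D v →
      BB e D w z = BB e D w (AD e D v (BB e D v z)) := by
    intro w hf hb
    rw [AD_BB F hD hB hdiam, ← prQ_congr hf hb]
    have h1 : z = (z - prQ e D w z) + prQ e D w z := (sub_add_cancel _ _).symm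
    conv_lhs => rw [h1]
    rw [BB_add F hD hB hdiam, BB_prQ F hD hB hdiam, add_zero]
  rw [red u hfu hbu, Finset.sum_congr rfl fun i _ =>
    congrArg (fun z => c i • z) (red (W i) (hfW i) (hbW i))]
  set a := BB e D v z with ha
  rcases eq_or_ne a 0 with h0 | h0
  · have h1 : AD e D v a = 0 := by
      rw [h0]
      exact map_zero (ADL e D v)
    rw [h1]
    have h2 : ∀ w : UT E M, BB e D w (0 : E) = 0 := fun w => map_zero (BBL F hD hB hdiam w)
    rw [h2]
    refine (Finset.sum_eq_zero fun i _ => ?_).symm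
    rw [h2, smul_zero]
  -- normalisation
  set r := nm (foot v) a with hr
  have hr0 : 0 < r := norm_pos_iff (E := TangentSpace 𝓘(ℝ, E) (foot v)) |>.2 h0
  have haa : ip (foot v) a a = r ^ 2 :=
    real_inner_self_eq_norm_sq (F := TangentSpace 𝓘(ℝ, E) (foot v)) _
  have hn : ip (foot v) (r⁻¹ • a) (r⁻¹ • a) = 1 := by
    rw [ip_smul_left', ip_smul_right', haa]
    field_simp
  have hvn : ip (foot v) (vec' v) (r⁻¹ • a) = 0 := by
    rw [ip_smul_right', ← ip_prP_self, prP_BB F hD hB hdiam]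
    have h1 : ip (foot v) (vec' v) (0 : E) = 0 :=
      inner_zero_right (𝕜 := ℝ) (E := TangentSpace 𝓘(ℝ, E) (foot v)) _
    rw [h1, mul_zero]
  have h1 := BB_lin_aux F hD hB hdiam hP hfu hbu hfW hbW hu hn hvn
  have h2 : AD e D v a = r • AD e D v (r⁻¹ • a) := by
    rw [AD_smul, smul_smul, mul_inv_cancel₀ hr0.ne', one_smul]
  rw [h2, BB_smul F hD hB hdiam, h1, Finset.smul_sum]
  refine Finset.sum_congr rfl fun i _ => ?_
  rw [BB_smul F hD hB hdiam, smul_comm]

/-- the pencil in the opposite direction -/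
theorem BB_ng (F : Facts e) {D : ℝ} (hD : 0 < D) (hB : InjGE e D)
    (hdiam : ∀ p q : M, dist p q ≤ D) {l : ℕ}
    (hP : ∀ x y : M, dist x y = D → finrank ℝ (H775.Pl e D x y) = l + 1) {v u : UT E M}
    (hf : foot u = foot v) (hb : bar e D u = bar e D v) (hu : vec' u = -vec' v) (z : E) :
    BB e D u z = -BB e D v z := by
  have h1 := BB_lin F hD hB hdiam hP (ι := Unit) (W := fun _ => v) (c := fun _ => (-1 : ℝ)) hf hb
    (fun _ => rfl) (fun _ => rfl) (by simp [hu]) z
  simpa using h1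

/-- the pencil in a rotated direction -/
theorem BB_rot (F : Facts e) {D : ℝ} (hD : 0 < D) (hB : InjGE e D)
    (hdiam : ∀ p q : M, dist p q ≤ D) {l : ℕ}
    (hP : ∀ x y : M, dist x y = D → finrank ℝ (H775.Pl e D x y) = l + 1) {v w u : UT E M}
    (hw : IsL e D v w) {a b : ℝ} (hf : foot u = foot v) (hb : bar e D u = bar e D v)
    (hu : vec' u = a • vec' v + b • vec' w) (z : E) :
    BB e D u z = a • BB e D v z + b • BB e D w z := by
  have h1 := BB_lin F hD hB hdiam hP (ι := Fin 2) (W := ![v, w]) (c := ![a, b]) hf hb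
    (fun i => by fin_cases i <;> simp [hw.foot_eq]) (fun i => by fin_cases i <;> simp [hw.bar_eq])
    (by simp [Fin.sum_univ_two, hu]) z
  simpa [Fin.sum_univ_two] using h1

/-! ### smoothness -/

section Plots

variable {E' : Type} [NormedAddCommGroup E'] [NormedSpace ℝ E'] [FiniteDimensional ℝ E']

theorem at_add_tb {f : E' → M} {a b : E' → E} {x : E'}
    (ha : (dTM E M).At (fun s => tb (f s) (a s)) x)
    (hb : (dTM E M).At (fun s => tb (f s) (b s)) x) :
    (dTM E M).At (fun s => tb (f s) (a s + b s)) x := by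
  have h1 : ∀ᶠ s in 𝓝 x, SmV (E := E) f (fun s => a s) s := ha
  have h2 : ∀ᶠ s in 𝓝 x, SmV (E := E) f (fun s => b s) s := hb
  have h3 : ∀ᶠ s in 𝓝 x, SmV (E := E) f (fun s => (a s + b s : E)) s := by
    filter_upwards [h1, h2] with s g1 g2
    exact g1.add g2
  exact h3

theorem at_smul_tb {f : E' → M} {a : E' → E} {c : E' → ℝ} {x : E'} (hc : Sm c x)
    (ha : (dTM E M).At (fun s => tb (f s) (a s)) x) :
    (dTM E M).At (fun s => tb (f s) (c s • a s)) x := by
  have h1 : ∀ᶠ s in 𝓝 x, SmV (E := E) f (fun s => a s) s := ha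
  have h2 : ∀ᶠ s in 𝓝 x, ContDiffAt ℝ ∞ c s := hc
  have h3 : ∀ᶠ s in 𝓝 x, SmV (E := E) f (fun s => (c s • a s : E)) s := by
    filter_upwards [h1, h2] with s g1 g2
    exact SmV.smul g2 g1
  exact h3

theorem at_sub_tb {f : E' → M} {a b : E' → E} {x : E'}
    (ha : (dTM E M).At (fun s => tb (f s) (a s)) x)
    (hb : (dTM E M).At (fun s => tb (f s) (b s)) x) :
    (dTM E M).At (fun s => tb (f s) (a s - b s)) x := by
  have h1 := at_add_tb ha (at_smul_tb (c := fun _ => (-1 : ℝ)) (Sm.of_contDiff contDiff_const x) hb)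
  have h2 : (fun s => tb (f s) (a s + (-1 : ℝ) • b s)) = fun s => tb (f s) (a s - b s) := by
    funext s
    rw [neg_smul, one_smul, ← sub_eq_add_neg]
  rw [h2] at h1
  exact h1

theorem at_vec_tb {u : E' → UT E M} {x : E'} (hu : (dUT E M).At u x) :
    (dTM E M).At (fun s => tb (foot (u s)) (vec' (u s))) x := at_iff.1 hu

/-- the projection to the plane is smooth -/
theorem at_prP (F : Facts e) {D : ℝ} (hD : 0 < D) (hB : InjGE e D)
    (hdiam : ∀ p q : M, dist p q ≤ D) {l : ℕ}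
    (hP : ∀ x y : M, dist x y = D → finrank ℝ (H775.Pl e D x y) = l + 1)
    {u : E' → UT E M} {x : E'} (hu : (dUT E M).At u x) {a : E' → E}
    (ha : (dTM E M).At (fun s => tb (foot (u s)) (a s)) x) :
    (dTM E M).At (fun s => tb (foot (u s)) (prP e D (u s) (a s))) x := by
  have h1 := at_add_tb (at_smul_tb (sm_ip_raw hu ha (Eventually.of_forall fun _ => rfl))
    (at_vec_tb hu)) (at_prL F hD hB hdiam hP hu ha)
  have h2 : (fun s => tb (foot (u s)) (ip (foot (u s)) (vec' (u s)) (a s) • vec' (u s) +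
      prL e D (u s) (a s))) = fun s => tb (foot (u s)) (prP e D (u s) (a s)) := by
    funext s
    rw [prP_eq]
  rw [h2] at h1
  exact h1

/-- the projection to the plane at the far end is smooth -/
theorem at_prQ (F : Facts e) {D : ℝ} (hD : 0 < D) (hB : InjGE e D)
    (hdiam : ∀ p q : M, dist p q ≤ D) {l : ℕ}
    (hP : ∀ x y : M, dist x y = D → finrank ℝ (H775.Pl e D x y) = l + 1)
    {u : E' → UT E M} {x : E'} (hu : (dUT E M).At u x) {z : E' → E}
    (hz : (dTM E M).At (fun s => tb (bar e D (u s)) (z s)) x) :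
    (dTM E M).At (fun s => tb (bar e D (u s)) (prQ e D (u s) (z s))) x := by
  have h1 := at_prP F hD hB hdiam hP (u := fun s => phi F (u s, D)) (map_phiD F D hu) (a := z) hz
  have h2 : (fun s => tb (foot (phi F (u s, D))) (prP e D (phi F (u s, D)) (z s))) =
      fun s => tb (bar e D (u s)) (prQ e D (u s) (z s)) := by
    funext s
    rw [prP_phi F hD hB hdiam]
    rfl
  rw [h2] at h1
  exact h1

/-- the differential of the exponential map is smooth -/
theorem at_AD (F : Facts e) {D : ℝ} {u : E' → UT E M} {x : E'} (hu : (dUT E M).At u x) {a : E' → E}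
    (ha : (dTM E M).At (fun s => tb (foot (u s)) (a s)) x) :
    (dTM E M).At (fun s => tb (bar e D (u s)) (AD e D (u s) (a s))) x := by
  have h1 : ∀ᶠ s in 𝓝 x, SmV (E := E) (fun s => foot (u s)) (fun s => (D • vec' (u s) : E)) s :=
    at_smul_tb (c := fun _ => D) (Sm.of_contDiff contDiff_const x) (at_vec_tb hu)
  have h2 : ∀ᶠ s in 𝓝 x, SmV (E := E) (fun s => foot (u s)) (fun s => (a s : E)) s := ha
  have h3 : ∀ᶠ s in 𝓝 x, SmV (E := E) (fun s => e (foot (u s)) (D • vec' (u s) : E))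
      (fun s => (D • dE (E := E) e (foot (u s)) (D • vec' (u s)) (a s) : E)) s := by
    filter_upwards [eventually_eventually_nhds.2 h1, eventually_eventually_nhds.2 h2] with s g1 g2
    exact SmV.smul contDiffAt_const (H583.smV_dE F.isExp g1 g2)
  exact h3

/-- an isomorphism `T_p M → T_q M` extending `AD` on `P_{pq}ᗮ` -/
def LL (F : Facts e) {D : ℝ} (hD : 0 < D) (hB : InjGE e D)
    (hdiam : ∀ p q : M, dist p q ≤ D) (v : UT E M) : E →ₗ[ℝ] E where
  toFun a := AD e D v (a - prP e D v a) +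
    (ip (foot v) (vec' v) a • vec' (phi F (v, D)) + Tr F hD hB hdiam v a)
  map_add' a b := by
    have h1 : a + b - (prP (E := E) e D v a + prP e D v b) = (a - prP e D v a) +
      (b - prP e D v b) := by abel
    rw [prP_add, h1, AD_add, ip_add_right', Tr_add, add_smul]
    abel
  map_smul' c a := by
    rw [prP_smul, ← smul_sub, AD_smul, ip_smul_right', Tr_smul, mul_smul]
    simp only [RingHom.id_apply, smul_add]

theorem LL_apply (F : Facts e) {D : ℝ} (hD : 0 < D) (hB : InjGE e D)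
    (hdiam : ∀ p q : M, dist p q ≤ D) (v : UT E M) (a : E) :
    LL F hD hB hdiam v a = AD e D v (a - prP e D v a) +
    (ip (foot v) (vec' v) a • vec' (phi F (v, D)) + Tr F hD hB hdiam v a) := rfl

theorem prQ_TP (F : Facts e) {D : ℝ} (hD : 0 < D) (hB : InjGE e D)
    (hdiam : ∀ p q : M, dist p q ≤ D) (v : UT E M) (c : ℝ) (a : E) :
    prQ e D v (c • vec' (phi F (v, D)) + Tr F hD hB hdiam v a) =
      c • vec' (phi F (v, D)) + Tr F hD hB hdiam v a := by
  rw [← prP_phi F hD hB hdiam]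
  exact prP_of_mem (E := E) (Submodule.add_mem _ (Submodule.smul_mem _ _ (self_mem_Pl D _))
    (mem_Lf.1 (Tr_mem F hD hB hdiam v a)).1)

theorem LL_injective (F : Facts e) {D : ℝ} (hD : 0 < D) (hB : InjGE e D)
    (hdiam : ∀ p q : M, dist p q ≤ D) (v : UT E M) :
    Function.Injective (LL F hD hB hdiam v) := by
  rw [← LinearMap.ker_eq_bot, LinearMap.ker_eq_bot']
  intro a h
  rw [LL_apply] at h
  have h1 : prP e D v (a - prP e D v a) = 0 := by rw [prP_sub, prP_prP, sub_self]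
  have h2 := prQ_AD_of_prP F hD hB hdiam h1
  have h3 := congrArg (prQ e D v) h
  rw [prQ_add, h2, zero_add, prQ_zero, prQ_TP F hD hB hdiam] at h3
  rw [h3, add_zero] at h
  have h4 : a - prP e D v a = 0 := AD_inj F hD hB hdiam (prP_eq_zero_iff.1 h1) h
  -- the component in the plane
  have h5 := Tr_mem F hD hB hdiam v a
  have h6 : ip (bar e D v) (vec' (phi F (v, D))) (Tr F hD hB hdiam v a) = 0 := (mem_Lf.1 h5).2
  have h7 : ip (bar e D v) (vec' (phi F (v, D))) (vec' (phi F (v, D))) = 1 :=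
    ip_vec' (phi F (v, D))
  have h8 := congrArg (fun z : E => ip (bar e D v) (vec' (phi F (v, D))) z) h3
  have h9 : ip (bar e D v) (vec' (phi F (v, D))) (0 : E) = 0 :=
    inner_zero_right (𝕜 := ℝ) (E := TangentSpace 𝓘(ℝ, E) (bar e D v)) _
  have h8' : ip (bar e D v) (vec' (phi F (v, D))) (ip (foot v) (vec' v) a • vec' (phi F (v, D)) +
      Tr F hD hB hdiam v a) = ip (bar e D v) (vec' (phi F (v, D))) (0 : E) := h8
  rw [ip_add_right', ip_smul_right', h6, h7, h9, mul_one, add_zero] at h8'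
  clear h8
  have h8 := h8'
  rw [h8, zero_smul, zero_add] at h3
  have h10 : prL e D v a = 0 := by
    rw [← Tr_Tr F hD hB hdiam, h3]
    exact map_zero (TrL F hD hB hdiam (phi F (v, D)))
  have h11 : prP e D v a = 0 := by rw [prP_eq, h8, zero_smul, zero_add, h10]
  rw [h11, sub_zero] at h4
  exact h4

theorem LL_BB (F : Facts e) {D : ℝ} (hD : 0 < D) (hB : InjGE e D)
    (hdiam : ∀ p q : M, dist p q ≤ D) (v : UT E M) (z : E) :
    LL F hD hB hdiam v (BB e D v z) = z - prQ e D v z := by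
  have h1 := prP_BB F hD hB hdiam v z
  have h2 : ip (foot v) (vec' v) (BB e D v z) = 0 := by
    rw [← ip_prP_self, h1]
    exact inner_zero_right (𝕜 := ℝ) (E := TangentSpace 𝓘(ℝ, E) (foot v)) _
  have h3 : prL e D v (BB e D v z) = 0 := by
    have h4 := prP_eq (e := e) D v (BB e D v z)
    rw [h1, h2, zero_smul, zero_add] at h4
    exact h4.symm
  have h5 : Tr F hD hB hdiam v (BB e D v z) = 0 := by
    rw [← Tr_prL, h3]
    exact map_zero (TrL F hD hB hdiam v)
  rw [LL_apply, h1, sub_zero, AD_BB F hD hB hdiam, h2, zero_smul, zero_add, h5, add_zero]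

theorem at_LL (F : Facts e) {D : ℝ} (hD : 0 < D) (hB : InjGE e D)
    (hdiam : ∀ p q : M, dist p q ≤ D) {l : ℕ}
    (hP : ∀ x y : M, dist x y = D → finrank ℝ (H775.Pl e D x y) = l + 1)
    {u : E' → UT E M} {x : E'} (hu : (dUT E M).At u x) {a : E' → E}
    (ha : (dTM E M).At (fun s => tb (foot (u s)) (a s)) x) :
    (dTM E M).At (fun s => tb (bar e D (u s)) (LL F hD hB hdiam (u s) (a s))) x := by
  have h1 := at_AD F (D := D) hu (at_sub_tb ha (at_prP F hD hB hdiam hP hu ha))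
  have h2 : (dTM E M).At (fun s => tb (bar e D (u s)) (vec' (phi F (u s, D)))) x :=
    at_vec_tb (map_phiD F D hu)
  have h3 := at_smul_tb (sm_ip_raw hu ha (Eventually.of_forall fun _ => rfl)) h2
  exact at_add_tb h1 (at_add_tb h3 (at_Tr F hD hB hdiam hP hu ha))

/-- **the pencil is smooth** -/
theorem at_BB (F : Facts e) {D : ℝ} (hD : 0 < D) (hB : InjGE e D)
    (hdiam : ∀ p q : M, dist p q ≤ D) {l : ℕ}
    (hP : ∀ x y : M, dist x y = D → finrank ℝ (H775.Pl e D x y) = l + 1)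
    {u : E' → UT E M} {x : E'} (hu : (dUT E M).At u x) {z : E' → E}
    (hz : (dTM E M).At (fun s => tb (bar e D (u s)) (z s)) x) :
    (dTM E M).At (fun s => tb (foot (u s)) (BB e D (u s) (z s))) x := by
  have hf : ∀ᶠ s in 𝓝 x, ContMDiffAt 𝓘(ℝ, E') 𝓘(ℝ, E) ∞ (fun s => foot (u s)) s := map_foot hu
  have hsrc : ∀ᶠ s in 𝓝 x, foot (u s) ∈ (extChartAt 𝓘(ℝ, E) (foot (u x))).source :=
    hf.self_of_nhds.continuousAt.eventually
      ((isOpen_extChartAt_source (I := 𝓘(ℝ, E)) (foot (u x))).mem_nhds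
        (mem_extChartAt_source (foot (u x))))
  refine smV_solve (f := fun s => foot (u s)) (g := fun s => bar e D (u s))
    (L := fun s => LL F hD hB hdiam (u s)) hf ?_
    (Eventually.of_forall fun s => LL_injective F hD hB hdiam (u s)) ?_
  · intro ξ
    have h1 : ∀ᶠ s in 𝓝 x, SmV (E := E) (fun s => foot (u s))
        (fun s => (vec (foot (u x)) (foot (u s)) ξ : E)) s := by
      filter_upwards [hf, hsrc] with s g1 g2
      exact smV_vec (E := E) (f := fun s => foot (u s)) (s := s) (foot (u x)) g2 g1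
        contDiffAt_const
    exact at_LL F hD hB hdiam hP hu (a := fun s => (vec (foot (u x)) (foot (u s)) ξ : E)) h1
  · have h1 := at_sub_tb hz (at_prQ F hD hB hdiam hP hu hz)
    have h2 : ∀ᶠ s in 𝓝 x, SmV (E := E) (fun s => bar e D (u s))
      (fun s => (z s - prQ e D (u s) (z s) : E)) s := h1
    filter_upwards [h2] with s g1
    refine g1.congr (Eventually.of_forall fun s' => ?_)
    exact (LL_BB F hD hB hdiam (u s') (z s')).symm

end Plots

end

end Vale.Agent.P231.WR
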