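import Vale.Agent.P231.H766.SL1
import Vale.Agent.P231.WG.BasUT
import Vale.Agent.P231.WR.PenS

/-!
# P231, stages 2 and 3: the dimension of the space of pairs
-/

set_option maxSynthPendingDepth 3
set_option linter.unusedSectionVars false
set_option linter.unusedVariables false

open Bundle Manifold Set Filter Module
open scoped ContDiff Manifold Topology

namespace Vale.Agent.P231.WR

noncomputable section

open Vale.Agent.P234 Vale.Agent.P231 Vale.Agent.P231.Fm Vale.Agent.P231.W Vale.Agent.P231.H775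
  Vale.Agent.P231.H766

variable {E : Type*} [NormedAddCommGroup E] [NormedSpace ℝ E]
  {M : Type*} [MetricSpace M] [ChartedSpace E M]
  [RiemannianBundle (fun x : M => TangentSpace 𝓘(ℝ, E) x)]
  {e : ∀ x : M, TangentSpace 𝓘(ℝ, E) x → M}
  [FiniteDimensional ℝ E] [IsManifold 𝓘(ℝ, E) ∞ M]
  [IsContMDiffRiemannianBundle 𝓘(ℝ, E) ∞ E (fun x : M => TangentSpace 𝓘(ℝ, E) x)]
  [CompactSpace M] [ConnectedSpace M] [IsRiemannianManifold 𝓘(ℝ, E) M]

/-- central charts of the sphere: the coordinates -/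
theorem exists_chart_sphere {V : Type} [NormedAddCommGroup V] [InnerProductSpace ℝ V]
    [FiniteDimensional ℝ V] {a₀ : V} (h0 : ‖a₀‖ = 1) :
    ∃ p : V →L[ℝ] ((ℝ ∙ a₀)ᗮ : Submodule ℝ V), ∀ a : V, a = (inner ℝ a₀ a : ℝ) • a₀ + p a := by
  refine ⟨(ℝ ∙ a₀)ᗮ.orthogonalProjectionOnto, fun a => ?_⟩
  have h1 := Submodule.starProjection_add_starProjection_orthogonal (K := ℝ ∙ a₀) a
  have h2 : (ℝ ∙ a₀).starProjection a = (inner ℝ a₀ a : ℝ) • a₀ := by
    rw [Submodule.starProjection_singleton, h0]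
    simp
  rw [h2] at h1
  exact h1.symm

theorem ne_zero_of_chart {V : Type} [NormedAddCommGroup V] [InnerProductSpace ℝ V]
    {a₀ : V} (h0 : ‖a₀‖ = 1) (k : ((ℝ ∙ a₀)ᗮ : Submodule ℝ V)) : a₀ + (k : V) ≠ 0 := by
  intro h
  have h1 : (inner ℝ a₀ (a₀ + (k : V)) : ℝ) = 0 := by rw [h, inner_zero_right]
  have h2 : (inner ℝ a₀ (k : V) : ℝ) = 0 :=
    Submodule.mem_orthogonal_singleton_iff_inner_right.1 k.2
  rw [inner_add_right, real_inner_self_eq_norm_sq, h0, h2] at h1
  norm_num at h1

/-- **the dimension of the space of pairs** -/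
theorem dimEq_Pr (F : Facts e) {D : ℝ} (hD : 0 < D) (hB : InjGE e D)
    (hdiam : ∀ p q : M, dist p q ≤ D) {l : ℕ} (hl : 1 ≤ l)
    (hP : ∀ x y : M, dist x y = D → finrank ℝ (H775.Pl e D x y) = l + 1) {N : ℕ}
    (hN : finrank ℝ E = N + 1) : WF.DimEq (dPr e D) (2 * N + l) := by
  classical
  intro E' _ _ _ u x hu
  have hv : (dUT E M).At (fun s => (u s).v) x := hu.1
  have hw : (dUT E M).At (fun s => (u s).w) x := hu.2
  obtain ⟨c, g, hg, hc, hcg⟩ := WF.dimEq_UT E M hN hv
  obtain ⟨fr₀, hfr₀⟩ := exists_isLF F hD hB hdiam hP (c (g x))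
  obtain ⟨fr, h1, h2, h3⟩ := WR.exists_frame F hD hB hdiam hP hc hfr₀
  have hgc : ContinuousAt g x := hg.continuousAt
  have h4 : ∀ᶠ s in 𝓝 x, IsLF e D (u s).v (fun i => fr i (g s)) := by
    filter_upwards [hgc.eventually h3, hcg] with s a1 a2
    have a3 : (u s).v = c (g s) := a2
    rw [a3]
    exact a1
  have hfrg : ∀ i, (dUT E M).At (fun s => fr i (g s)) x := fun i => (dUT E M).comp (h2 i) hg
  -- the coordinates of `w`
  let V := EuclideanSpace ℝ (Fin l)
  let a : E' → V := fun s => WithLp.toLp 2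
    (fun i => ip (foot (u s).v) (vec' (fr i (g s))) (vec' (u s).w))
  have hai : ∀ s i, a s i = ip (foot (u s).v) (vec' (fr i (g s))) (vec' (u s).w) :=
    fun s i => rfl
  have haw : (dTM E M).At (fun s => tb (foot (u s).v) (vec' (u s).w)) x := by
    refine (dTM E M).congr (at_vec_tb hw) (Eventually.of_forall fun s => ?_)
    exact tb_congr (u s).isL.foot_eq rfl
  have has : ∀ i, Sm (fun s => a s i) x := by
    intro i
    exact sm_ip_raw (u := fun s => (u s).v) (w := fun s => fr i (g s))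
      (a := fun s => vec' (u s).w) (hfrg i) haw (h4.mono fun s hs => (hs.isL i).foot_eq)
  have haS : Sm a x := by
    have h5 : ∀ᶠ s in 𝓝 x, ∀ i, ContDiffAt ℝ ∞ (fun s => a s i) s := eventually_all.2 has
    filter_upwards [h5] with s hs
    exact (contDiffAt_piLp 2).2 hs
  have han : ∀ᶠ s in 𝓝 x, ‖a s‖ = 1 := by
    filter_upwards [h4] with s hs
    have k1 := ip_sumW_self hs (fun i => ip (foot (u s).v) (vec' (fr i (g s))) (vec' (u s).w))
    rw [sumW_ip F hD hB hdiam hP hs (u s).isL, (u s).isL.ip_self] at k1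
    have k2 : ‖a s‖ ^ 2 = 1 := by
      rw [EuclideanSpace.norm_sq_eq]
      simp only [Real.norm_eq_abs, sq_abs, hai]
      exact k1.symm
    have k3 : 0 ≤ ‖a s‖ := norm_nonneg _
    nlinarith only [k2, k3]
  have hax : ‖a x‖ = 1 := han.self_of_nhds
  -- the chart of the sphere
  set a₀ : V := a x with ha₀
  let K : Submodule ℝ V := (ℝ ∙ a₀)ᗮ
  obtain ⟨pK, hpK⟩ : ∃ p : V →L[ℝ] K, ∀ a : V, a = (inner ℝ a₀ a : ℝ) • a₀ + p a :=
    exists_chart_sphere hax
  have hfK : finrank ℝ K + 1 = l := by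
    have k1 := Submodule.finrank_add_finrank_orthogonal (ℝ ∙ a₀)
    have k2 : a₀ ≠ 0 := by
      intro h
      rw [h, norm_zero] at hax
      exact zero_ne_one hax
    rw [finrank_span_singleton k2, finrank_euclideanSpace, Fintype.card_fin] at k1
    change finrank ℝ ((ℝ ∙ a₀)ᗮ : Submodule ℝ V) + 1 = l
    omega
  let G := EuclideanSpace ℝ (Fin (2 * N + 1))
  let φ : (G × K) ≃L[ℝ] EuclideanSpace ℝ (Fin (2 * N + l)) :=
    ContinuousLinearEquiv.ofFinrankEq (by
      rw [finrank_euclideanSpace, Fintype.card_fin, finrank_prod, finrank_euclideanSpace,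
        Fintype.card_fin]
      omega)
  let nr : K → Fin l → ℝ := fun k i => ‖a₀ + (k : V)‖⁻¹ * (a₀ + (k : V)) i
  have hnr : ∀ k, ∑ i, nr k i ^ 2 = 1 := by
    intro k
    have k1 := EuclideanSpace.norm_sq_eq (𝕜 := ℝ) (a₀ + (k : V))
    simp only [Real.norm_eq_abs, sq_abs] at k1
    have k2 : ‖a₀ + (k : V)‖ ≠ 0 := norm_ne_zero_iff.2 (ne_zero_of_chart hax k)
    simp only [nr, mul_pow]
    rw [← Finset.mul_sum, ← k1, inv_pow, inv_mul_cancel₀ (pow_ne_zero 2 k2)]
  -- the plot
  let C : G × K → Pr e D := fun q =>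
    if h : IsLF e D (c q.1) (fun i => fr i q.1) then
      ⟨(c q.1, (isL_sumW F hD hB hdiam h (hnr q.2)).choose),
        (isL_sumW F hD hB hdiam h (hnr q.2)).choose_spec.1⟩
    else u x
  have hCv : ∀ q : G × K, IsLF e D (c q.1) (fun i => fr i q.1) →
      (C q).v = c q.1 ∧ vec' (C q).w = sumW (fun i => fr i q.1) (nr q.2) := by
    intro q g1
    have g3 : C q = ⟨(c q.1, (isL_sumW F hD hB hdiam g1 (hnr q.2)).choose),
        (isL_sumW F hD hB hdiam g1 (hnr q.2)).choose_spec.1⟩ := dif_pos g1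
    rw [g3]
    exact ⟨rfl, (isL_sumW F hD hB hdiam g1 (hnr q.2)).choose_spec.2⟩
  let kk : E' → K := fun s => (inner ℝ a₀ (a s) : ℝ)⁻¹ • pK (a s)
  have hin : Sm (fun s => (inner ℝ a₀ (a s) : ℝ)) x := by
    filter_upwards [haS] with s hs
    exact contDiffAt_const.inner ℝ hs
  have hinx : (inner ℝ a₀ (a x) : ℝ) = 1 := by
    rw [← ha₀, real_inner_self_eq_norm_sq, hax, one_pow]
  have hpos : ∀ᶠ s in 𝓝 x, 0 < (inner ℝ a₀ (a s) : ℝ) := by
    have k1 : ContinuousAt (fun s => (inner ℝ a₀ (a s) : ℝ)) x := hin.continuousAt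
    refine k1.eventually (lt_mem_nhds ?_)
    change 0 < (inner ℝ a₀ (a x) : ℝ)
    rw [hinx]
    exact one_pos
  have hkS : Sm kk x := by
    filter_upwards [haS, hin, hpos] with s k1 k2 k3
    exact (k2.inv k3.ne').smul (pK.contDiff.contDiffAt.comp s k1)
  refine ⟨fun z => C (φ.symm z), fun s => φ (g s, kk s), ?_, ?_, ?_⟩
  · exact Sm.comp (f := φ) (Sm.of_contDiff φ.contDiff _) (hg.prodMk hkS)
  · -- the parametrisation is a plot
    have hCat : (dPr e D).At C (g x, kk x) := by
      have hev : ∀ᶠ q : G × K in 𝓝 (g x, kk x), IsLF e D (c q.1) (fun i => fr i q.1) := by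
        have k3 : Tendsto (Prod.fst : G × K → G) (𝓝 (g x, kk x)) (𝓝 (g x)) := continuousAt_fst
        exact k3.eventually h3
      have hz1 : (dUT E M).At (fun q : G × K => c q.1) (g x, kk x) :=
        (dUT E M).comp (u := c) (g := Prod.fst) (x := (g x, kk x)) hc
          (Sm.of_contDiff contDiff_fst _)
      have hz2 : ∀ i, (dUT E M).At (fun q : G × K => fr i q.1) (g x, kk x) := fun i =>
        (dUT E M).comp (u := fr i) (g := Prod.fst) (x := (g x, kk x)) (h2 i)
          (Sm.of_contDiff contDiff_fst _)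
      have hCe : ∀ᶠ q in 𝓝 (g x, kk x), (C q).v = c q.1 ∧
          vec' (C q).w = sumW (fun i => fr i q.1) (nr q.2) := by
        filter_upwards [hev] with q hq using hCv q hq
      refine ⟨?_, ?_⟩
      · refine (dUT E M).congr hz1 ?_
        filter_upwards [hCe] with q hq using hq.1.symm
      · have hco : ∀ i, Sm (fun q : G × K => nr q.2 i) (g x, kk x) := by
          intro i
          refine Sm.of_contDiff ?_ _
          have k1 : ContDiff ℝ ∞ (fun q : G × K => a₀ + (q.2 : V)) :=
            contDiff_const.add (K.subtypeL.contDiff.comp contDiff_snd)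
          have k2 : ContDiff ℝ ∞ (fun q : G × K => ‖a₀ + (q.2 : V)‖⁻¹) :=
            (k1.norm ℝ fun q => ne_zero_of_chart hax q.2).inv fun q =>
              norm_ne_zero_iff.2 (ne_zero_of_chart hax q.2)
          exact k2.mul ((contDiff_piLp 2).1 k1 i)
        refine at_sum (u := fun q : G × K => c q.1)
          (W := fun i q => fr i q.1) hz1 hz2 (fun i => ?_) (c := fun i q => nr q.2 i) hco ?_
        · filter_upwards [hev] with q hq using (hq.isL i).foot_eq
        · filter_upwards [hCe] with q hq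
          refine ⟨?_, hq.2⟩
          rw [← hq.1]
          exact (C q).isL.foot_eq
    refine (dPr e D).comp (u := C) (g := φ.symm) (x := φ (g x, kk x)) ?_
      (Sm.of_contDiff φ.symm.contDiff _)
    rw [φ.symm_apply_apply]
    exact hCat
  · -- factorisation
    filter_upwards [h4, hcg, han, hpos] with s k1 k2 k3 k4
    have k2' : (u s).v = c (g s) := k2
    have k5 : φ.symm (φ (g s, kk s)) = (g s, kk s) := φ.symm_apply_apply _
    change u s = C (φ.symm (φ (g s, kk s)))
    rw [k5]
    have k6 := hCv (g s, kk s) (by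
      change IsLF e D (c (g s)) (fun i => fr i (g s))
      rw [← k2']
      exact k1)
    have k7 : nr (kk s) = fun i => a s i := by
      have m1 := hpK (a s)
      have m2 : a s = (inner ℝ a₀ (a s) : ℝ) • (a₀ + ((kk s : K) : V)) := by
        have m3 : ((kk s : K) : V) = (inner ℝ a₀ (a s) : ℝ)⁻¹ • ((pK (a s) : K) : V) := rfl
        rw [m3, smul_add, smul_smul, mul_inv_cancel₀ k4.ne', one_smul]
        exact m1
      set r := (inner ℝ a₀ (a s) : ℝ) with hr
      have m4 : r * ‖a₀ + ((kk s : K) : V)‖ = 1 := by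
        have m5 : ‖a s‖ = r * ‖a₀ + ((kk s : K) : V)‖ := by
          conv_lhs => rw [m2]
          rw [norm_smul, Real.norm_of_nonneg k4.le]
        rw [← m5, k3]
      have m6 : ‖a₀ + ((kk s : K) : V)‖⁻¹ = r := inv_eq_of_mul_eq_one_left m4
      funext i
      simp only [nr]
      rw [m6]
      conv_rhs => rw [m2]
      rfl
    refine Pr.ext' (k2'.trans k6.1.symm) ?_
    have k8 : vec' (C (g s, kk s)).w = vec' (u s).w := by
      rw [k6.2, k7]
      exact sumW_ip F hD hB hdiam hP k1 (u s).isL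
    have k9 : foot (C (g s, kk s)).w = foot (u s).w := by
      rw [(C (g s, kk s)).isL.foot_eq, k6.1, (u s).isL.foot_eq, k2']
    rw [← mk_eta (u s).w, ← mk_eta (C (g s, kk s)).w]
    exact mk_congr k9.symm k8.symm

/-! ### flows on the space of pairs move -/

open Vale.Agent.P231.WG Vale.Agent.P231.WA

/-- a flow on the space of pairs which covers the geodesic flow moves -/
theorem moves_lift (F : Facts e) {D : ℝ} {Lam : Pr e D × ℝ → Pr e D}
    (hv : ∀ b t, (Lam (b, t)).v = phi F (b.v, t)) (b : Pr e D) :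
    Moves (dPr e D) Lam b := by
  obtain ⟨f, hf, a, ha, hd⟩ := moves_phi F b.v
  refine ⟨fun b' => f b'.v, ?_, a, ha, ?_⟩
  · intro E' _ _ _ u x hu hux
    exact hf (map_v hu) (congrArg Pr.v hux)
  · have h1 : (fun s => f (Lam (b, s)).v) = fun s => f (phi F (b.v, s)) := by
      funext s
      rw [hv]
    rw [h1]
    exact hd

/-- the rotation of pairs moves -/
theorem moves_R (F : Facts e) {D : ℝ} (hD : 0 < D) (hB : InjGE e D)
    (hdiam : ∀ p q : M, dist p q ≤ D) (b : Pr e D) :
    Moves (dPr e D) (R F hD hB hdiam) b := by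
  have hne : crd (foot b.v) (foot b.v) (vec' (E := E) b.w : E) ≠ 0 := by
    intro h0
    have h1 := vec_crd (foot b.v) (mem_extChartAt_source (foot b.v)) (vec' (E := E) b.w : E)
    rw [h0, map_zero] at h1
    exact vec'_ne_zero b.w h1.symm
  obtain ⟨l, hl⟩ := SeparatingDual.exists_eq_one (R := ℝ) hne
  refine ⟨fun b' => l (crd (foot b.v) (foot b'.v) (vec' (E := E) b'.v : E)), ?_, 1, one_ne_zero, ?_⟩
  · intro E' _ _ _ u x hu hux
    have h1 : SmV (fun y => foot (u y).v) (fun y => (vec' (E := E) (u y).v : E)) x :=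
      Filter.Eventually.self_of_nhds (map_v hu)
    have h2 : foot (u x).v ∈ (extChartAt 𝓘(ℝ, E) (foot b.v)).source := by
      rw [hux]
      exact mem_extChartAt_source (foot b.v)
    have h3 := ((smV_iff (f := fun y => foot (u y).v) (u := fun y => (vec' (E := E) (u y).v : E))
      (foot b.v) h2).1 h1).2
    exact l.differentiableAt.comp x (h3.differentiableAt (by simp))
  · have h1 : (fun s : ℝ => l (crd (foot b.v) (foot (R F hD hB hdiam (b, s)).v)
        (vec' (E := E) (R F hD hB hdiam (b, s)).v : E))) = fun s : ℝ =>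
        Real.cos s * l (crd (foot b.v) (foot b.v) (vec' (E := E) b.v : E)) +
          Real.sin s * l (crd (foot b.v) (foot b.v) (vec' (E := E) b.w : E)) := by
      funext s
      have h2 : crd (foot b.v) (foot b.v) (Real.cos s • vec' (E := E) b.v +
          Real.sin s • vec' b.w : E)
          = Real.cos s • crd (foot b.v) (foot b.v) (vec' (E := E) b.v : E) +
            Real.sin s • crd (foot b.v) (foot b.v) (vec' (E := E) b.w : E) := by
        exact (map_add (crd (E := E) (foot b.v) (foot b.v)) _ _).trans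
          (congrArg₂ (· + ·) (map_smul (crd (E := E) (foot b.v) (foot b.v)) _ _)
            (map_smul (crd (E := E) (foot b.v) (foot b.v)) _ _))
      change l (crd (foot b.v) (foot b.v) (Real.cos s • vec' (E := E) b.v +
        Real.sin s • vec' b.w : E)) = _
      rw [h2, map_add, map_smul, map_smul, smul_eq_mul, smul_eq_mul]
    rw [h1, hl]
    have h2 := ((Real.hasDerivAt_cos 0).mul_const
      (l (crd (foot b.v) (foot b.v) (vec' (E := E) b.v : E)))).fun_add
      ((Real.hasDerivAt_sin 0).mul_const (1 : ℝ))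
    simpa using h2

/-! ### functionals on the forms of the space of pairs -/

section Fun

variable {X : Type*} {DX : Dif X}

/-- a linear form which only sees the part of top degree kills basic forms -/
theorem fun_basic_eq_zero {m : ℕ} (hD : WF.DimEq DX m) (J : Form DX →ₗ[ℝ] ℝ)
    (hJ : ∀ w, J w = J (Form.part m w)) {Φ : X × ℝ → X}
    (hΦ : (DX.prod (Dif.lin ℝ)).Map DX Φ) (h0 : ∀ v, Φ (v, 0) = v)
    (hmv : ∀ v, Moves DX Φ v) (w : Form DX) (hb : Basic Φ hΦ w) : J w = 0 := by
  have hb' : Basic Φ hΦ (Form.part m w) := by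
    change Form.pull Φ hΦ (Form.part m w) = pr (Form.part m w)
    rw [← Form.part_pull, hb]
    exact Form.part_pull _ _ (Dif.map_fst (D := DX) (D' := Dif.lin ℝ)) w
  rw [hJ, basic_top_eq_zero hD hΦ h0 hmv (Form.isDeg_part _ w) hb', map_zero]

/-- the part of top degree is closed -/
theorem part_top_d {m : ℕ} (hD : WF.DimEq DX m) (w : Form DX) : (Form.part m w).d = 0 := by
  have h1 : Form.IsDeg (m + 1) (Form.part m w).d := (Form.isDeg_part m w).d
  refine Form.ext_val fun E _ _ _ u x h => ?_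
  obtain ⟨c, g, hg, hc, hu⟩ := hD h
  rw [(Form.part m w).d.congr h hu, (Form.part m w).d.nat hc hg, Form.zero_val]
  have h2 : ((Form.part m w).d).val c (g x) = 0 := by
    have h3 : prt (m + 1) (((Form.part m w).d).val c (g x)) = ((Form.part m w).d).val c (g x) := by
      conv_rhs => rw [← h1.part_eq]
      rfl
    rw [← h3]
    refine prt_eq_zero ?_ _
    rw [finrank_euclideanSpace, Fintype.card_fin]
    omega
  rw [h2, map_zero]

/-- a linear form which kills exact forms and only sees the part of top degree is invariant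
under maps homotopic to the identity -/
theorem fun_pull_flow {m : ℕ} (hD : WF.DimEq DX m) (J : Form DX →ₗ[ℝ] ℝ)
    (hJ : ∀ w, J w = J (Form.part m w)) (hJd : ∀ w : Form DX, J w.d = 0) {Φ : X × ℝ → X}
    (hΦ : (DX.prod (Dif.lin ℝ)).Map DX Φ) (h0 : ∀ v, Φ (v, 0) = v) (c : ℝ) (w : Form DX) :
    J (Form.pull (fun v => Φ (v, c)) (H584.map_at hΦ c) w) = J w := by
  set w' := Form.part m w with hw'
  have hd : w'.d = 0 := part_top_d hD w
  have h1 := H584.KT_homotopy c (Form.pull Φ hΦ w')
  have h2 : at_ c (Form.pull Φ hΦ w') =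
      Form.pull (fun v => Φ (v, c)) (H584.map_at hΦ c) w' := H584.at_pull_of hΦ c w'
  have h3 : at_ 0 (Form.pull Φ hΦ w') = w' := by
    refine (H584.at_pull_of hΦ 0 w').trans ?_
    have h4 : (fun v => Φ (v, (0 : ℝ))) = id := funext h0
    refine Form.ext_val fun E _ _ _ u x h => ?_
    rw [Form.pull_val _ _ h]
    have h5 : (fun v => Φ (v, (0 : ℝ))) ∘ u = u := by
      rw [h4]
      rfl
    rw [h5]
  have h0' : Form.pull Φ hΦ (0 : Form DX) = 0 := map_zero (Form.pullA Φ hΦ)
  rw [h2, h3, ← Form.pull_d, hd, h0', H584.KT_zero, zero_add] at h1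
  have h6 : Form.pull (fun v => Φ (v, c)) (H584.map_at hΦ c) w' =
      w' + (KT c (Form.pull Φ hΦ w')).d := by
    rw [← h1]
    abel
  rw [hJ, Form.part_pull, ← hw', h6, map_add, hJd, add_zero, ← hJ]

end Fun

end

end Vale.Agent.P231.WR
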