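import Vale.Agent.P231.WR.Rot
import Vale.Agent.P231.WA.Inv
import Vale.Agent.P231.WF.Conn

/-!
# P231, stage 1, block F2 (part 2): the integral of a form over the circle of a pair `(v, w)`,
`w ∈ L_v`, is constant up to sign; orientation of the line field `L`
-/

set_option maxSynthPendingDepth 3
set_option linter.unusedSectionVars false
set_option linter.unusedVariables false

open Bundle Manifold Set Filter Module Topology
open scoped ContDiff Manifold Topology

namespace Vale.Agent.P231.WR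

noncomputable section

open Vale.Agent.P234 Vale.Agent.P231 Vale.Agent.P231.Fm Vale.Agent.P231.W Vale.Agent.P231.WF

/-! ### abstract lemmas -/

section Abstract

variable {X Y Z : Type*} {D : Dif X} {D' : Dif Y} {D'' : Dif Z}

theorem map_affine (c b : ℝ) : (D.prod (Dif.lin ℝ)).Map (D.prod (Dif.lin ℝ))
    (fun p : X × ℝ => (p.1, b - c * p.2)) := fun {E} _ _ _ {u x} h =>
  ⟨h.1, Sm.comp (f := fun t : ℝ => b - c * t) (g := fun y => (u y).2)
    (Sm.of_contDiff (contDiff_const.sub (contDiff_const.mul contDiff_id)) _) h.2⟩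

theorem pull_pull {f : X → Y} {g : Y → Z} (hf : D.Map D' f) (hg : D'.Map D'' g)
    {h : X → Z} (hh : D.Map D'' h) (he : ∀ x, g (f x) = h x) (a : Form D'') :
    Form.pull f hf (Form.pull g hg a) = Form.pull h hh a := by
  have h1 : g ∘ f = h := funext he
  subst h1
  exact (Form.pull_comp hf hg hh a).symm

/-- reversal of the interval in the homotopy operator -/
theorem K_flip (w : Form (D.prod (Dif.lin ℝ))) :
    Form.K (Form.pull (fun p : X × ℝ => (p.1, 1 - 1 * p.2)) (map_affine 1 1) w) = -Form.K w :=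
  Form.ext_val fun E _ _ _ u x h => by
    rw [Form.neg_val, Form.K_val _ h, Form.K_val _ h, kop, kop]
    have h1 : ∀ t : ℝ, at1 ((Form.pull (fun p : X × ℝ => (p.1, 1 - 1 * p.2)) (map_affine 1 1)
        w).val (Form.cyl u) (x, t)) = -at1 (w.val (Form.cyl u) (x, 1 - t)) := by
      intro t
      rw [Form.pull_val _ _ (Form.cyl_at h t)]
      have h2 : (fun p : X × ℝ => (p.1, 1 - 1 * p.2)) ∘ Form.cyl u =
          Form.cyl u ∘ fun p : E × ℝ => (p.1, 1 - 1 * p.2) := rfl
      have h3 : fderiv ℝ (fun p : E × ℝ => (p.1, 1 - 1 * p.2)) (x, t) = WA.shr 0 (-1) := by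
        have h8 : HasFDerivAt (fun p : E × ℝ => 1 - 1 * p.2)
            ((0 : E →L[ℝ] ℝ).comp (ContinuousLinearMap.fst ℝ E ℝ) +
              (-1 : ℝ) • ContinuousLinearMap.snd ℝ E ℝ) (x, t) := by
          have h9 := (hasFDerivAt_snd (𝕜 := ℝ) (E := E) (F := ℝ) (p := (x, t))).const_mul 1
          have h10 := h9.const_sub 1
          refine h10.congr_fderiv ?_
          ext <;> simp
        exact (hasFDerivAt_fst.prodMk h8).fderiv
      have h4 := w.nat (u := Form.cyl u) (g := fun p : E × ℝ => (p.1, 1 - 1 * p.2)) (x := (x, t))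
        (Form.cyl_at (x := x) h _) (Sm.of_contDiff (contDiff_fst.prodMk
          (contDiff_const.sub (contDiff_const.mul contDiff_snd))) _)
      rw [h2, h4, h3, WA.at1_shr, neg_one_smul]
      simp only [one_mul]
    rw [intervalIntegral.integral_congr (g := fun t => -at1 (w.val (Form.cyl u) (x, 1 - t)))
      (fun t _ => h1 t), intervalIntegral.integral_neg]
    congr 1
    have h6 := intervalIntegral.integral_comp_sub_left (a := 0) (b := 1)
      (fun s => at1 (w.val (Form.cyl u) (x, s))) 1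
    rw [sub_self, sub_zero] at h6
    exact h6

theorem map_prodId {f : X → Y} (hf : D.Map D' f) :
    (D.prod (Dif.lin ℝ)).Map (D'.prod (Dif.lin ℝ)) (fun p : X × ℝ => (f p.1, p.2)) :=
  fun h => ⟨hf h.1, h.2⟩

/-- naturality of the homotopy operator -/
theorem pull_K {f : X → Y} (hf : D.Map D' f) (w : Form (D'.prod (Dif.lin ℝ))) :
    Form.pull f hf (Form.K w) =
      Form.K (Form.pull (fun p : X × ℝ => (f p.1, p.2)) (map_prodId hf) w) :=
  Form.ext_val fun E _ _ _ u x h => by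
    rw [Form.pull_val _ _ h, Form.K_val _ (hf h), Form.K_val _ h, kop, kop]
    refine intervalIntegral.integral_congr fun t _ => ?_
    change at1 _ = at1 _
    rw [Form.pull_val _ _ (Form.cyl_at h t)]
    rfl

theorem pull_KT {f : X → Y} (hf : D.Map D' f) (c : ℝ) (w : Form (D'.prod (Dif.lin ℝ))) :
    Form.pull f hf (KT c w) =
      KT c (Form.pull (fun p : X × ℝ => (f p.1, p.2)) (map_prodId hf) w) := by
  have h2 : (D.prod (Dif.lin ℝ)).Map (D'.prod (Dif.lin ℝ))
    (fun p : X × ℝ => (f p.1, c * p.2)) := fun h => map_prodId hf (map_scale c h)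
  rw [KT, pull_K, KT, pull_pull (map_prodId hf) (map_scale c) h2 (fun _ => rfl),
    pull_pull (map_scale c) (map_prodId hf) h2 (fun _ => rfl)]

/-- reversal of the orbit -/
theorem KT_flip (c : ℝ) (w : Form (D.prod (Dif.lin ℝ))) :
    KT c (Form.pull (fun p : X × ℝ => (p.1, c - 1 * p.2)) (map_affine 1 c) w) = -KT c w := by
  have h1 := K_flip (Form.pull (fun p : X × ℝ => (p.1, c * p.2)) (map_scale c) w)
  rw [KT, KT, ← h1]
  congr 1
  have h2 : (D.prod (Dif.lin ℝ)).Map (D.prod (Dif.lin ℝ))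
    (fun p : X × ℝ => (p.1, c - c * p.2)) := map_affine c c
  rw [pull_pull (map_scale c) (map_affine 1 c) h2 (fun p => by simp),
    pull_pull (map_affine 1 1) (map_scale c) h2 (fun p => by simp [mul_sub])]

theorem KT_one (c : ℝ) : KT c (1 : Form (D.prod (Dif.lin ℝ))) = 0 := by
  unfold KT
  refine IsDeg.K_zero (IsDeg.pull _ IsDeg.one)

theorem KT_pr (c : ℝ) (w : Form D) : KT c (pr w) = 0 := by
  have h := WA.KT_pr_mul c w 1
  rw [mul_one, KT_one, mul_zero] at h
  exact h

/-- Stokes over closed orbits -/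
theorem KT_closed_orbit {c : ℝ} {C : X × ℝ → Y} (hC : (D.prod (Dif.lin ℝ)).Map D' C)
    (h0 : ∀ x, C (x, c) = C (x, 0)) (B : Form D') :
    (KT c (Form.pull C hC B)).d = -KT c (Form.pull C hC B.d) := by
  have h := WA.KT_homotopy c (Form.pull C hC B)
  have h1 : at_ c (Form.pull C hC B) = at_ 0 (Form.pull C hC B) := by
    have h2 : D.Map D' (fun v => C (v, 0)) := fun h => hC (Form.map_slice 0 h)
    rw [WA.at_pull hC c h2 h0, WA.at_pull hC 0 h2 (fun _ => rfl)]
  rw [h1, sub_self, ← Form.pull_d] at h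
  exact eq_neg_of_add_eq_zero_right h.symm

/-- forms pulled back by a map which is constant along the orbits -/
theorem KT_pull_const {c : ℝ} {C : X × ℝ → Y} (hC : (D.prod (Dif.lin ℝ)).Map D' C) {f : Y → Z}
    (hf : D'.Map D'' f) {g : X → Z} (hg : D.Map D'' g) (h : ∀ p, f (C p) = g p.1)
    (w : Form D'') : KT c (Form.pull C hC (Form.pull f hf w)) = 0 := by
  have h1 : Form.pull C hC (Form.pull f hf w) = pr (Form.pull g hg w) := by
    have h2 : (D.prod (Dif.lin ℝ)).Map D'' (fun p => g p.1) := hg.comp Dif.map_fst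
    rw [pr, pull_pull hC hf h2 h, pull_pull Dif.map_fst hg h2 (fun _ => rfl)]
  rw [h1, KT_pr]

/-- closed forms of degree zero are locally constant along plots -/
theorem ptv_eventually {a : Form D} (h0 : IsDeg a 0) (hd : a.d = 0) {E : Type}
    [NormedAddCommGroup E] [NormedSpace ℝ E] [FiniteDimensional ℝ E] {u : E → X} {x : E}
    (h : D.At u x) : ∀ᶠ s in 𝓝 x, ptv a (u s) = ptv a (u x) := by
  obtain ⟨r, hr, hball⟩ := Metric.eventually_nhds_iff_ball.1 (D.open' h)
  have hev : ∀ s ∈ Metric.ball x r, a.val u =ᶠ[𝓝 s] Fm.fn (fun t => ptv a (u t)) := by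
    intro s hs
    filter_upwards [Metric.isOpen_ball.mem_nhds hs] with t ht
    exact val_of_isDeg_zero h0 (hball t ht)
  have hdiff : ∀ s ∈ Metric.ball x r, DifferentiableAt ℝ (fun t => ptv a (u t)) s := by
    intro s hs
    have h2 : DifferentiableAt ℝ (a.val u) s := a.differentiableAt (hball s hs)
    have h3 : (fun t => (LinearMap.toContinuousLinearMap (aug (E := E)).toLinearMap) (a.val u t))
        =ᶠ[𝓝 s] fun t => ptv a (u t) := by
      filter_upwards [Metric.isOpen_ball.mem_nhds hs] with t ht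
      exact (ptv_eq a (hball t ht)).symm
    refine DifferentiableAt.congr_of_eventuallyEq ?_ h3.symm
    exact (ContinuousLinearMap.differentiableAt _).comp s h2
  filter_upwards [Metric.isOpen_ball.mem_nhds (Metric.mem_ball_self hr)] with s hs
  refine Metric.isOpen_ball.is_const_of_fderiv_eq_zero (𝕜 := ℝ)
    (f := fun t => ptv a (u t)) (s := Metric.ball x r)
    (convex_ball x r).isPreconnected (fun t ht => (hdiff t ht).differentiableWithinAt)
    (fun t ht => ?_) hs (Metric.mem_ball_self hr)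
  have h5 : a.d.val u t = 0 := by rw [hd, Form.zero_val]
  rw [Form.d_val _ (hball t ht), extd_congr (hev t ht), extd_fn (hdiff t ht)] at h5
  exact dx_eq_zero h5

end Abstract

/-! ### the integral over the circle of a pair -/

variable {E : Type*} [NormedAddCommGroup E] [NormedSpace ℝ E]
  {M : Type*} [MetricSpace M] [ChartedSpace E M]
  [RiemannianBundle (fun x : M => TangentSpace 𝓘(ℝ, E) x)]
  {e : ∀ x : M, TangentSpace 𝓘(ℝ, E) x → M}
  [FiniteDimensional ℝ E] [IsManifold 𝓘(ℝ, E) ∞ M]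
  [IsContMDiffRiemannianBundle 𝓘(ℝ, E) ∞ E (fun x : M => TangentSpace 𝓘(ℝ, E) x)]
  [CompactSpace M] [ConnectedSpace M] [IsRiemannianManifold 𝓘(ℝ, E) M]

/-- the vector `cos t v + sin t w` -/
def cv (e : ∀ x : M, TangentSpace 𝓘(ℝ, E) x → M) (D : ℝ) (q : Pr e D × ℝ) : UT E M := rv q.1 q.2

theorem map_cv (F : Facts e) {D : ℝ} (hD : 0 < D) (hB : InjGE e D)
    (hdiam : ∀ p q : M, dist p q ≤ D) : ((dPr e D).prod (Dif.lin ℝ)).Map (dUT E M) (cv e D) :=
  fun h => map_v (map_R F hD hB hdiam h)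

theorem cv_per {D : ℝ} (p : Pr e D) : cv e D (p, 2 * Real.pi) = cv e D (p, 0) := by
  refine mk_congr rfl ?_
  simp only [Real.cos_two_pi, Real.sin_two_pi, Real.cos_zero, Real.sin_zero]

/-- the integral of a form over the circles -/
def kf (F : Facts e) {D : ℝ} (hD : 0 < D) (hB : InjGE e D)
    (hdiam : ∀ p q : M, dist p q ≤ D) (B : Form (dUT E M)) : Form (dPr e D) :=
  KT (2 * Real.pi) (Form.pull (cv e D) (map_cv F hD hB hdiam) B)

theorem isDeg_kf (F : Facts e) {D : ℝ} (hD : 0 < D) (hB : InjGE e D)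
    (hdiam : ∀ p q : M, dist p q ≤ D) {B : Form (dUT E M)} (h : WF.IsDeg B 1) :
    WF.IsDeg (kf F hD hB hdiam B) 0 :=
  IsDeg.K (IsDeg.pull _ (IsDeg.pull _ h))

/-- Stokes: the integral over the circles is closed -/
theorem kf_closed (F : Facts e) {D : ℝ} (hD : 0 < D) (hB : InjGE e D)
    (hdiam : ∀ p q : M, dist p q ≤ D) {B : Form (dUT E M)} {F₀ F₁ : Form (dM E M)}
    (h : B.d = Form.pull (bar e D) (map_bar F D) F₁ - Form.pull foot map_foot F₀) :
    (kf F hD hB hdiam B).d = 0 := by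
  have h1 := KT_closed_orbit (map_cv F hD hB hdiam) cv_per B
  have h2 : Form.pull (cv e D) (map_cv F hD hB hdiam) B.d =
      Form.pull (cv e D) (map_cv F hD hB hdiam) (Form.pull (bar e D) (map_bar F D) F₁) -
      Form.pull (cv e D) (map_cv F hD hB hdiam) (Form.pull foot map_foot F₀) := by
    rw [h]
    exact map_sub (Form.pullA (cv e D) (map_cv F hD hB hdiam)) _ _
  rw [kf, h1, h2, WA.KT_sub,
    KT_pull_const (map_cv F hD hB hdiam) (map_bar F D) (g := fun p => bar e D p.v)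
      ((map_bar F D).comp map_v) (fun p => bar_rv F hD hB hdiam p.1 p.2),
    KT_pull_const (map_cv F hD hB hdiam) map_foot (g := fun p => foot p.v) (map_foot.comp map_v)
      (fun p => rfl), sub_zero, neg_zero]

/-- the integral over the circle of a pair -/
def kap (F : Facts e) {D : ℝ} (hD : 0 < D) (hB : InjGE e D)
    (hdiam : ∀ p q : M, dist p q ≤ D) (B : Form (dUT E M)) (p : Pr e D) : ℝ :=
  ptv (kf F hD hB hdiam B) p

/-- the pair with the opposite second vector -/
def opp (F : Facts e) {D : ℝ} (hD : 0 < D) (hB : InjGE e D)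
    (hdiam : ∀ p q : M, dist p q ≤ D) (p : Pr e D) : Pr e D :=
  ⟨(p.v, ng p.w), p.isL.ng F hD hB hdiam⟩

theorem map_ng : (dUT E M).Map (dUT E M) ng := by
  intro E' _ _ _ u x h
  refine at_comb (a := fun _ => (-1 : ℝ)) (b := fun _ => (0 : ℝ)) h h
    (Sm.of_contDiff contDiff_const _) (Sm.of_contDiff contDiff_const _)
    (Eventually.of_forall fun _ => rfl) (Eventually.of_forall fun s => ⟨rfl, ?_⟩)
  change -vec' (u s) = _
  rw [zero_smul, add_zero, neg_one_smul]

theorem map_opp (F : Facts e) {D : ℝ} (hD : 0 < D) (hB : InjGE e D)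
    (hdiam : ∀ p q : M, dist p q ≤ D) : (dPr e D).Map (dPr e D) (opp F hD hB hdiam) :=
  fun h => ⟨h.1, map_ng h.2⟩

/-- the circle of the opposite pair is the reversed circle -/
theorem pull_opp (F : Facts e) {D : ℝ} (hD : 0 < D) (hB : InjGE e D)
    (hdiam : ∀ p q : M, dist p q ≤ D) (B : Form (dUT E M)) :
    Form.pull (opp F hD hB hdiam) (map_opp F hD hB hdiam) (kf F hD hB hdiam B) =
      -kf F hD hB hdiam B := by
  have hcv : ((dPr e D).prod (Dif.lin ℝ)).Map (dUT E M) (cv e D) := map_cv F hD hB hdiam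
  have ho : (dPr e D).Map (dPr e D) (opp F hD hB hdiam) := map_opp F hD hB hdiam
  have h3 : ((dPr e D).prod (Dif.lin ℝ)).Map (dUT E M)
    (fun q => cv e D (q.1, 2 * Real.pi - 1 * q.2)) := fun h => hcv (map_affine _ _ h)
  have h1 := KT_flip (2 * Real.pi) (Form.pull (cv e D) hcv B)
  rw [pull_pull (map_affine 1 (2 * Real.pi)) hcv h3 (fun _ => rfl)] at h1
  rw [kf, pull_KT ho, ← h1, pull_pull (map_prodId ho) hcv h3]
  intro q
  refine mk_congr rfl ?_
  change Real.cos q.2 • vec' q.1.v + Real.sin q.2 • -vec' q.1.w =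
    Real.cos (2 * Real.pi - 1 * q.2) • vec' q.1.v + Real.sin (2 * Real.pi - 1 * q.2) • vec' q.1.w
  rw [one_mul, Real.cos_two_pi_sub, Real.sin_two_pi_sub, smul_neg, neg_smul]

theorem ptv_pull {X Y : Type*} {D : Dif X} {D' : Dif Y} {f : X → Y} (hf : D.Map D' f)
    (a : Form D') {x : X} (h : D.At (fun _ : ℝ => x) 0) :
    ptv (Form.pull f hf a) x = ptv a (f x) := by
  rw [ptv, ptv, Form.pull_val hf _ h]
  rfl

theorem ptv_neg {X : Type*} {D : Dif X} (a : Form D) (x : X) : ptv (-a) x = -ptv a x := by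
  rw [ptv, ptv, Form.neg_val, map_neg]

theorem const_at_Pr {D : ℝ} (p : Pr e D) (t : ℝ) : (dPr e D).At (fun _ : ℝ => p) t :=
  ⟨const_at (E := E) (M := M) p.v t, const_at (E := E) (M := M) p.w t⟩

/-- plots of pairs -/
theorem exists_pairs {D : ℝ} {E' : Type} [NormedAddCommGroup E'] [NormedSpace ℝ E']
    [FiniteDimensional ℝ E'] {u w : E' → UT E M} {x : E'} (hu : (dUT E M).At u x)
    (hw : (dUT E M).At w x) (hL : ∀ᶠ s in 𝓝 x, IsL e D (u s) (w s)) :
    ∃ P : E' → Pr e D, (dPr e D).At P x ∧ ∀ s, IsL e D (u s) (w s) →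
      (P s).v = u s ∧ (P s).w = w s := by
  classical
  have hx := hL.self_of_nhds
  have hP : ∀ s, ∃ p : Pr e D, IsL e D (u s) (w s) → p.v = u s ∧ p.w = w s := fun s => by
    by_cases h : IsL e D (u s) (w s)
    · exact ⟨⟨(u s, w s), h⟩, fun _ => ⟨rfl, rfl⟩⟩
    · exact ⟨⟨(u x, w x), hx⟩, fun h' => absurd h' h⟩
  choose P hP using hP
  refine ⟨P, ⟨(dUT E M).congr hu ?_, (dUT E M).congr hw ?_⟩, hP⟩
  · filter_upwards [hL] with s hs
    exact (hP s hs).1.symm
  · filter_upwards [hL] with s hs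
    exact (hP s hs).2.symm

theorem kap_opp (F : Facts e) {D : ℝ} (hD : 0 < D) (hB : InjGE e D)
    (hdiam : ∀ p q : M, dist p q ≤ D) (B : Form (dUT E M)) (p : Pr e D) :
    kap F hD hB hdiam B (opp F hD hB hdiam p) = -kap F hD hB hdiam B p := by
  unfold kap
  rw [← ptv_pull (map_opp F hD hB hdiam) _ (const_at_Pr p 0), pull_opp, ptv_neg]

/-- hypotheses on the 1-form -/
structure IsB (F : Facts e) (D : ℝ) (B : Form (dUT E M)) : Prop where
  deg : WF.IsDeg B 1
  ex : ∃ F₀ F₁ : Form (dM E M),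
    B.d = Form.pull (bar e D) (map_bar F D) F₁ - Form.pull foot map_foot F₀

theorem IsB.closed {F : Facts e} {D : ℝ} {B : Form (dUT E M)} (h : IsB F D B) (hD : 0 < D)
    (hB : InjGE e D) (hdiam : ∀ p q : M, dist p q ≤ D) : (kf F hD hB hdiam B).d = 0 := by
  obtain ⟨F₀, F₁, h⟩ := h.ex
  exact kf_closed F hD hB hdiam h

/-- the integral is locally constant -/
theorem kap_eventually (F : Facts e) {D : ℝ} (hD : 0 < D) (hB : InjGE e D)
    (hdiam : ∀ p q : M, dist p q ≤ D) {B : Form (dUT E M)} (h : IsB F D B) {E' : Type}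
    [NormedAddCommGroup E'] [NormedSpace ℝ E'] [FiniteDimensional ℝ E'] {u : E' → Pr e D} {x : E'}
    (hu : (dPr e D).At u x) :
    ∀ᶠ s in 𝓝 x, kap F hD hB hdiam B (u s) = kap F hD hB hdiam B (u x) :=
  ptv_eventually (isDeg_kf F hD hB hdiam h.deg) (h.closed hD hB hdiam) hu

/-- the integral is constant along curves -/
theorem kap_curve (F : Facts e) {D : ℝ} (hD : 0 < D) (hB : InjGE e D)
    (hdiam : ∀ p q : M, dist p q ≤ D) {B : Form (dUT E M)} (h : IsB F D B) {c : ℝ → Pr e D}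
    (hc : ∀ t, (dPr e D).At c t) (s t : ℝ) :
    kap F hD hB hdiam B (c s) = kap F hD hB hdiam B (c t) := by
  have h1 : IsLocallyConstant fun t => kap F hD hB hdiam B (c t) :=
    (IsLocallyConstant.iff_eventually_eq _).2 fun t => kap_eventually F hD hB hdiam h (hc t)
  exact h1.apply_eq_of_preconnectedSpace s t

/-- the square of the integral does not depend on the second vector -/
theorem kap_sq (F : Facts e) {D : ℝ} (hD : 0 < D) (hB : InjGE e D)
    (hdiam : ∀ p q : M, dist p q ≤ D)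
    (hP : ∀ x y : M, dist x y = D → finrank ℝ (H775.Pl e D x y) = 2)
    (B : Form (dUT E M)) {p q : Pr e D} (hpq : p.v = q.v) :
    kap F hD hB hdiam B p ^ 2 = kap F hD hB hdiam B q ^ 2 := by
  have h1 : IsL e D q.v p.w := by
    rw [← hpq]
    exact p.isL
  rcases q.isL.eq_or F hD hB hdiam hP h1 with h2 | h2
  · rw [Pr.ext' hpq h2]
  · have h3 : p = opp F hD hB hdiam q := Pr.ext' hpq h2
    rw [h3, kap_opp, neg_sq]

/-- the square of the integral is constant -/
theorem kap_sq_const (F : Facts e) {D : ℝ} (hD : 0 < D) (hB : InjGE e D)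
    (hdiam : ∀ p q : M, dist p q ≤ D) (h2 : 2 ≤ finrank ℝ E)
    (hP : ∀ x y : M, dist x y = D → finrank ℝ (H775.Pl e D x y) = 2)
    {B : Form (dUT E M)} (h : IsB F D B) (p q : Pr e D) :
    kap F hD hB hdiam B p ^ 2 = kap F hD hB hdiam B q ^ 2 := by
  classical
  have hex : ∀ v : UT E M, ∃ r : Pr e D, r.v = v := fun v => by
    obtain ⟨w, hw⟩ := exists_isL F hD hB hdiam (fun x y hxy => (hP x y hxy).ge) v
    exact ⟨⟨(v, w), hw⟩, rfl⟩
  choose r hr using hex
  have h3 := sConn_UT F h2 (fun v => kap F hD hB hdiam B (r v) ^ 2) (fun c hc s t => ?_) p.v q.v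
  · rw [← kap_sq F hD hB hdiam hP B (p := r p.v) (q := p) (hr _),
      ← kap_sq F hD hB hdiam hP B (p := r q.v) (q := q) (hr _)]
    exact h3
  · have h4 : IsLocallyConstant fun t => kap F hD hB hdiam B (r (c t)) ^ 2 := by
      refine (IsLocallyConstant.iff_eventually_eq _).2 fun t => ?_
      have h5 : IsL e D (c t) (r (c t)).w := by
        have := (r (c t)).isL
        rwa [hr] at this
      obtain ⟨w, hw1, hw2, hw3⟩ := exists_local F hD hB hdiam (l := 1) hP (hc t) h5
      obtain ⟨P, hP1, hP2⟩ := exists_pairs (hc t) hw2 hw3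
      have hv : ∀ s, IsL e D (c s) (w s) → kap F hD hB hdiam B (r (c s)) ^ 2 =
          kap F hD hB hdiam B (P s) ^ 2 := fun s hs =>
        kap_sq F hD hB hdiam hP B ((hr _).trans (hP2 s hs).1.symm)
      filter_upwards [kap_eventually F hD hB hdiam h hP1, hw3] with s hs1 hs2
      rw [hv s hs2, hs1, hv t hw3.self_of_nhds]
    exact h4.apply_eq_of_preconnectedSpace s t

/-- **Orientation of the line field.** -/
theorem exists_orient (F : Facts e) {D : ℝ} (hD : 0 < D) (hB : InjGE e D)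
    (hdiam : ∀ p q : M, dist p q ≤ D) (h2 : 2 ≤ finrank ℝ E)
    (hP : ∀ x y : M, dist x y = D → finrank ℝ (H775.Pl e D x y) = 2)
    {B : Form (dUT E M)} (h : IsB F D B) {κ : ℝ} (hκ : 0 < κ) {p₀ : Pr e D}
    (h0 : |kap F hD hB hdiam B p₀| = κ) :
    ∃ w : UT E M → UT E M, ∃ hw : IsSec e D w, ∀ v, kap F hD hB hdiam B (hw.gr v) = κ := by
  have hsq : ∀ p : Pr e D, kap F hD hB hdiam B p ^ 2 = κ ^ 2 := fun p => by
    rw [kap_sq_const F hD hB hdiam h2 hP h p p₀, ← h0, sq_abs]
  have hpm : ∀ p : Pr e D, kap F hD hB hdiam B p = κ ∨ kap F hD hB hdiam B p = -κ := fun p =>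
    sq_eq_sq_iff_eq_or_eq_neg.1 (hsq p)
  have e1 : ∀ v, ∃ w, IsL e D v w ∧ ∃ h : IsL e D v w,
      0 < kap F hD hB hdiam B ⟨(v, w), h⟩ := fun v => by
    obtain ⟨w, hw⟩ := exists_isL F hD hB hdiam (fun x y hxy => (hP x y hxy).ge) v
    rcases hpm (⟨(v, w), hw⟩ : Pr e D) with h5 | h5
    · exact ⟨w, hw, hw, by rw [h5]; exact hκ⟩
    · refine ⟨ng w, hw.ng F hD hB hdiam, hw.ng F hD hB hdiam, ?_⟩
      have h6 := kap_opp F hD hB hdiam B (⟨(v, w), hw⟩ : Pr e D)
      rw [h5, neg_neg] at h6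
      have h7 : opp F hD hB hdiam (⟨(v, w), hw⟩ : Pr e D) =
        ⟨(v, ng w), hw.ng F hD hB hdiam⟩ := rfl
      rw [h7] at h6
      rw [h6]
      exact hκ
  have e2 : ∀ v w w', IsL e D v w → IsL e D v w' →
      (∃ h : IsL e D v w, 0 < kap F hD hB hdiam B ⟨(v, w), h⟩) →
      (∃ h : IsL e D v w', 0 < kap F hD hB hdiam B ⟨(v, w'), h⟩) → w = w' := by
    rintro v w w' h3 h4 ⟨h8, h9⟩ ⟨h10, h11⟩
    rcases h4.eq_or F hD hB hdiam hP h3 with h7 | h7
    · exact h7
    · exfalso
      have h12 := kap_opp F hD hB hdiam B (⟨(v, w'), h4⟩ : Pr e D)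
      have h13 : opp F hD hB hdiam (⟨(v, w'), h4⟩ : Pr e D) = ⟨(v, w), h8⟩ :=
        Pr.ext' rfl h7.symm
      rw [h13] at h12
      linarith
  obtain ⟨w, hw1, hw2⟩ := exists_section F hD hB hdiam (l := 1) hP
    (fun v w => ∃ h : IsL e D v w, 0 < kap F hD hB hdiam B ⟨(v, w), h⟩) e1 e2
    (fun {E'} _ _ _ u w x hu hw hL hpos => by
      obtain ⟨hx, hpos⟩ := hpos
      obtain ⟨P, hP1, hP2⟩ := exists_pairs hu hw hL
      have hv : ∀ s (hs : IsL e D (u s) (w s)), P s = ⟨(u s, w s), hs⟩ := fun s hs =>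
        Pr.ext' (hP2 s hs).1 (hP2 s hs).2
      filter_upwards [kap_eventually F hD hB hdiam h hP1, hL] with s hs1 hs2
      refine ⟨hs2, ?_⟩
      rw [← hv s hs2, hs1, hv x hx]
      exact hpos)
  refine ⟨w, ⟨hw1, fun v => (hw2 v).1⟩, fun v => ?_⟩
  obtain ⟨h3, h4⟩ := (hw2 v).2
  rcases hpm (⟨(v, w v), h3⟩ : Pr e D) with h5 | h5
  · exact h5
  · rw [h5] at h4
    linarith

/-- integration over the orbits of the rotation flow -/
theorem J_rot (F : Facts e) {D : ℝ} (hD : 0 < D) (hB : InjGE e D)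
    (hdiam : ∀ p q : M, dist p q ≤ D) {B : Form (dUT E M)} (h : IsB F D B) {κ : ℝ}
    {w : UT E M → UT E M} (hw : IsSec e D w) (hκ : ∀ v, kap F hD hB hdiam B (hw.gr v) = κ) :
    J hw.rot (hw.map_rot F hD hB hdiam) (2 * Real.pi) B = algebraMap ℝ (Form (dUT E M)) κ := by
  have h1 : J hw.rot (hw.map_rot F hD hB hdiam) (2 * Real.pi) B =
      Form.pull hw.gr hw.map_gr (kf F hD hB hdiam B) := by
    rw [kf, pull_KT hw.map_gr, pull_pull (map_prodId hw.map_gr) (map_cv F hD hB hdiam)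
      (hw.map_rot F hD hB hdiam) (fun _ => rfl)]
    rfl
  rw [h1]
  refine Form.ext_val fun E' _ _ _ u x hu => ?_
  rw [Form.pull_val hw.map_gr _ hu, val_of_isDeg_zero (isDeg_kf F hD hB hdiam h.deg)
    (hw.map_gr hu), Algebra.algebraMap_eq_smul_one (R := ℝ) (A := Form (dUT E M)),
    Form.smul_val, Form.one_val hu, Algebra.algebraMap_eq_smul_one]
  congr 1
  exact hκ (u x)

/-- the primitive of `F_bar - F_foot` satisfies the hypotheses -/
theorem isB_B0 (F : Facts e) (D : ℝ) {F₀ : Form (dM E M)} (h2 : WF.IsDeg F₀ 2)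
    (hd : F₀.d = 0) : IsB F D (KT D (Form.pull (gm e) (map_gm F) F₀)) where
  deg := IsDeg.K (IsDeg.pull _ (IsDeg.pull _ h2))
  ex := by
    refine ⟨F₀, F₀, ?_⟩
    have h := WA.KT_homotopy D (Form.pull (gm e) (map_gm F) F₀)
    rw [WA.at_pull (map_gm F) D (map_bar F D) (fun _ => rfl),
      WA.at_pull (map_gm F) 0 map_foot (fun v => gm_zero F v), ← Form.pull_d, hd] at h
    have h3 : Form.pull (gm e) (map_gm F) (0 : Form (dM E M)) = 0 :=
      map_zero (Form.pullA (gm e) (map_gm F))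
    rw [h3, WA.KT_zero', zero_add] at h
    exact h.symm

end

end Vale.Agent.P231.WR
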