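import Vale.Agent.P231.WR.QAlg

/-! P231: the operator form `T` attached to algebraic data of cut multiplicity three, and the
quaternionic structure. -/

set_option maxSynthPendingDepth 3
set_option linter.unusedSectionVars false

open Module Set

namespace Vale.Agent.P231.WR

noncomputable section

open Vale.Agent.P231 Vale.Agent.P231.H512

variable {V : Type*} [NormedAddCommGroup V] [InnerProductSpace ℝ V]
  {P : V → V →ₗ[ℝ] V} {B : V →ₗ[ℝ] V →ₗ[ℝ] V →ₗ[ℝ] V →ₗ[ℝ] ℝ}

section riesz

variable [FiniteDimensional ℝ V]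

/-- the vector representing a functional -/
def riesz (V : Type*) [NormedAddCommGroup V] [InnerProductSpace ℝ V] [FiniteDimensional ℝ V] :
    (V →ₗ[ℝ] ℝ) →ₗ[ℝ] V :=
  ∑ i, (LinearMap.applyₗ (stdOrthonormalBasis ℝ V i)).smulRight (stdOrthonormalBasis ℝ V i)

theorem riesz_apply (f : V →ₗ[ℝ] ℝ) :
    riesz V f = ∑ i, f (stdOrthonormalBasis ℝ V i) • stdOrthonormalBasis ℝ V i := by
  simp [riesz, LinearMap.sum_apply]

theorem inner_riesz (f : V →ₗ[ℝ] ℝ) (w : V) : (inner ℝ (riesz V f) w : ℝ) = f w := by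
  rw [riesz_apply, sum_inner]
  conv_rhs => rw [← (stdOrthonormalBasis ℝ V).sum_repr' w]
  rw [map_sum]
  refine Finset.sum_congr rfl fun i _ => ?_
  rw [inner_smul_left, map_smul, smul_eq_mul]
  simp only [RCLike.conj_to_real]
  ring

end riesz

/-- the symmetrised form -/
def FF (B : V →ₗ[ℝ] V →ₗ[ℝ] V →ₗ[ℝ] V →ₗ[ℝ] ℝ) : V →ₗ[ℝ] V →ₗ[ℝ] V →ₗ[ℝ] V →ₗ[ℝ] ℝ :=
  LinearMap.mk₂ ℝ (fun a b => LinearMap.mk₂ ℝ (fun w w' =>
      (1 / 3) * (B a b w w' - inner ℝ a b * inner ℝ w w') +
      (2 / 3) * (inner ℝ a w * inner ℝ b w' + inner ℝ b w * inner ℝ a w'))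
    (fun a b c => by
      simp only [map_add, LinearMap.add_apply, inner_add_left, inner_add_right]; ring)
    (fun c a b => by
      simp only [map_smul, LinearMap.smul_apply, inner_smul_left, inner_smul_right, smul_eq_mul,
        RCLike.conj_to_real]
      ring)
    (fun a b c => by
      simp only [map_add, LinearMap.add_apply, inner_add_left, inner_add_right]; ring)
    (fun c a b => by
      simp only [map_smul, LinearMap.smul_apply, inner_smul_left, inner_smul_right, smul_eq_mul,
        RCLike.conj_to_real]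
      ring))
    (fun a b c => by
      ext w w'
      simp only [LinearMap.mk₂_apply, map_add, LinearMap.add_apply, inner_add_left,
        inner_add_right]
      ring)
    (fun c a b => by
      ext w w'
      simp only [LinearMap.mk₂_apply, map_smul, LinearMap.smul_apply, inner_smul_left,
        inner_smul_right, smul_eq_mul, RCLike.conj_to_real]
      ring)
    (fun a b c => by
      ext w w'
      simp only [LinearMap.mk₂_apply, map_add, LinearMap.add_apply, inner_add_left,
        inner_add_right]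
      ring)
    (fun c a b => by
      ext w w'
      simp only [LinearMap.mk₂_apply, map_smul, LinearMap.smul_apply, inner_smul_left,
        inner_smul_right, smul_eq_mul, RCLike.conj_to_real]
      ring)

theorem FF_apply (a b w w' : V) : FF B a b w w' =
    (1 / 3) * (B a b w w' - inner ℝ a b * inner ℝ w w') +
      (2 / 3) * (inner ℝ a w * inner ℝ b w' + inner ℝ b w * inner ℝ a w') := rfl

variable [FiniteDimensional ℝ V]

/-- the operator form -/
def TQ (B : V →ₗ[ℝ] V →ₗ[ℝ] V →ₗ[ℝ] V →ₗ[ℝ] ℝ) : V →ₗ[ℝ] V →ₗ[ℝ] V →ₗ[ℝ] V :=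
  (FF B).compr₂ (LinearMap.llcomp ℝ V (V →ₗ[ℝ] ℝ) V (riesz V))

theorem inner_TQ (a b w w' : V) : (inner ℝ (TQ B a b w) w' : ℝ) = FF B a b w w' :=
  inner_riesz _ _

theorem QData.pair4 (h : QData P B) (a b c d : V) : B a b c d = B c d a b := by
  have h1 : ∀ a b w, B a b w w = B w w a b := by
    intro a b w
    have e1 := h.pair (a + b) w
    have e2 := h.pair a w
    have e3 := h.pair b w
    have e4 := h.sym1 a b w w
    have e5 := h.sym2 w w a b
    simp only [map_add, LinearMap.add_apply] at e1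
    linarith
  have e1 := h1 a b (c + d)
  have e2 := h1 a b c
  have e3 := h1 a b d
  have e4 := h.sym2 a b c d
  have e5 := h.sym1 c d a b
  simp only [map_add, LinearMap.add_apply] at e1
  linarith

theorem TQ_unit (h : QData P B) {u : V} (hu : ‖u‖ = 1) (w : V) :
    TQ B u u w = (inner ℝ u w : ℝ) • u + P u w := by
  refine ext_inner_right ℝ fun w' => ?_
  have h1 := TT_unit h hu w w'
  rw [TT_apply] at h1
  have h2 : (inner ℝ (P u w) (P u w') : ℝ) = inner ℝ (P u w) w' := by
    rw [← h.symm u (P u w) w' hu, h.idem u w hu]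
  rw [inner_TQ, FF_apply, inner_add_left, inner_smul_left, ← h2, ← h1]
  simp only [RCLike.conj_to_real]
  ring

/-- scaling to a unit vector -/
theorem exists_unit_smul {v : V} (hv : v ≠ 0) :
    ∃ c : ℝ, c ≠ 0 ∧ ∃ y : V, v = c • y ∧ ‖y‖ = 1 := by
  have hn : ‖v‖ ≠ 0 := norm_ne_zero_iff.2 hv
  refine ⟨‖v‖, hn, ‖v‖⁻¹ • v, ?_, ?_⟩
  · rw [smul_smul, mul_inv_cancel₀ hn, one_smul]
  · rw [norm_smul, norm_inv, norm_norm, inv_mul_cancel₀ hn]

theorem inner_unit {y : V} (hy : ‖y‖ = 1) : (inner ℝ y y : ℝ) = 1 := by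
  rw [real_inner_self_eq_norm_sq, hy, one_pow]

theorem norm_unit {y : V} (hy : (inner ℝ y y : ℝ) = 1) : ‖y‖ = 1 := by
  rw [← sq_eq_sq₀ (norm_nonneg _) zero_le_one, ← real_inner_self_eq_norm_sq, hy, one_pow]

theorem TQ_clos_unit (h : QData P B)
    (hr : ∀ u, ‖u‖ = 1 → finrank ℝ (LinearMap.range (P u)) = 3)
    (hsame : ∀ u u' w, ‖u‖ = 1 → ‖u'‖ = 1 → P u u' = u' →
      (inner ℝ u w : ℝ) • u + P u w = (inner ℝ u' w : ℝ) • u' + P u' w)
    {u v : V} (hu : ‖u‖ = 1) (hv : ‖v‖ = 1) (huv : TQ B u u v = v) (w : V) :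
    TQ B v v w = TQ B u u w := by
  obtain ⟨e, he, hue, hev⟩ : ∃ e : V, ‖e‖ = 1 ∧ P u e = e ∧ (inner ℝ e v : ℝ) = 0 := by
    let f : LinearMap.range (P u) →ₗ[ℝ] ℝ := innerₗ V v ∘ₗ (LinearMap.range (P u)).subtype
    have h1 : LinearMap.ker f ≠ ⊥ := by
      apply LinearMap.ker_ne_bot_of_finrank_lt
      rw [hr u hu, finrank_self]
      norm_num
    obtain ⟨⟨r, hr1⟩, hr2, hr3⟩ := Submodule.exists_mem_ne_zero_of_ne_bot h1
    have hr0 : r ≠ 0 := fun h0 => hr3 (Subtype.ext h0)
    have hfr : (inner ℝ v r : ℝ) = 0 := hr2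
    obtain ⟨z, hz⟩ := hr1
    have hPr : P u r = r := by rw [← hz, h.idem u z hu]
    obtain ⟨c, hc, y, hy, hy1⟩ := exists_unit_smul hr0
    refine ⟨y, hy1, ?_, ?_⟩
    · rw [hy, map_smul] at hPr
      exact smul_right_injective V hc hPr
    · rw [hy, inner_smul_right] at hfr
      rw [real_inner_comm]
      exact (mul_eq_zero.1 hfr).resolve_left hc
  have h1 := hsame u e v hu he hue
  have h2 := hsame u e w hu he hue
  rw [← TQ_unit h hu, huv, hev, zero_smul, zero_add] at h1
  have h3 := hsame e v w he hv h1.symm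
  rw [TQ_unit h hv, TQ_unit h hu, h2, h3]

theorem TQ_QT (h : QData P B)
    (hr : ∀ u, ‖u‖ = 1 → finrank ℝ (LinearMap.range (P u)) = 3)
    (hsame : ∀ u u' w, ‖u‖ = 1 → ‖u'‖ = 1 → P u u' = u' →
      (inner ℝ u w : ℝ) • u + P u w = (inner ℝ u' w : ℝ) • u' + P u' w) : QT (TQ B) where
  comm a b w := by
    refine ext_inner_right ℝ fun w' => ?_
    rw [inner_TQ, inner_TQ, FF_apply, FF_apply, h.sym1 a b, real_inner_comm a b]
    ring
  symm a b w w' := by
    rw [inner_TQ, real_inner_comm, inner_TQ, FF_apply, FF_apply, h.sym2 a b, real_inner_comm w w']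
    ring
  pair a b c d := by
    rw [inner_TQ, inner_TQ, FF_apply, FF_apply, QData.pair4 h, real_inner_comm a c,
      real_inner_comm b d, real_inner_comm b c, real_inner_comm a d]
    ring
  idem u w := by
    rcases eq_or_ne u 0 with rfl | hu0
    · simp
    · obtain ⟨c, hc, y, rfl, hy⟩ := exists_unit_smul hu0
      have h1 : TQ B y y (TQ B y y w) = TQ B y y w := by
        rw [TQ_unit h hy, TQ_unit h hy, inner_add_right, inner_smul_right, inner_unit hy,
          real_inner_comm (P y w) y, h.perp y w hy, map_add, map_smul, Alg_P_self h hy,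
          h.idem y w hy, smul_zero, zero_add, mul_one, add_zero]
      simp only [map_smul, LinearMap.smul_apply, inner_smul_left, inner_smul_right, inner_unit hy,
        h1, RCLike.conj_to_real]
      module
  self u := by
    rcases eq_or_ne u 0 with rfl | hu0
    · simp
    · obtain ⟨c, hc, y, rfl, hy⟩ := exists_unit_smul hu0
      have h1 : TQ B y y y = y := by
        rw [TQ_unit h hy, Alg_P_self h hy, inner_unit hy, one_smul, add_zero]
      simp only [map_smul, LinearMap.smul_apply, inner_smul_left, inner_smul_right, inner_unit hy,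
        h1, RCLike.conj_to_real]
      module
  clos u v w huv := by
    rcases eq_or_ne u 0 with rfl | hu0
    · simp
    rcases eq_or_ne v 0 with rfl | hv0
    · simp
    obtain ⟨c, hc, y, rfl, hy⟩ := exists_unit_smul hu0
    obtain ⟨d, hd, z, rfl, hz⟩ := exists_unit_smul hv0
    have h1 : TQ B y y z = z := by
      simp only [map_smul, LinearMap.smul_apply, inner_smul_left, inner_smul_right,
        inner_unit hy, RCLike.conj_to_real] at huv
      have h2 : (c * c * d) • TQ B y y z = (c * c * d) • z := by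
        linear_combination (norm := module) huv
      exact smul_right_injective V (by positivity) h2
    have h2 := TQ_clos_unit h hr hsame hy hz h1 w
    simp only [map_smul, LinearMap.smul_apply, inner_smul_left, inner_smul_right,
      inner_unit hy, inner_unit hz, RCLike.conj_to_real, h2]
    module
  exi u hu := by
    have hu1 := norm_unit hu
    let b := (stdOrthonormalBasis ℝ (LinearMap.range (P u))).reindex (finCongr (hr u hu1))
    have hb : ∀ i, P u (b i) = b i := fun i => by
      obtain ⟨z, hz⟩ := (b i).2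
      rw [← hz, h.idem u z hu1]
    have hb0 : ∀ i, (inner ℝ u (b i : V) : ℝ) = 0 := fun i => by
      rw [← hb i, real_inner_comm, h.perp u _ hu1]
    refine ⟨fun i => (b i : V), ?_, hb0, fun i => ?_⟩
    · exact b.orthonormal.comp_linearIsometry (LinearMap.range (P u)).subtypeₗᵢ
    · rw [TQ_unit h hu1, hb0, hb, zero_smul, zero_add]
  rank u hu e he he0 he1 w := by
    have hu1 := norm_unit hu
    have hP : ∀ i, P u (e i) = e i := fun i => by
      have := he1 i
      rwa [TQ_unit h hu1, he0, zero_smul, zero_add] at this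
    let e' : Fin 3 → LinearMap.range (P u) := fun i => ⟨e i, ⟨e i, hP i⟩⟩
    have he' : Orthonormal ℝ e' := by
      rw [orthonormal_iff_ite]
      intro i j
      exact orthonormal_iff_ite.1 he i j
    have hsp : ⊤ ≤ Submodule.span ℝ (Set.range e') := by
      rw [he'.linearIndependent.span_eq_top_of_card_eq_finrank (by
        rw [hr u hu1, Fintype.card_fin])]
    let b := OrthonormalBasis.mk he' hsp
    have hbe : ∀ i, b i = e' i := fun i => by
      show OrthonormalBasis.mk he' hsp i = e' i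
      rw [OrthonormalBasis.coe_mk]
    have h1 := b.sum_repr' ⟨P u w, LinearMap.mem_range_self _ _⟩
    have h2 := congrArg Subtype.val h1
    rw [TQ_unit h hu1]
    congr 1
    refine Eq.trans (b := ((⟨P u w, LinearMap.mem_range_self _ _⟩ : LinearMap.range (P u)) : V))
      rfl ?_
    rw [← h2]
    simp only [AddSubmonoidClass.coe_finset_sum, hbe]
    refine Finset.sum_congr rfl fun i _ => ?_
    have h3 : (inner ℝ (e' i) (⟨P u w, LinearMap.mem_range_self _ _⟩ : LinearMap.range (P u)) : ℝ) =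
        inner ℝ (e i) w := by
      show (inner ℝ (e i) (P u w) : ℝ) = _
      rw [← h.symm u (e i) w hu1, hP]
    rw [h3]
    rfl

/-- the quaternionic structure -/
theorem exists_QCS (h : QData P B)
    (hr : ∀ u, ‖u‖ = 1 → finrank ℝ (LinearMap.range (P u)) = 3)
    (hsame : ∀ u u' w, ‖u‖ = 1 → ‖u'‖ = 1 → P u u' = u' →
      (inner ℝ u w : ℝ) • u + P u w = (inner ℝ u' w : ℝ) • u' + P u' w)
    (hV : 5 ≤ finrank ℝ V) :
    ∃ I J K : V →ₗ[ℝ] V, QCS I J K ∧ ∀ u w, ‖u‖ = 1 →
      P u w = (inner ℝ (I u) w : ℝ) • I u + (inner ℝ (J u) w : ℝ) • J u +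
        (inner ℝ (K u) w : ℝ) • K u := by
  have hnt : Nontrivial V := Module.nontrivial_of_finrank_pos (R := ℝ) (by omega)
  obtain ⟨v, hv⟩ := exists_ne (0 : V)
  obtain ⟨c, hc, u₀, hu₀, hu1⟩ := exists_unit_smul hv
  obtain ⟨I, J, K, q, hT⟩ := (TQ_QT h hr hsame).exists_QCS (inner_unit hu1)
  refine ⟨I, J, K, q, fun u w hu => ?_⟩
  have h1 := hT u w (inner_unit hu)
  rw [TQ_unit h hu] at h1
  exact add_left_cancel h1

end

end Vale.Agent.P231.WR
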