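import Vale.Agent.P231.WR.QAlg
import Mathlib.LinearAlgebra.Dimension.Constructions
import Mathlib.Algebra.Quaternion

/-! P231: quaternionic coordinates of an orthogonal quaternionic structure. -/

set_option maxSynthPendingDepth 3
set_option linter.unusedSectionVars false

open Module Set

namespace Vale.Agent.P231.WR

noncomputable section

open Vale.Agent.P231 Vale.Agent.P231.H512

variable {V : Type*} [NormedAddCommGroup V] [InnerProductSpace ℝ V] {I J K : V →ₗ[ℝ] V}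

theorem QCS.IK (h : QCS I J K) (v : V) : I (K v) = -J v := by
  rw [← h.mul, h.hI.sq]

theorem QCS.JI (h : QCS I J K) (v : V) : J (I v) = -K v := by
  have h1 := h.hK.sq (-J v)
  rw [← h.mul (-J v), map_neg, h.hJ.sq, neg_neg, ← h.mul] at h1
  have h2 := congrArg I h1
  rw [h.hI.sq, neg_neg, h.mul] at h2
  rw [← neg_neg (J (I v)), h2]

theorem QCS.KJ (h : QCS I J K) (v : V) : K (J v) = -I v := by
  rw [← h.mul, h.hJ.sq, map_neg]

theorem QCS.JK (h : QCS I J K) (v : V) : J (K v) = I v := by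
  rw [← h.mul, h.JI, h.KJ, neg_neg]

theorem QCS.I_l (h : QCS I J K) (v w : V) : (inner ℝ (I v) w : ℝ) = -inner ℝ v (I w) :=
  h.hI.skew v w

theorem QCS.J_l (h : QCS I J K) (v w : V) : (inner ℝ (J v) w : ℝ) = -inner ℝ v (J w) :=
  h.hJ.skew v w

theorem QCS.K_l (h : QCS I J K) (v w : V) : (inner ℝ (K v) w : ℝ) = -inner ℝ v (K w) :=
  h.hK.skew v w

theorem QCS.KI (h : QCS I J K) (v : V) : K (I v) = J v := by
  rw [← h.mul, h.JI, map_neg, h.IK, neg_neg]

/-- a quaternionic orthonormal family -/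
structure QON (I J K : V →ₗ[ℝ] V) {k : ℕ} (b : Fin k → V) : Prop where
  p0 : ∀ i j, (inner ℝ (b i) (b j) : ℝ) = if i = j then 1 else 0
  p1 : ∀ i j, (inner ℝ (b i) (I (b j)) : ℝ) = 0
  p2 : ∀ i j, (inner ℝ (b i) (J (b j)) : ℝ) = 0
  p3 : ∀ i j, (inner ℝ (b i) (K (b j)) : ℝ) = 0

theorem QON.tab (h : QCS I J K) {k : ℕ} {b : Fin k → V} (hb : QON I J K b) (i j : Fin k) :
    ((inner ℝ (I (b i)) (b j) : ℝ) = 0 ∧ (inner ℝ (I (b i)) (J (b j)) : ℝ) = 0 ∧
      (inner ℝ (I (b i)) (K (b j)) : ℝ) = 0) ∧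
    ((inner ℝ (J (b i)) (b j) : ℝ) = 0 ∧ (inner ℝ (J (b i)) (I (b j)) : ℝ) = 0 ∧
      (inner ℝ (J (b i)) (K (b j)) : ℝ) = 0) ∧
    ((inner ℝ (K (b i)) (b j) : ℝ) = 0 ∧ (inner ℝ (K (b i)) (I (b j)) : ℝ) = 0 ∧
      (inner ℝ (K (b i)) (J (b j)) : ℝ) = 0) := by
  refine ⟨⟨?_, ?_, ?_⟩, ⟨?_, ?_, ?_⟩, ⟨?_, ?_, ?_⟩⟩
  · rw [h.I_l, hb.p1, neg_zero]
  · rw [h.I_l, h.mul, hb.p3, neg_zero]
  · rw [h.I_l, h.IK, inner_neg_right, hb.p2, neg_zero, neg_zero]
  · rw [h.J_l, hb.p2, neg_zero]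
  · rw [h.J_l, h.JI, inner_neg_right, hb.p3, neg_zero, neg_zero]
  · rw [h.J_l, h.JK, hb.p1, neg_zero]
  · rw [h.K_l, hb.p3, neg_zero]
  · rw [h.K_l, h.KI, hb.p2, neg_zero]
  · rw [h.K_l, h.KJ, inner_neg_right, hb.p1, neg_zero, neg_zero]

/-- the coordinates -/
def qT (I J K : V →ₗ[ℝ] V) {k : ℕ} (b : Fin k → V) : V →ₗ[ℝ] (Fin k → Quaternion ℝ) where
  toFun v j := ⟨inner ℝ (b j) v, inner ℝ (I (b j)) v, inner ℝ (J (b j)) v,
    -inner ℝ (K (b j)) v⟩
  map_add' v w := by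
    funext j
    apply Quaternion.ext
    · exact inner_add_right _ _ _
    · exact inner_add_right _ _ _
    · exact inner_add_right _ _ _
    · show -(inner ℝ (K (b j)) (v + w) : ℝ) = -inner ℝ (K (b j)) v + -inner ℝ (K (b j)) w
      rw [inner_add_right, neg_add]
  map_smul' c v := by
    funext j
    apply Quaternion.ext
    · exact inner_smul_right _ _ _
    · exact inner_smul_right _ _ _
    · exact inner_smul_right _ _ _
    · show -(inner ℝ (K (b j)) (c • v) : ℝ) = c * -inner ℝ (K (b j)) v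
      rw [inner_smul_right]
      ring

section comps

variable {k : ℕ} (b : Fin k → V) (v : V) (j : Fin k)

theorem qT_re : (qT I J K b v j).re = inner ℝ (b j) v := rfl
theorem qT_imI : (qT I J K b v j).imI = inner ℝ (I (b j)) v := rfl
theorem qT_imJ : (qT I J K b v j).imJ = inner ℝ (J (b j)) v := rfl
theorem qT_imK : (qT I J K b v j).imK = -inner ℝ (K (b j)) v := rfl

end comps

/-- the inverse -/
def qS (I J K : V →ₗ[ℝ] V) {k : ℕ} (b : Fin k → V) (q : Fin k → Quaternion ℝ) : V :=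
  ∑ i, ((q i).re • b i + (q i).imI • I (b i) + (q i).imJ • J (b i) - (q i).imK • K (b i))

theorem inner_qS {k : ℕ} (b : Fin k → V) (q : Fin k → Quaternion ℝ) (w : V) :
    (inner ℝ (qS I J K b q) w : ℝ) = ∑ i, (star (q i) * qT I J K b w i).re := by
  rw [qS, sum_inner]
  refine Finset.sum_congr rfl fun i _ => ?_
  rw [Quaternion.re_mul, qT_re, qT_imI, qT_imJ, qT_imK]
  simp only [inner_add_left, inner_sub_left, inner_smul_left, RCLike.conj_to_real,
    Quaternion.re_star, Quaternion.imI_star, Quaternion.imJ_star, Quaternion.imK_star]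
  ring

theorem inner_qS' {k : ℕ} (b : Fin k → V) (q : Fin k → Quaternion ℝ) (w : V) :
    (inner ℝ w (qS I J K b q) : ℝ) = ∑ i, ((q i).re * inner ℝ w (b i) +
      (q i).imI * inner ℝ w (I (b i)) + (q i).imJ * inner ℝ w (J (b i)) -
        (q i).imK * inner ℝ w (K (b i))) := by
  rw [qS, inner_sum]
  simp only [inner_add_right, inner_sub_right, inner_smul_right]

theorem QON.TS (h : QCS I J K) {k : ℕ} {b : Fin k → V} (hb : QON I J K b)
    (q : Fin k → Quaternion ℝ) : qT I J K b (qS I J K b q) = q := by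
  funext j
  have h1 := hb.tab h j
  apply Quaternion.ext
  · rw [qT_re, inner_qS']
    simp only [hb.p0, hb.p1, hb.p2, hb.p3]
    simp
  · rw [qT_imI, inner_qS']
    simp only [(h1 _).1.1, (h1 _).1.2.1, (h1 _).1.2.2, h.hI.isom, hb.p0]
    simp
  · rw [qT_imJ, inner_qS']
    simp only [(h1 _).2.1.1, (h1 _).2.1.2.1, (h1 _).2.1.2.2, h.hJ.isom, hb.p0]
    simp
  · rw [qT_imK, inner_qS']
    simp only [(h1 _).2.2.1, (h1 _).2.2.2.1, (h1 _).2.2.2.2, h.hK.isom, hb.p0]
    simp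

theorem QON.surj (h : QCS I J K) {k : ℕ} {b : Fin k → V} (hb : QON I J K b) :
    Function.Surjective (qT I J K b) := fun q => ⟨qS I J K b q, hb.TS h q⟩

theorem QON.isom (h : QCS I J K) {k : ℕ} {b : Fin k → V} (hb : QON I J K b)
    (hinj : Function.Injective (qT I J K b)) (v w : V) :
    ∑ i, (star (qT I J K b v i) * qT I J K b w i).re = (inner ℝ v w : ℝ) := by
  rw [← inner_qS]
  congr 1
  exact hinj (hb.TS h _)

/-- the unit `i` -/
def qi : Quaternion ℝ := ⟨0, 1, 0, 0⟩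

/-- the unit `j` -/
def qj : Quaternion ℝ := ⟨0, 0, 1, 0⟩

theorem qi_re : qi.re = 0 := rfl
theorem qi_imI : qi.imI = 1 := rfl
theorem qi_imJ : qi.imJ = 0 := rfl
theorem qi_imK : qi.imK = 0 := rfl
theorem qj_re : qj.re = 0 := rfl
theorem qj_imI : qj.imI = 0 := rfl
theorem qj_imJ : qj.imJ = 1 := rfl
theorem qj_imK : qj.imK = 0 := rfl

theorem qT_I (h : QCS I J K) {k : ℕ} (b : Fin k → V) (v : V) (j : Fin k) :
    qT I J K b (I v) j = qT I J K b v j * qi := by
  apply Quaternion.ext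
  · rw [Quaternion.re_mul, qT_re, qT_re, qT_imI, qT_imJ, qT_imK, qi_re, qi_imI, qi_imJ, qi_imK,
      h.I_l]
    ring
  · rw [Quaternion.imI_mul, qT_imI, qT_re, qT_imI, qT_imJ, qT_imK, qi_re, qi_imI, qi_imJ, qi_imK,
      h.hI.isom]
    ring
  · rw [Quaternion.imJ_mul, qT_imJ, qT_re, qT_imI, qT_imJ, qT_imK, qi_re, qi_imI, qi_imJ, qi_imK,
      h.J_l, h.JI, inner_neg_right, h.K_l]
    ring
  · rw [Quaternion.imK_mul, qT_imK, qT_re, qT_imI, qT_imJ, qT_imK, qi_re, qi_imI, qi_imJ, qi_imK,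
      h.K_l, h.KI, h.J_l]
    ring

theorem qT_J (h : QCS I J K) {k : ℕ} (b : Fin k → V) (v : V) (j : Fin k) :
    qT I J K b (J v) j = qT I J K b v j * qj := by
  apply Quaternion.ext
  · rw [Quaternion.re_mul, qT_re, qT_re, qT_imI, qT_imJ, qT_imK, qj_re, qj_imI, qj_imJ, qj_imK,
      h.J_l]
    ring
  · rw [Quaternion.imI_mul, qT_imI, qT_re, qT_imI, qT_imJ, qT_imK, qj_re, qj_imI, qj_imJ, qj_imK,
      h.I_l, h.mul, h.K_l]
    ring
  · rw [Quaternion.imJ_mul, qT_imJ, qT_re, qT_imI, qT_imJ, qT_imK, qj_re, qj_imI, qj_imJ, qj_imK,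
      h.hJ.isom]
    ring
  · rw [Quaternion.imK_mul, qT_imK, qT_re, qT_imI, qT_imJ, qT_imK, qj_re, qj_imI, qj_imJ, qj_imK,
      h.K_l, h.KJ, inner_neg_right, h.I_l]
    ring

/-- extension of a quaternionic orthonormal family -/
theorem QON.extend (h : QCS I J K) {k : ℕ} {b : Fin k → V} (hb : QON I J K b)
    (hinj : ¬ Function.Injective (qT I J K b)) : ∃ b' : Fin (k + 1) → V, QON I J K b' := by
  have h1 : LinearMap.ker (qT I J K b) ≠ ⊥ := fun h0 => hinj (LinearMap.ker_eq_bot.1 h0)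
  obtain ⟨v, hv, hv0⟩ := Submodule.exists_mem_ne_zero_of_ne_bot h1
  have hn : ‖v‖ ≠ 0 := norm_ne_zero_iff.2 hv0
  set y : V := ‖v‖⁻¹ • v with hy
  have hy1 : (inner ℝ y y : ℝ) = 1 := by
    rw [real_inner_self_eq_norm_sq, hy, norm_smul, norm_inv, norm_norm, inv_mul_cancel₀ hn,
      one_pow]
  have hy0 : qT I J K b y = 0 := by rw [hy, map_smul, LinearMap.mem_ker.1 hv, smul_zero]
  have q0 : ∀ j, (inner ℝ (b j) y : ℝ) = 0 := fun j => by
    rw [← qT_re (I := I) (J := J) (K := K), hy0]; rfl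
  have q1 : ∀ j, (inner ℝ (I (b j)) y : ℝ) = 0 := fun j => by
    rw [← qT_imI (J := J) (K := K), hy0]; rfl
  have q2 : ∀ j, (inner ℝ (J (b j)) y : ℝ) = 0 := fun j => by
    rw [← qT_imJ (I := I) (K := K), hy0]; rfl
  have q3 : ∀ j, (inner ℝ (K (b j)) y : ℝ) = 0 := fun j => by
    have h2 : -(inner ℝ (K (b j)) y : ℝ) = 0 := by
      rw [← qT_imK (I := I) (J := J), hy0]; rfl
    linarith
  refine ⟨Fin.cons y b, ⟨fun i => ?_, fun i => ?_, fun i => ?_, fun i => ?_⟩⟩
  · refine Fin.cases (fun j => ?_) (fun i j => ?_) i <;>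
      refine Fin.cases ?_ (fun j => ?_) j <;> simp only [Fin.cons_zero, Fin.cons_succ]
    · simpa using hy1
    · rw [real_inner_comm, q0]
      simp [(Fin.succ_ne_zero j).symm]
    · rw [q0]
      simp
    · rw [hb.p0]
      simp
  · refine Fin.cases (fun j => ?_) (fun i j => ?_) i <;>
      refine Fin.cases ?_ (fun j => ?_) j <;> simp only [Fin.cons_zero, Fin.cons_succ]
    · exact OCS.self_perp h.hI y
    · rw [real_inner_comm, q1]
    · have := h.I_l (b i) y
      rw [q1] at this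
      linarith
    · exact hb.p1 _ _
  · refine Fin.cases (fun j => ?_) (fun i j => ?_) i <;>
      refine Fin.cases ?_ (fun j => ?_) j <;> simp only [Fin.cons_zero, Fin.cons_succ]
    · exact OCS.self_perp h.hJ y
    · rw [real_inner_comm, q2]
    · have := h.J_l (b i) y
      rw [q2] at this
      linarith
    · exact hb.p2 _ _
  · refine Fin.cases (fun j => ?_) (fun i j => ?_) i <;>
      refine Fin.cases ?_ (fun j => ?_) j <;> simp only [Fin.cons_zero, Fin.cons_succ]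
    · exact OCS.self_perp h.hK y
    · rw [real_inner_comm, q3]
    · have := h.K_l (b i) y
      rw [q3] at this
      linarith
    · exact hb.p3 _ _

theorem finrank_quat (k : ℕ) : finrank ℝ (Fin k → Quaternion ℝ) = 4 * k := by
  rw [Module.finrank_pi_fintype]
  simp [Quaternion.finrank_eq_four, mul_comm]

theorem exists_basis [FiniteDimensional ℝ V] (h : QCS I J K) :
    ∃ n, ∃ b : Fin n → V, QON I J K b ∧ Function.Injective (qT I J K b) := by
  by_contra hcon
  push Not at hcon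
  have h1 : ∀ k, ∃ b : Fin k → V, QON I J K b := by
    intro k
    induction k with
    | zero => exact ⟨Fin.elim0, ⟨fun i => i.elim0, fun i => i.elim0, fun i => i.elim0,
        fun i => i.elim0⟩⟩
    | succ k ih =>
      obtain ⟨b, hb⟩ := ih
      exact hb.extend h (hcon k b hb)
  obtain ⟨b, hb⟩ := h1 (finrank ℝ V + 1)
  have h2 := LinearMap.finrank_le_finrank_of_surjective (hb.surj h)
  rw [finrank_quat] at h2
  omega

/-- quaternionic coordinates -/
theorem exists_coord [FiniteDimensional ℝ V] (h : QCS I J K) :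
    ∃ n, 4 * n = finrank ℝ V ∧ ∃ T : V ≃ₗ[ℝ] (Fin n → Quaternion ℝ),
      (∀ v w, ∑ i, (star (T v i) * T w i).re = (inner ℝ v w : ℝ)) ∧
      (∀ v i, T (I v) i = T v i * ⟨0, 1, 0, 0⟩) ∧
      (∀ v i, T (J v) i = T v i * ⟨0, 0, 1, 0⟩) := by
  obtain ⟨n, b, hb, hinj⟩ := exists_basis h
  let T : V ≃ₗ[ℝ] (Fin n → Quaternion ℝ) :=
    LinearEquiv.ofBijective (qT I J K b) ⟨hinj, hb.surj h⟩
  refine ⟨n, ?_, T, fun v w => hb.isom h hinj v w, fun v i => qT_I h b v i,
    fun v i => qT_J h b v i⟩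
  rw [T.finrank_eq, finrank_quat]

end

end Vale.Agent.P231.WR
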