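import Vale.Agent.P231.WR.InvV
import Vale.Agent.P231.H583.Field

/-!
# P231, stage 2: the pencil `B_u : T_q Cut p → T_p Cut q`, `u ∈ P_{pq}`, linear in `u`
-/

set_option maxSynthPendingDepth 3
set_option linter.unusedSectionVars false
set_option linter.unusedVariables false

open Bundle Manifold Set Filter Module
open scoped ContDiff Manifold Topology

namespace Vale.Agent.P231.WR

noncomputable section

open Vale.Agent.P234 Vale.Agent.P231 Vale.Agent.P231.Fm Vale.Agent.P231.W Vale.Agent.P231.H775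

variable {E : Type*} [NormedAddCommGroup E] [NormedSpace ℝ E]
  {M : Type*} [MetricSpace M] [ChartedSpace E M]
  [RiemannianBundle (fun x : M => TangentSpace 𝓘(ℝ, E) x)]
  {e : ∀ x : M, TangentSpace 𝓘(ℝ, E) x → M}
  [FiniteDimensional ℝ E] [IsManifold 𝓘(ℝ, E) ∞ M]
  [IsContMDiffRiemannianBundle 𝓘(ℝ, E) ∞ E (fun x : M => TangentSpace 𝓘(ℝ, E) x)]

/-- the orthogonal projection to the plane `P_{pq}` of the cut pair of `v` -/
def prP (e : ∀ x : M, TangentSpace 𝓘(ℝ, E) x → M) (D : ℝ) (v : UT E M) (a : E) : E :=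
  (H775.Pl e D (bar e D v) (foot v)).starProjection (a : TangentSpace 𝓘(ℝ, E) (foot v))

theorem prP_add (D : ℝ) (v : UT E M) (a b : E) : prP e D v (a + b) = prP e D v a + prP e D v b :=
  map_add (H775.Pl e D (bar e D v) (foot v)).starProjection _ _

theorem prP_smul (D : ℝ) (v : UT E M) (c : ℝ) (a : E) : prP e D v (c • a) = c • prP e D v a :=
  map_smul (H775.Pl e D (bar e D v) (foot v)).starProjection c _

theorem prP_mem (D : ℝ) (v : UT E M) (a : E) :
    (prP (E := E) e D v a : TangentSpace 𝓘(ℝ, E) (foot v)) ∈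
      H775.Pl e D (bar e D v) (foot v) :=
  Submodule.starProjection_apply_mem (H775.Pl e D (bar e D v) (foot v))
    (a : TangentSpace 𝓘(ℝ, E) (foot v))

theorem prP_of_mem {D : ℝ} {v : UT E M} {a : E}
    (h : (a : TangentSpace 𝓘(ℝ, E) (foot v)) ∈ H775.Pl e D (bar e D v) (foot v)) :
    prP e D v a = a :=
  (Submodule.starProjection_eq_self_iff (K := H775.Pl e D (bar e D v) (foot v))
    (v := (a : TangentSpace 𝓘(ℝ, E) (foot v)))).2 h

theorem ip_prP (D : ℝ) (v : UT E M) (a c : E) :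
    ip (foot v) (prP e D v a) c = ip (foot v) a (prP e D v c) :=
  Submodule.inner_starProjection_left_eq_right (H775.Pl e D (bar e D v) (foot v))
    (a : TangentSpace 𝓘(ℝ, E) (foot v)) (c : TangentSpace 𝓘(ℝ, E) (foot v))

theorem sub_prP_mem (D : ℝ) (v : UT E M) (a : E) :
    ((a - prP (E := E) e D v a : E) : TangentSpace 𝓘(ℝ, E) (foot v)) ∈
      (H775.Pl e D (bar e D v) (foot v))ᗮ :=
  Submodule.sub_starProjection_mem_orthogonal (K := H775.Pl e D (bar e D v) (foot v))
    (a : TangentSpace 𝓘(ℝ, E) (foot v))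

theorem prP_of_mem_orth {D : ℝ} {v : UT E M} {a : E}
    (h : (a : TangentSpace 𝓘(ℝ, E) (foot v)) ∈ (H775.Pl e D (bar e D v) (foot v))ᗮ) :
    prP e D v a = 0 :=
  (Submodule.starProjection_apply_eq_zero_iff (K := H775.Pl e D (bar e D v) (foot v))
    (v := (a : TangentSpace 𝓘(ℝ, E) (foot v)))).2 h

/-- the projection of `v` to `L_v` is zero -/
theorem prL_self (D : ℝ) (v : UT E M) : prL e D v (vec' v) = 0 := by
  have h1 : ip (foot v) (prL e D v (vec' v)) (prL e D v (vec' v)) = 0 := by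
    rw [ip_prL, prL_of_mem (prL_mem D v (vec' v))]
    exact (mem_Lf.1 (prL_mem D v (vec' v))).2
  have h2 : ip (foot v) (prL e D v (vec' v)) (prL e D v (vec' v)) =
      nm (foot v) (prL e D v (vec' v)) ^ 2 :=
    real_inner_self_eq_norm_sq (F := TangentSpace 𝓘(ℝ, E) (foot v)) _
  rw [h2] at h1
  exact norm_eq_zero (E := TangentSpace 𝓘(ℝ, E) (foot v)) |>.1 (pow_eq_zero_iff two_ne_zero |>.1 h1)

theorem prL_sub (D : ℝ) (v : UT E M) (a b : E) : prL e D v (a - b) = prL e D v a - prL e D v b :=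
  map_sub (Lf e D v).starProjection _ _

theorem prP_sub (D : ℝ) (v : UT E M) (a b : E) : prP e D v (a - b) = prP e D v a - prP e D v b :=
  map_sub (H775.Pl e D (bar e D v) (foot v)).starProjection _ _

theorem self_mem_Pl (D : ℝ) (v : UT E M) :
    (vec' (E := E) v : TangentSpace 𝓘(ℝ, E) (foot v)) ∈ H775.Pl e D (bar e D v) (foot v) :=
  H775.Lk_subset_Pl D _ _ ⟨nm_vec' v, rfl⟩

/-- vectors of the plane -/
theorem eq_of_mem_Pl {D : ℝ} {v : UT E M} {z : E}
    (hz : (z : TangentSpace 𝓘(ℝ, E) (foot v)) ∈ H775.Pl e D (bar e D v) (foot v)) :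
    z = ip (foot v) (vec' v) z • vec' v + prL e D v z := by
  set c := ip (foot v) (vec' v) z with hc
  have h1 : ((z - c • vec' v : E) : TangentSpace 𝓘(ℝ, E) (foot v)) ∈ Lf e D v := by
    refine mem_Lf.2 ⟨Submodule.sub_mem _ hz (Submodule.smul_mem _ c (self_mem_Pl D v)), ?_⟩
    have h2 : ip (foot v) (vec' v) (z - c • vec' v) = 0 := by
      rw [ip_sub_right', ip_smul_right', ip_vec', ← hc]
      ring
    exact h2
  have h2 := prL_of_mem h1
  rw [prL_sub, prL_smul, prL_self, smul_zero, sub_zero] at h2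
  rw [h2, add_sub_cancel]

/-- the projection to the plane -/
theorem prP_eq (D : ℝ) (v : UT E M) (a : E) :
    prP e D v a = ip (foot v) (vec' v) a • vec' v + prL e D v a := by
  set P := H775.Pl e D (bar e D v) (foot v) with hPdef
  have h1 : ((ip (foot v) (vec' v) a • vec' v + prL (E := E) e D v a : E) :
      TangentSpace 𝓘(ℝ, E) (foot v)) ∈ P :=
    Submodule.add_mem _ (Submodule.smul_mem _ _ (self_mem_Pl D v)) (mem_Lf.1 (prL_mem D v a)).1
  have h2 : (((a : E) - (ip (foot v) (vec' v) a • vec' v + prL (E := E) e D v a) : E) :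
      TangentSpace 𝓘(ℝ, E) (foot v)) ∈ Pᗮ := by
    refine (Submodule.mem_orthogonal P _).2 fun z hz => ?_
    let z' : E := z
    have h3 : z' = ip (foot v) (vec' (E := E) v) z' • vec' (E := E) v + prL (E := E) e D v z' :=
      eq_of_mem_Pl hz
    have h4 : prL (E := E) e D v z' = z' - ip (foot v) (vec' (E := E) v) z' • vec' (E := E) v :=
      eq_sub_of_add_eq' h3.symm
    have h5 : ip (foot v) z' (a - (ip (foot v) (vec' (E := E) v) a • vec' (E := E) v +
        prL (E := E) e D v a)) = 0 := by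
      rw [ip_sub_right', ip_add_right', ip_smul_right', ← ip_prL, h4, ip_sub_left', ip_smul_left',
        ip_comm' (foot v) z' (vec' (E := E) v)]
      ring
    exact h5
  exact Submodule.eq_starProjection_of_mem_orthogonal (K := P)
    (u := (a : TangentSpace 𝓘(ℝ, E) (foot v))) h1 h2

theorem ip_prP_self (D : ℝ) (v : UT E M) (a : E) :
    ip (foot v) (vec' v) (prP e D v a) = ip (foot v) (vec' v) a := by
  rw [← ip_prP, prP_of_mem (self_mem_Pl D v)]

/-- the projection depends only on the cut pair -/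
theorem prP_congr {D : ℝ} {v w : UT E M} (hf : foot w = foot v) (hb : bar e D w = bar e D v)
    (a : E) : prP e D w a = prP e D v a := by
  have key : ∀ (x x' y y' : M) (_ : x = x') (_ : y = y'),
      ((H775.Pl e D y x).starProjection (a : TangentSpace 𝓘(ℝ, E) x) : E) =
      (H775.Pl e D y' x').starProjection (a : TangentSpace 𝓘(ℝ, E) x') := by
    rintro x x' y y' rfl rfl
    rfl
  exact key _ _ _ _ hf hb

variable [CompactSpace M] [ConnectedSpace M] [IsRiemannianManifold 𝓘(ℝ, E) M]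

/-! ### the differential of the exponential map at a cut point -/

/-- the differential of `exp` at the cut point: `a ↦ J_a(D)` -/
def AD (e : ∀ x : M, TangentSpace 𝓘(ℝ, E) x → M) (D : ℝ) (v : UT E M) (a : E) : E :=
  D • dE e (foot v) (D • vec' v) a

theorem AD_add (D : ℝ) (v : UT E M) (a b : E) : AD e D v (a + b) = AD e D v a + AD e D v b := by
  rw [AD, dE_add, smul_add]
  rfl

theorem AD_smul (D : ℝ) (v : UT E M) (c : ℝ) (a : E) : AD e D v (c • a) = c • AD e D v a := by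
  rw [AD, dE_smul, smul_comm]
  rfl

/-- as a linear map -/
def ADL (e : ∀ x : M, TangentSpace 𝓘(ℝ, E) x → M) (D : ℝ) (v : UT E M) : E →ₗ[ℝ] E where
  toFun := AD e D v
  map_add' := AD_add D v
  map_smul' := AD_smul D v

theorem AD_sub (D : ℝ) (v : UT E M) (a b : E) : AD e D v (a - b) = AD e D v a - AD e D v b :=
  map_sub (ADL e D v) a b

theorem AD_self (D : ℝ) (v : UT E M) : AD e D v (vec' v) = D • vel e (foot v) (vec' v) D := rfl

theorem mem_Ker_AD {D : ℝ} (hD : 0 < D) {v : UT E M} {a : E} :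
    (a : TangentSpace 𝓘(ℝ, E) (foot v)) ∈ H703.Ker e D (foot v)
      (vec' (E := E) v : TangentSpace 𝓘(ℝ, E) (foot v)) ↔ AD e D v a = 0 := by
  have h1 := H703.mem_Ker (e := e) (D := D) (x := foot v)
    (v := (vec' (E := E) v : TangentSpace 𝓘(ℝ, E) (foot v)))
    (w := (a : TangentSpace 𝓘(ℝ, E) (foot v)))
  refine h1.trans ?_
  constructor
  · intro h
    have h2 : dE e (foot v) (D • vec' v) a = 0 := h
    rw [AD, h2, smul_zero]
  · intro h
    exact (smul_eq_zero.1 h).resolve_left hD.ne'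

/-- the kernel is `L_v` -/
theorem AD_eq_zero_iff (F : Facts e) {D : ℝ} (hD : 0 < D) (hB : InjGE e D)
    (hdiam : ∀ p q : M, dist p q ≤ D) {v : UT E M} {a : E} :
    AD e D v a = 0 ↔ (a : TangentSpace 𝓘(ℝ, E) (foot v)) ∈ Lf e D v := by
  refine (mem_Ker_AD hD).symm.trans ?_
  exact (H703.mem_Ker_iff F hD hB hdiam (y := bar e D v) (nm_vec' v) rfl).trans mem_Lf.symm

/-- the image of a vector orthogonal to `v` is orthogonal to the plane at the far end -/
theorem AD_orth (F : Facts e) {D : ℝ} (hD : 0 < D) (hB : InjGE e D)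
    (hdiam : ∀ p q : M, dist p q ≤ D) {v : UT E M} {a : E} (ha : ip (foot v) (vec' v) a = 0) :
    (AD (E := E) e D v a : TangentSpace 𝓘(ℝ, E) (bar e D v)) ∈
      (H775.Pl e D (foot v) (bar e D v))ᗮ := by
  refine (Submodule.mem_orthogonal (H775.Pl e D (foot v) (bar e D v))
    (AD (E := E) e D v a : TangentSpace 𝓘(ℝ, E) (bar e D v))).2 fun u hu => ?_
  let u' : E := u
  have h1 := H703.dE_mem_orthogonal F hD hB hdiam (x := foot v) (y := bar e D v)
    (v := (vec' (E := E) v : TangentSpace 𝓘(ℝ, E) (foot v))) (nm_vec' v) rfl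
    (w := (a : TangentSpace 𝓘(ℝ, E) (foot v))) ha (u := u) hu
  have h3 : ip (bar e D v) u' (dE e (foot v) (D • vec' (E := E) v) a) = 0 := h1
  have h2 : ip (bar e D v) u' (AD (E := E) e D v a) = 0 := by
    unfold AD
    rw [ip_smul_right', h3, mul_zero]
  exact h2

/-- existence of the inverse -/
theorem exists_BB (F : Facts e) {D : ℝ} (hD : 0 < D) (hB : InjGE e D)
    (hdiam : ∀ p q : M, dist p q ≤ D) {v : UT E M} {z : E}
    (hz : (z : TangentSpace 𝓘(ℝ, E) (bar e D v)) ∈ (H775.Pl e D (foot v) (bar e D v))ᗮ) :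
    ∃ a : E, (a : TangentSpace 𝓘(ℝ, E) (foot v)) ∈ (H775.Pl e D (bar e D v) (foot v))ᗮ ∧
      AD e D v a = z := by
  obtain ⟨w, hw1, hw2⟩ := H703.exists_dE_eq F hD hB hdiam (x := foot v) (y := bar e D v)
    (v := (vec' (E := E) v : TangentSpace 𝓘(ℝ, E) (foot v))) (nm_vec' v) rfl
    (τ := (z : TangentSpace 𝓘(ℝ, E) (bar e D v))) hz
  let w' : E := w
  have hw3 : AD e D v w' = D • z := by
    unfold AD
    exact congrArg (fun y : E => D • y) hw2
  have hw4 : ip (foot v) (vec' v) w' = 0 := hw1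
  have h5 : AD e D v (prP e D v w') = 0 := by
    rw [AD_eq_zero_iff F hD hB hdiam]
    have h6 : prP (E := E) e D v w' = prL e D v w' := by
      rw [prP_eq, hw4, zero_smul, zero_add]
    rw [h6]
    exact prL_mem D v w'
  refine ⟨D⁻¹ • (w' - prP e D v w'), Submodule.smul_mem _ D⁻¹ (sub_prP_mem D v w'), ?_⟩
  rw [AD_smul, AD_sub, h5, sub_zero, hw3, smul_smul, inv_mul_cancel₀ hD.ne', one_smul]

theorem AD_inj (F : Facts e) {D : ℝ} (hD : 0 < D) (hB : InjGE e D)
    (hdiam : ∀ p q : M, dist p q ≤ D) {v : UT E M} {a : E}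
    (ha : (a : TangentSpace 𝓘(ℝ, E) (foot v)) ∈ (H775.Pl e D (bar e D v) (foot v))ᗮ)
    (h0 : AD e D v a = 0) : a = 0 := by
  have h1 := (mem_Lf.1 ((AD_eq_zero_iff F hD hB hdiam).1 h0)).1
  have h2 : prP (E := E) e D v a = a := prP_of_mem h1
  rw [prP_of_mem_orth ha] at h2
  exact h2.symm

/-! ### the projection at the far end -/

/-- the orthogonal projection to the plane `P_{qp}` at the cut point of `v` -/
def prQ (e : ∀ x : M, TangentSpace 𝓘(ℝ, E) x → M) (D : ℝ) (v : UT E M) (z : E) : E :=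
  (H775.Pl e D (foot v) (bar e D v)).starProjection (z : TangentSpace 𝓘(ℝ, E) (bar e D v))

theorem prQ_add (D : ℝ) (v : UT E M) (a b : E) : prQ e D v (a + b) = prQ e D v a + prQ e D v b :=
  map_add (H775.Pl e D (foot v) (bar e D v)).starProjection _ _

theorem prQ_smul (D : ℝ) (v : UT E M) (c : ℝ) (a : E) : prQ e D v (c • a) = c • prQ e D v a :=
  map_smul (H775.Pl e D (foot v) (bar e D v)).starProjection c _

theorem prQ_sub (D : ℝ) (v : UT E M) (a b : E) : prQ e D v (a - b) = prQ e D v a - prQ e D v b :=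
  map_sub (H775.Pl e D (foot v) (bar e D v)).starProjection _ _

theorem prQ_mem (D : ℝ) (v : UT E M) (a : E) :
    (prQ (E := E) e D v a : TangentSpace 𝓘(ℝ, E) (bar e D v)) ∈
      H775.Pl e D (foot v) (bar e D v) :=
  Submodule.starProjection_apply_mem (H775.Pl e D (foot v) (bar e D v))
    (a : TangentSpace 𝓘(ℝ, E) (bar e D v))

theorem prQ_of_mem {D : ℝ} {v : UT E M} {a : E}
    (h : (a : TangentSpace 𝓘(ℝ, E) (bar e D v)) ∈ H775.Pl e D (foot v) (bar e D v)) :
    prQ e D v a = a :=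
  (Submodule.starProjection_eq_self_iff (K := H775.Pl e D (foot v) (bar e D v))
    (v := (a : TangentSpace 𝓘(ℝ, E) (bar e D v)))).2 h

theorem prQ_eq_zero_iff {D : ℝ} {v : UT E M} {a : E} : prQ e D v a = 0 ↔
    (a : TangentSpace 𝓘(ℝ, E) (bar e D v)) ∈ (H775.Pl e D (foot v) (bar e D v))ᗮ :=
  Submodule.starProjection_apply_eq_zero_iff (K := H775.Pl e D (foot v) (bar e D v))
    (v := (a : TangentSpace 𝓘(ℝ, E) (bar e D v)))

theorem prP_eq_zero_iff {D : ℝ} {v : UT E M} {a : E} : prP e D v a = 0 ↔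
    (a : TangentSpace 𝓘(ℝ, E) (foot v)) ∈ (H775.Pl e D (bar e D v) (foot v))ᗮ :=
  Submodule.starProjection_apply_eq_zero_iff (K := H775.Pl e D (bar e D v) (foot v))
    (v := (a : TangentSpace 𝓘(ℝ, E) (foot v)))

theorem prP_prP (D : ℝ) (v : UT E M) (a : E) : prP e D v (prP e D v a) = prP e D v a :=
  prP_of_mem (prP_mem D v a)

theorem prQ_prQ (D : ℝ) (v : UT E M) (a : E) : prQ e D v (prQ e D v a) = prQ e D v a :=
  prQ_of_mem (prQ_mem D v a)

theorem prP_zero (D : ℝ) (v : UT E M) : prP e D v 0 = 0 :=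
  map_zero (H775.Pl e D (bar e D v) (foot v)).starProjection

theorem prQ_zero (D : ℝ) (v : UT E M) : prQ e D v 0 = 0 :=
  map_zero (H775.Pl e D (foot v) (bar e D v)).starProjection

theorem prQ_congr {D : ℝ} {v w : UT E M} (hf : foot w = foot v) (hb : bar e D w = bar e D v)
    (a : E) : prQ e D w a = prQ e D v a := by
  have key : ∀ (x x' y y' : M) (_ : x = x') (_ : y = y'),
      ((H775.Pl e D x y).starProjection (a : TangentSpace 𝓘(ℝ, E) y) : E) =
      (H775.Pl e D x' y').starProjection (a : TangentSpace 𝓘(ℝ, E) y') := by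
    rintro x x' y y' rfl rfl
    rfl
  exact key _ _ _ _ hf hb

theorem prP_phi (F : Facts e) {D : ℝ} (hD : 0 < D) (hB : InjGE e D)
    (hdiam : ∀ p q : M, dist p q ≤ D) (v : UT E M) (a : E) :
    prP e D (phi F (v, D)) a = prQ e D v a := by
  have key : ∀ (x x' y y' : M) (_ : x = x') (_ : y = y'),
      ((H775.Pl e D x y).starProjection (a : TangentSpace 𝓘(ℝ, E) y) : E) =
      (H775.Pl e D x' y').starProjection (a : TangentSpace 𝓘(ℝ, E) y') := by
    rintro x x' y y' rfl rfl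
    rfl
  exact key _ _ _ _ (bar_phi F hD hB hdiam v) rfl

theorem prQ_phi (F : Facts e) {D : ℝ} (hD : 0 < D) (hB : InjGE e D)
    (hdiam : ∀ p q : M, dist p q ≤ D) (v : UT E M) (a : E) :
    prQ e D (phi F (v, D)) a = prP e D v a := by
  have key : ∀ (x x' y y' : M) (_ : x = x') (_ : y = y'),
      ((H775.Pl e D x y).starProjection (a : TangentSpace 𝓘(ℝ, E) y) : E) =
      (H775.Pl e D x' y').starProjection (a : TangentSpace 𝓘(ℝ, E) y') := by
    rintro x x' y y' rfl rfl
    rfl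
  exact key _ _ _ _ rfl (bar_phi F hD hB hdiam v)

/-- the image of `AD` on the complement of the plane -/
theorem prQ_AD_of_prP (F : Facts e) {D : ℝ} (hD : 0 < D) (hB : InjGE e D)
    (hdiam : ∀ p q : M, dist p q ≤ D) {v : UT E M} {a : E} (ha : prP e D v a = 0) :
    prQ e D v (AD e D v a) = 0 := by
  refine prQ_eq_zero_iff.2 (AD_orth F hD hB hdiam ?_)
  rw [← ip_prP_self, ha]
  exact inner_zero_right (𝕜 := ℝ) (E := TangentSpace 𝓘(ℝ, E) (foot v)) _

theorem AD_self_mem (F : Facts e) {D : ℝ} (hD : 0 < D) (hB : InjGE e D)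
    (hdiam : ∀ p q : M, dist p q ≤ D) (v : UT E M) :
    (AD (E := E) e D v (vec' v) : TangentSpace 𝓘(ℝ, E) (bar e D v)) ∈
      H775.Pl e D (foot v) (bar e D v) := by
  have h1 := self_mem_Pl (e := e) D (phi F (v, D))
  rw [bar_phi F hD hB hdiam v] at h1
  exact Submodule.smul_mem _ D h1

/-- the differential of `exp` splits along the planes -/
theorem AD_prP (F : Facts e) {D : ℝ} (hD : 0 < D) (hB : InjGE e D)
    (hdiam : ∀ p q : M, dist p q ≤ D) (v : UT E M) (a : E) :
    AD e D v (prP e D v a) = ip (foot v) (vec' v) a • AD e D v (vec' v) := by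
  have h1 : AD e D v (prL (E := E) e D v a) = 0 :=
    (AD_eq_zero_iff F hD hB hdiam).2 (prL_mem D v a)
  rw [prP_eq, AD_add, AD_smul, h1, add_zero]

theorem prQ_AD (F : Facts e) {D : ℝ} (hD : 0 < D) (hB : InjGE e D)
    (hdiam : ∀ p q : M, dist p q ≤ D) (v : UT E M) (a : E) :
    prQ e D v (AD e D v a) = AD e D v (prP e D v a) := by
  have h1 : prP e D v (a - prP e D v a) = 0 := by rw [prP_sub, prP_prP, sub_self]
  have h2 := prQ_AD_of_prP F hD hB hdiam h1
  rw [AD_sub, prQ_sub, sub_eq_zero] at h2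
  rw [h2, AD_prP F hD hB hdiam, prQ_smul, prQ_of_mem (AD_self_mem F hD hB hdiam v)]

/-! ### the pencil -/

/-- **the pencil**: `B_v : T_q M → T_p M`, zero on `P_{qp}`, and on `P_{qp}ᗮ` the inverse of
`a ↦ J_a(D)`, `P_{pq}ᗮ → P_{qp}ᗮ` -/
def BB (e : ∀ x : M, TangentSpace 𝓘(ℝ, E) x → M) (D : ℝ) (v : UT E M) (z : E) : E :=
  Classical.epsilon fun a : E => prP e D v a = 0 ∧ AD e D v a = z - prQ e D v z

theorem BB_spec (F : Facts e) {D : ℝ} (hD : 0 < D) (hB : InjGE e D)
    (hdiam : ∀ p q : M, dist p q ≤ D) (v : UT E M) (z : E) :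
    prP e D v (BB e D v z) = 0 ∧ AD e D v (BB e D v z) = z - prQ e D v z := by
  refine Classical.epsilon_spec (p := fun a : E => prP e D v a = 0 ∧
    AD e D v a = z - prQ e D v z) ?_
  have h1 : prQ e D v (z - prQ e D v z) = 0 := by rw [prQ_sub, prQ_prQ, sub_self]
  obtain ⟨a, h2, h3⟩ := exists_BB F hD hB hdiam (v := v) (prQ_eq_zero_iff.1 h1)
  exact ⟨a, prP_eq_zero_iff.2 h2, h3⟩

theorem prP_BB (F : Facts e) {D : ℝ} (hD : 0 < D) (hB : InjGE e D)
    (hdiam : ∀ p q : M, dist p q ≤ D) (v : UT E M) (z : E) :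
    prP e D v (BB e D v z) = 0 := (BB_spec F hD hB hdiam v z).1

theorem AD_BB (F : Facts e) {D : ℝ} (hD : 0 < D) (hB : InjGE e D)
    (hdiam : ∀ p q : M, dist p q ≤ D) (v : UT E M) (z : E) :
    AD e D v (BB e D v z) = z - prQ e D v z := (BB_spec F hD hB hdiam v z).2

theorem eq_BB (F : Facts e) {D : ℝ} (hD : 0 < D) (hB : InjGE e D)
    (hdiam : ∀ p q : M, dist p q ≤ D) {v : UT E M} {z a : E} (h1 : prP e D v a = 0)
    (h2 : AD e D v a = z - prQ e D v z) : BB e D v z = a := by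
  have h3 : prP (E := E) e D v (BB e D v z - a) = 0 := by
    rw [prP_sub, prP_BB F hD hB hdiam, h1, sub_self]
  have h4 : AD (E := E) e D v (BB e D v z - a) = 0 := by
    rw [AD_sub, AD_BB F hD hB hdiam, h2, sub_self]
  exact sub_eq_zero.1 (AD_inj F hD hB hdiam (prP_eq_zero_iff.1 h3) h4)

theorem BB_add (F : Facts e) {D : ℝ} (hD : 0 < D) (hB : InjGE e D)
    (hdiam : ∀ p q : M, dist p q ≤ D) (v : UT E M) (z z' : E) :
    BB e D v (z + z') = BB e D v z + BB e D v z' := by
  refine eq_BB F hD hB hdiam ?_ ?_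
  · rw [prP_add, prP_BB F hD hB hdiam, prP_BB F hD hB hdiam, add_zero]
  · rw [AD_add, AD_BB F hD hB hdiam, AD_BB F hD hB hdiam, prQ_add]
    abel

theorem BB_smul (F : Facts e) {D : ℝ} (hD : 0 < D) (hB : InjGE e D)
    (hdiam : ∀ p q : M, dist p q ≤ D) (v : UT E M) (c : ℝ) (z : E) :
    BB e D v (c • z) = c • BB e D v z := by
  refine eq_BB F hD hB hdiam ?_ ?_
  · rw [prP_smul, prP_BB F hD hB hdiam, smul_zero]
  · rw [AD_smul, AD_BB F hD hB hdiam, prQ_smul, smul_sub]

/-- the pencil as a linear map -/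
def BBL (F : Facts e) {D : ℝ} (hD : 0 < D) (hB : InjGE e D)
    (hdiam : ∀ p q : M, dist p q ≤ D) (v : UT E M) : E →ₗ[ℝ] E where
  toFun := BB e D v
  map_add' := BB_add F hD hB hdiam v
  map_smul' := BB_smul F hD hB hdiam v

@[simp] theorem BBL_apply (F : Facts e) {D : ℝ} (hD : 0 < D) (hB : InjGE e D)
    (hdiam : ∀ p q : M, dist p q ≤ D) (v : UT E M) (z : E) :
    BBL F hD hB hdiam v z = BB e D v z := rfl

theorem BB_of_prQ (F : Facts e) {D : ℝ} (hD : 0 < D) (hB : InjGE e D)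
    (hdiam : ∀ p q : M, dist p q ≤ D) {v : UT E M} {z : E} (h : prQ e D v z = z) :
    BB e D v z = 0 := by
  refine eq_BB F hD hB hdiam (prP_zero D v) ?_
  rw [h, sub_self]
  exact map_zero (ADL e D v)

theorem BB_prQ (F : Facts e) {D : ℝ} (hD : 0 < D) (hB : InjGE e D)
    (hdiam : ∀ p q : M, dist p q ≤ D) (v : UT E M) (z : E) :
    BB e D v (prQ e D v z) = 0 := BB_of_prQ F hD hB hdiam (prQ_prQ D v z)

/-- the pencil inverts `AD` -/
theorem BB_AD (F : Facts e) {D : ℝ} (hD : 0 < D) (hB : InjGE e D)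
    (hdiam : ∀ p q : M, dist p q ≤ D) (v : UT E M) (a : E) :
    BB e D v (AD e D v a) = a - prP e D v a := by
  refine eq_BB F hD hB hdiam ?_ ?_
  · rw [prP_sub, prP_prP, sub_self]
  · rw [prQ_AD F hD hB hdiam, AD_sub]

/-- injectivity of the pencil -/
theorem BB_eq_zero_iff (F : Facts e) {D : ℝ} (hD : 0 < D) (hB : InjGE e D)
    (hdiam : ∀ p q : M, dist p q ≤ D) {v : UT E M} {z : E} :
    BB e D v z = 0 ↔ prQ e D v z = z := by
  refine ⟨fun h => ?_, BB_of_prQ F hD hB hdiam⟩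
  have h1 := AD_BB F hD hB hdiam v z
  rw [h] at h1
  have h2 : AD e D v (0 : E) = 0 := map_zero (ADL e D v)
  rw [h2] at h1
  exact (sub_eq_zero.1 h1.symm).symm

end

end Vale.Agent.P231.WR
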