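import Vale.Agent.P231.WR.Rot

/-!
# P231, stage 2: orthonormal frames of the planes `P_{pq}`, for every cut multiplicity

Local extension of orthonormal tuples of vectors of `L_v` along plots; coordinates of a plot in a
frame; the Gram matrix.
-/

set_option maxSynthPendingDepth 3
set_option linter.unusedSectionVars false
set_option linter.unusedVariables false

open Bundle Manifold Set Filter Module
open scoped ContDiff Manifold Topology

namespace Vale.Agent.P231.WR

noncomputable section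

open Vale.Agent.P234 Vale.Agent.P231 Vale.Agent.P231.Fm Vale.Agent.P231.W

variable {E : Type*} [NormedAddCommGroup E] [NormedSpace ℝ E]
  {M : Type*} [MetricSpace M] [ChartedSpace E M]
  [RiemannianBundle (fun x : M => TangentSpace 𝓘(ℝ, E) x)]
  {e : ∀ x : M, TangentSpace 𝓘(ℝ, E) x → M}
  [FiniteDimensional ℝ E] [IsManifold 𝓘(ℝ, E) ∞ M]
  [IsContMDiffRiemannianBundle 𝓘(ℝ, E) ∞ E (fun x : M => TangentSpace 𝓘(ℝ, E) x)]

theorem ip_sum_right {ι : Type*} (s : Finset ι) (x : M) (a : E) (b : ι → E) :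
    ip x a (∑ i ∈ s, b i) = ∑ i ∈ s, ip x a (b i) :=
  inner_sum (𝕜 := ℝ) (E := TangentSpace 𝓘(ℝ, E) x) _ _ _

theorem ip_sum_left {ι : Type*} (s : Finset ι) (x : M) (a : ι → E) (b : E) :
    ip x (∑ i ∈ s, a i) b = ∑ i ∈ s, ip x (a i) b :=
  sum_inner (𝕜 := ℝ) (E := TangentSpace 𝓘(ℝ, E) x) _ _ _

theorem ip_sub_right' (x : M) (a b c : E) : ip x a (b - c) = ip x a b - ip x a c :=
  inner_sub_right (𝕜 := ℝ) (E := TangentSpace 𝓘(ℝ, E) x) _ _ _

theorem ip_sub_left' (x : M) (a b c : E) : ip x (a - b) c = ip x a c - ip x b c :=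
  inner_sub_left (𝕜 := ℝ) (E := TangentSpace 𝓘(ℝ, E) x) _ _ _

section Plots

variable {E' : Type} [NormedAddCommGroup E'] [NormedSpace ℝ E'] [FiniteDimensional ℝ E']
  [CompactSpace M] [ConnectedSpace M] [IsRiemannianManifold 𝓘(ℝ, E) M]

/-- the inner product of two plots with a common foot is smooth -/
theorem sm_ip' {u w z : E' → UT E M} {x : E'} (hw : (dUT E M).At w x) (hz : (dUT E M).At z x)
    (hfw : ∀ᶠ s in 𝓝 x, foot (w s) = foot (u s)) (hfz : ∀ᶠ s in 𝓝 x, foot (z s) = foot (u s)) :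
    Sm (fun s => ip (foot (u s)) (vec' (w s)) (vec' (z s))) x := by
  have h1 : ∀ᶠ s in 𝓝 x, foot (z s) = foot (w s) := by
    filter_upwards [hfw, hfz] with s h1 h2
    rw [h1, h2]
  have h2 := sm_ip hw hz h1
  have h3 := eventually_eventually_nhds.2 hfw
  filter_upwards [h2, h3] with s h4 h5
  refine h4.congr_of_eventuallyEq ?_
  filter_upwards [h5] with s' hs'
  rw [hs']

/-- smooth linear combinations of plots with a common foot are smooth vector fields -/
theorem smV_sum {ι : Type*} (t : Finset ι) {u : E' → UT E M} {W : ι → E' → UT E M} {x : E'}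
    (hu : (dUT E M).At u x) (hW : ∀ i, (dUT E M).At (W i) x)
    (hf : ∀ i, ∀ᶠ s in 𝓝 x, foot (W i s) = foot (u s)) {c : ι → E' → ℝ}
    (hc : ∀ i, Sm (c i) x) :
    ∀ᶠ s in 𝓝 x, H775.SmV (fun s => foot (u s))
      (fun s => (∑ i ∈ t, c i s • vec' (W i s) : E)) s := by
  classical
  have hfoot : ∀ᶠ s in 𝓝 x, ContMDiffAt 𝓘(ℝ, E') 𝓘(ℝ, E) ∞ (fun s => foot (u s)) s :=
    map_foot hu
  induction t using Finset.induction_on with
  | empty =>
    rw [at_iff] at hu
    filter_upwards [hu] with s h1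
    have h2 : H775.SmV (fun s => foot (u s)) (fun s => (0 : ℝ) • tv (u s)) s :=
      H775.SmV.smul contDiffAt_const h1
    refine ContMDiffAt.congr_of_eventuallyEq h2 (Eventually.of_forall fun s' => tb_congr rfl ?_)
    have h3 : (∑ i ∈ (∅ : Finset ι), c i s' • vec' (W i s') : E) = 0 := Finset.sum_empty
    exact h3.trans (zero_smul ℝ (vec' (u s'))).symm
  | insert i t hi ih =>
    have h1 := at_iff.1 (hW i)
    have h2 := eventually_eventually_nhds.2 (hf i)
    filter_upwards [ih, h1, h2, hc i] with s h3 h4 h5 h6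
    let w' : ∀ s, TangentSpace 𝓘(ℝ, E) (foot (u s)) := fun s => vec' (E := E) (W i s)
    have h7 : H775.SmV (fun s => foot (u s)) w' s := by
      refine ContMDiffAt.congr_of_eventuallyEq h4 ?_
      filter_upwards [h5] with s' hs'
      exact tb_congr hs'.symm rfl
    have h8 := (H775.SmV.smul h6 h7).add h3
    refine ContMDiffAt.congr_of_eventuallyEq h8 (Eventually.of_forall fun s' => tb_congr rfl ?_)
    have h9 : (∑ j ∈ insert i t, c j s' • vec' (W j s') : E) =
      c i s' • vec' (W i s') + ∑ j ∈ t, c j s' • vec' (W j s') := Finset.sum_insert hi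
    exact h9

/-- **Extension of orthonormal tuples**: a unit vector of `L_v` orthogonal to `k` given plots
extends to a plot orthogonal to them. -/
theorem exists_ext (F : Facts e) {D : ℝ} (hD : 0 < D) (hB : InjGE e D)
    (hdiam : ∀ p q : M, dist p q ≤ D) {l : ℕ}
    (hP : ∀ x y : M, dist x y = D → finrank ℝ (H775.Pl e D x y) = l + 1) {ι : Type*} [Fintype ι]
    [DecidableEq ι] {u : E' → UT E M} {W : ι → E' → UT E M} {x : E'} (hu : (dUT E M).At u x)
    (hW : ∀ i, (dUT E M).At (W i) x) (hL : ∀ i, ∀ᶠ s in 𝓝 x, IsL e D (u s) (W i s))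
    (ho : ∀ i j, i ≠ j → ∀ᶠ s in 𝓝 x, ip (foot (u s)) (vec' (W i s)) (vec' (W j s)) = 0)
    {w₀ : UT E M} (hw₀ : IsL e D (u x) w₀)
    (h0 : ∀ i, ip (foot (u x)) (vec' (W i x)) (vec' w₀) = 0) :
    ∃ w : E' → UT E M, w x = w₀ ∧ (dUT E M).At w x ∧ (∀ᶠ s in 𝓝 x, IsL e D (u s) (w s)) ∧
      ∀ i, ∀ᶠ s in 𝓝 x, ip (foot (u s)) (vec' (W i s)) (vec' (w s)) = 0 := by
  classical
  obtain ⟨z, hz0, hz1, hz2⟩ := exists_local F hD hB hdiam hP hu hw₀
  -- the projection to the orthogonal complement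
  set c : ι → E' → ℝ := fun i s => -ip (foot (u s)) (vec' (W i s)) (vec' (z s)) with hc
  have hcs : ∀ i, Sm (c i) x := by
    intro i
    have h1 := sm_ip' (u := u) (hW i) hz1 ((hL i).mono fun s h => h.foot_eq)
      (hz2.mono fun s h => h.foot_eq)
    exact Sm.comp (f := fun t : ℝ => -t) (g := fun s => ip (foot (u s)) (vec' (W i s)) (vec' (z s)))
      (Sm.of_contDiff contDiff_neg _) h1
  let W' : Option ι → E' → UT E M := fun o => o.elim z W
  let c' : Option ι → E' → ℝ := fun o => o.elim (fun _ => 1) c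
  have hm := smV_sum (Finset.univ : Finset (Option ι)) hu (W := W') (c := c')
    (fun o => by cases o with
      | none => exact hz1
      | some i => exact hW i)
    (fun o => by cases o with
      | none => exact hz2.mono fun s h => h.foot_eq
      | some i => exact (hL i).mono fun s h => h.foot_eq)
    (fun o => by cases o with
      | none => exact Sm.of_contDiff contDiff_const _
      | some i => exact hcs i)
  set m : ∀ s, TangentSpace 𝓘(ℝ, E) (foot (u s)) :=
    fun s => (∑ o, c' o s • vec' (W' o s) : E) with hmdef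
  have hmE : ∀ s, (m s : E) = vec' (z s) + ∑ i, c i s • vec' (W i s) := by
    intro s
    have h1 : (∑ o, c' o s • vec' (W' o s) : E) = c' none s • vec' (W' none s) +
      ∑ i, c' (some i) s • vec' (W' (some i) s) := Fintype.sum_option _
    refine h1.trans ?_
    change (1 : ℝ) • vec' (z s) + _ = _
    rw [one_smul]
    rfl
  have hmx : (m x : E) = vec' w₀ := by
    rw [hmE, hz0]
    have h1 : ∑ i, c i x • vec' (W i x) = 0 := by
      refine Finset.sum_eq_zero fun i _ => ?_
      simp only [hc]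
      rw [hz0, h0 i, neg_zero, zero_smul]
    rw [h1, add_zero]
  have hmn : ‖m x‖ ^ 2 = 1 := by
    have h1 : ‖m x‖ = 1 := by
      have h2 : nm (E := E) (foot (u x)) (vec' w₀) = 1 := by
        rw [← hw₀.foot_eq]
        exact nm_vec' w₀
      rw [← hmx] at h2
      exact h2
    rw [h1, one_pow]
  have hpos : ∀ᶠ s in 𝓝 x, 0 < ‖m s‖ ^ 2 := by
    have h1 : ContinuousAt (fun s => ‖m s‖ ^ 2) x := hm.self_of_nhds.norm_sq.continuousAt
    have h2 : (fun s => ‖m s‖ ^ 2) x = 1 := hmn
    refine h1.eventually (lt_mem_nhds ?_)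
    rw [h2]
    exact one_pos
  set n : ∀ s, TangentSpace 𝓘(ℝ, E) (foot (u s)) :=
    fun s => (Real.sqrt (‖m s‖ ^ 2))⁻¹ • m s with hndef
  have hn : ∀ᶠ s in 𝓝 x, H775.SmV (fun s => foot (u s)) n s := by
    filter_upwards [hm, hpos] with s h1 h2
    refine H775.SmV.smul ?_ h1
    refine ContDiffAt.inv (ContDiffAt.sqrt h1.norm_sq h2.ne') ?_
    exact (Real.sqrt_pos.2 h2).ne'
  have hn1 : ∀ᶠ s in 𝓝 x, ‖n s‖ = 1 := by
    filter_upwards [hpos] with s h2
    have h3 : 0 < ‖m s‖ := by
      rcases (norm_nonneg (m s)).eq_or_lt with h | h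
      · rw [← h] at h2
        norm_num at h2
      · exact h
    simp only [hndef]
    rw [Real.sqrt_sq (norm_nonneg _), norm_smul, norm_inv, norm_norm, inv_mul_cancel₀ h3.ne']
  have hnx : (n x : E) = vec' w₀ := by
    simp only [hndef]
    rw [hmn, Real.sqrt_one, inv_one, one_smul]
    exact hmx
  let w : E' → UT E M := fun s => if h : nm (E := E) (foot (u s)) (n s) = 1 then
    mk (E := E) (foot (u s)) (n s) h else w₀
  have hw1 : ∀ᶠ s in 𝓝 x, ∃ h : nm (E := E) (foot (u s)) (n s) = 1,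
      w s = mk (E := E) (foot (u s)) (n s) h := by
    filter_upwards [hn1] with s hs
    exact ⟨hs, dif_pos hs⟩
  have hLall : ∀ᶠ s in 𝓝 x, ∀ i, IsL e D (u s) (W i s) := eventually_all.2 hL
  have hoall : ∀ᶠ s in 𝓝 x, ∀ i j, i ≠ j →
      ip (foot (u s)) (vec' (W i s)) (vec' (W j s)) = 0 :=
    eventually_all.2 fun i => eventually_all.2 fun j => by
      by_cases hij : i = j
      · exact Eventually.of_forall fun s h => absurd hij h
      · exact (ho i j hij).mono fun s h _ => h
  refine ⟨w, ?_, ?_, ?_, fun i => ?_⟩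
  · obtain ⟨h, h1⟩ := hw1.self_of_nhds
    rw [h1, ← mk_eta w₀]
    exact mk_congr hw₀.foot_eq.symm hnx
  · rw [at_iff]
    have h2 := eventually_eventually_nhds.2 hw1
    filter_upwards [hn, h2] with s h3 h4
    refine ContMDiffAt.congr_of_eventuallyEq h3 ?_
    filter_upwards [h4] with s' hs'
    obtain ⟨h5, h6⟩ := hs'
    change (w s').1 = _
    rw [h6]
    rfl
  · filter_upwards [hw1, hz2, hn1, hLall] with s hs1 hs2 hs3 hs4
    obtain ⟨h5, h6⟩ := hs1
    have hzP : (vec' (E := E) (z s) : TangentSpace 𝓘(ℝ, E) (foot (u s))) ∈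
        H775.Pl e D (bar e D (u s)) (foot (u s)) := H775.Lk_subset_Pl D _ _ hs2.mem_Lk
    have hWP : ∀ i, (vec' (E := E) (W i s) : TangentSpace 𝓘(ℝ, E) (foot (u s))) ∈
        H775.Pl e D (bar e D (u s)) (foot (u s)) := fun i =>
      H775.Lk_subset_Pl D _ _ (hs4 i).mem_Lk
    have hmP : m s ∈ H775.Pl e D (bar e D (u s)) (foot (u s)) := by
      have h7 : m s = (vec' (E := E) (z s) : TangentSpace 𝓘(ℝ, E) (foot (u s))) +
        ∑ i, c i s • (vec' (E := E) (W i s) : TangentSpace 𝓘(ℝ, E) (foot (u s))) := hmE s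
      rw [h7]
      exact Submodule.add_mem _ hzP (Submodule.sum_mem _ fun i _ => Submodule.smul_mem _ _ (hWP i))
    have hnP : n s ∈ H775.Pl e D (bar e D (u s)) (foot (u s)) := Submodule.smul_mem _ _ hmP
    have hnL : n s ∈ Lk e D (bar e D (u s)) (foot (u s)) :=
      (H775.mem_Lk_iff F hD hB hdiam (dist_bar' F hD hB (u s))).2 ⟨hs3, hnP⟩
    rw [h6]
    refine isL_mk (E := E) (a := n s) hnL ?_
    have h7 : ip (foot (u s)) (vec' (u s)) (m s : E) = 0 := by
      rw [hmE, ip_add_right', hs2.orth, ip_sum_right, zero_add]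
      refine Finset.sum_eq_zero fun i _ => ?_
      rw [ip_smul_right', (hs4 i).orth, mul_zero]
    have h8 : ip (foot (u s)) (vec' (u s)) (n s : E) =
      (Real.sqrt (‖m s‖ ^ 2))⁻¹ * ip (foot (u s)) (vec' (u s)) (m s : E) := ip_smul_right' _ _ _ _
    rw [h8, h7, mul_zero]
  · filter_upwards [hw1, hLall, hoall] with s hs1 hs4 hs5
    obtain ⟨h5, h6⟩ := hs1
    have h7 : ip (foot (u s)) (vec' (W i s)) (m s : E) = 0 := by
      rw [hmE, ip_add_right', ip_sum_right, Finset.sum_eq_single i]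
      · rw [ip_smul_right', (hs4 i).ip_self]
        simp only [hc]
        ring
      · intro j _ hj
        rw [ip_smul_right', hs5 i j hj.symm, mul_zero]
      · intro h
        exact absurd (Finset.mem_univ i) h
    have h8 : ip (foot (u s)) (vec' (W i s)) (n s : E) =
      (Real.sqrt (‖m s‖ ^ 2))⁻¹ * ip (foot (u s)) (vec' (W i s)) (m s : E) :=
      ip_smul_right' _ _ _ _
    have h9 : ip (foot (u s)) (vec' (W i s)) (vec' (w s)) =
        ip (foot (u s)) (vec' (W i s)) (n s : E) := by rw [h6]; rfl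
    rw [h9, h8, h7, mul_zero]

/-- **Extension of frames**: orthonormal vectors of `L_v` extend to orthonormal plots -/
theorem exists_exts (F : Facts e) {D : ℝ} (hD : 0 < D) (hB : InjGE e D)
    (hdiam : ∀ p q : M, dist p q ≤ D) {l : ℕ}
    (hP : ∀ x y : M, dist x y = D → finrank ℝ (H775.Pl e D x y) = l + 1)
    {u : E' → UT E M} {x : E'} (hu : (dUT E M).At u x) {k : ℕ} (W₀ : Fin k → UT E M)
    (hL : ∀ i, IsL e D (u x) (W₀ i))
    (ho : ∀ i j, i ≠ j → ip (foot (u x)) (vec' (W₀ i)) (vec' (W₀ j)) = 0) :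
    ∃ W : Fin k → E' → UT E M, (∀ i, W i x = W₀ i) ∧ (∀ i, (dUT E M).At (W i) x) ∧
      (∀ i, ∀ᶠ s in 𝓝 x, IsL e D (u s) (W i s)) ∧
      ∀ i j, i ≠ j → ∀ᶠ s in 𝓝 x, ip (foot (u s)) (vec' (W i s)) (vec' (W j s)) = 0 := by
  classical
  induction k with
  | zero => exact ⟨fun i => i.elim0, fun i => i.elim0, fun i => i.elim0, fun i => i.elim0,
      fun i => i.elim0⟩
  | succ k ih =>
    obtain ⟨W, h1, h2, h3, h4⟩ := ih (fun i => W₀ i.succ) (fun i => hL _)
      (fun i j hij => ho _ _ fun h => hij (Fin.succ_injective _ h))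
    obtain ⟨w, g1, g2, g3, g4⟩ := exists_ext F hD hB hdiam hP hu h2 h3 h4 (hL 0) (fun i => by
      rw [h1 i]
      exact ho _ _ (Fin.succ_ne_zero i))
    refine ⟨Fin.cons w W, fun i => ?_, fun i => ?_, fun i => ?_, fun i j hij => ?_⟩
    · refine Fin.cases ?_ (fun i => ?_) i
      · exact g1
      · exact h1 i
    · refine Fin.cases ?_ (fun i => ?_) i
      · exact g2
      · exact h2 i
    · refine Fin.cases ?_ (fun i => ?_) i
      · exact g3
      · exact h3 i
    · revert hij
      refine Fin.cases (fun hij => ?_) (fun i hij => ?_) i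
      · revert hij
        refine Fin.cases (fun hij => absurd rfl hij) (fun j _ => ?_) j
        filter_upwards [g4 j] with s hs
        change ip (foot (u s)) (vec' (w s)) (vec' (W j s)) = 0
        rw [ip_comm']
        exact hs
      · revert hij
        refine Fin.cases (fun _ => g4 i) (fun j hij => ?_) j
        exact h4 i j fun h => hij (congrArg Fin.succ h)

/-- combinations of a frame with smooth coefficients are plots -/
theorem at_sum {ι : Type*} [Fintype ι] {u : E' → UT E M} {W : ι → E' → UT E M} {z : E' → UT E M}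
    {x : E'} (hu : (dUT E M).At u x) (hW : ∀ i, (dUT E M).At (W i) x)
    (hf : ∀ i, ∀ᶠ s in 𝓝 x, foot (W i s) = foot (u s)) {c : ι → E' → ℝ} (hc : ∀ i, Sm (c i) x)
    (hz : ∀ᶠ s in 𝓝 x, foot (z s) = foot (u s) ∧ vec' (z s) = ∑ i, c i s • vec' (W i s)) :
    (dUT E M).At z x := by
  rw [at_iff]
  have h1 := smV_sum Finset.univ hu hW hf hc
  filter_upwards [h1, eventually_eventually_nhds.2 hz] with s h2 h3
  refine ContMDiffAt.congr_of_eventuallyEq h2 ?_
  filter_upwards [h3] with s' hs'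
  exact tb_congr hs'.1 hs'.2

end Plots

section Fin

variable [CompactSpace M] [ConnectedSpace M] [IsRiemannianManifold 𝓘(ℝ, E) M]

/-- an orthonormal frame of `L_v` -/
structure IsLF (e : ∀ x : M, TangentSpace 𝓘(ℝ, E) x → M) (D : ℝ) {k : ℕ} (v : UT E M)
    (W : Fin k → UT E M) : Prop where
  isL : ∀ i, IsL e D v (W i)
  orth : ∀ i j, i ≠ j → ip (foot v) (vec' (W i)) (vec' (W j)) = 0

/-- existence of frames at a point -/
theorem exists_isLF (F : Facts e) {D : ℝ} (hD : 0 < D) (hB : InjGE e D)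
    (hdiam : ∀ p q : M, dist p q ≤ D) {l : ℕ}
    (hP : ∀ x y : M, dist x y = D → finrank ℝ (H775.Pl e D x y) = l + 1) (v : UT E M) :
    ∃ W : Fin l → UT E M, IsLF e D v W := by
  set P := H775.Pl e D (bar e D v) (foot v) with hPdef
  have hfin : finrank ℝ P = l + 1 := hP _ _ (dist_bar' F hD hB v)
  have hvP : tv v ∈ P := H775.Lk_subset_Pl D _ _ (mem_Lk_self D v)
  let v' : P := ⟨tv v, hvP⟩
  have hv' : v' ≠ 0 := by
    intro h
    have h1 : tv v = 0 := congrArg Subtype.val h
    have h2 : ‖tv v‖ = 1 := nm_vec' v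
    rw [h1, norm_zero] at h2
    exact zero_ne_one h2
  have hfd : FiniteDimensional ℝ P := Module.finite_of_finrank_pos (by omega)
  have hL : finrank ℝ ((ℝ ∙ v')ᗮ : Submodule ℝ P) = l := by
    have h1 := Submodule.finrank_add_finrank_orthogonal (ℝ ∙ v')
    rw [finrank_span_singleton hv', hfin] at h1
    omega
  let b : OrthonormalBasis (Fin l) ℝ ((ℝ ∙ v')ᗮ : Submodule ℝ P) :=
    (stdOrthonormalBasis ℝ ((ℝ ∙ v')ᗮ : Submodule ℝ P)).reindex (finCongr hL)
  have hb1 : ∀ i, ‖((b i : P) : TangentSpace 𝓘(ℝ, E) (foot v))‖ = 1 := fun i => b.orthonormal.1 i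
  have hbL : ∀ i, ((b i : P) : TangentSpace 𝓘(ℝ, E) (foot v)) ∈
      Lk e D (bar e D v) (foot v) := fun i =>
    (H775.mem_Lk_iff F hD hB hdiam (dist_bar' F hD hB v)).2 ⟨hb1 i, (b i : P).2⟩
  have hbo : ∀ i, ip (foot v) (vec' v) ((b i : P) : TangentSpace 𝓘(ℝ, E) (foot v)) = 0 := by
    intro i
    have h1 := (Submodule.mem_orthogonal_singleton_iff_inner_right.1 (b i).2)
    exact h1
  refine ⟨fun i => W.mk (E := E) (foot v) ((b i : P) : TangentSpace 𝓘(ℝ, E) (foot v)) (hb1 i),
    ⟨fun i => isL_mk (E := E) (hbL i) (hbo i), fun i j hij => ?_⟩⟩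
  have h1 := b.orthonormal.2 hij
  exact h1

/-- the vectors of a full frame span `L_v` -/
theorem IsLF.sum_eq (F : Facts e) {D : ℝ} (hD : 0 < D) (hB : InjGE e D)
    (hdiam : ∀ p q : M, dist p q ≤ D) {l : ℕ}
    (hP : ∀ x y : M, dist x y = D → finrank ℝ (H775.Pl e D x y) = l + 1) {v : UT E M}
    {W : Fin l → UT E M} (h : IsLF e D v W) {z : E}
    (hz : (z : TangentSpace 𝓘(ℝ, E) (foot v)) ∈ H775.Pl e D (bar e D v) (foot v)) :
    z = ip (foot v) (vec' v) z • vec' v + ∑ i, ip (foot v) (vec' (W i)) z • vec' (W i) := by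
  set P := H775.Pl e D (bar e D v) (foot v) with hPdef
  have hfin : finrank ℝ P = l + 1 := hP _ _ (dist_bar' F hD hB v)
  have hfd : FiniteDimensional ℝ P := Module.finite_of_finrank_pos (by omega)
  let a : Option (Fin l) → P := fun o => o.elim
    ⟨tv v, H775.Lk_subset_Pl D _ _ (mem_Lk_self D v)⟩
    (fun i => ⟨(vec' (E := E) (W i) : TangentSpace 𝓘(ℝ, E) (foot v)),
      H775.Lk_subset_Pl D _ _ (h.isL i).mem_Lk⟩)
  have hon : Orthonormal ℝ a := by
    refine ⟨fun o => ?_, fun o o' hoo => ?_⟩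
    · cases o with
      | none => exact nm_vec' v
      | some i => exact (h.isL i).mem_Lk.1
    · cases o with
      | none =>
        cases o' with
        | none => exact absurd rfl hoo
        | some j => exact (h.isL j).orth
      | some i =>
        cases o' with
        | none =>
          have h1 := (h.isL i).orth
          rw [ip_comm'] at h1
          exact h1
        | some j => exact h.orth i j fun h' => hoo (congrArg some h')
  have hcard : Fintype.card (Option (Fin l)) = finrank ℝ P := by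
    rw [Fintype.card_option, Fintype.card_fin, hfin]
  let b : OrthonormalBasis (Option (Fin l)) ℝ P := OrthonormalBasis.mk hon (by
    have h1 := (basisOfLinearIndependentOfCardEqFinrank hon.linearIndependent hcard).span_eq
    rw [coe_basisOfLinearIndependentOfCardEqFinrank] at h1
    exact h1.ge)
  have h2 := b.sum_repr' ⟨z, hz⟩
  have h3 := congrArg (fun y : P => (y : TangentSpace 𝓘(ℝ, E) (foot v))) h2
  simp only at h3
  rw [Fintype.sum_option] at h3
  have h4 : ∀ o, b o = a o := fun o => by rw [OrthonormalBasis.coe_mk]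
  simp only [h4] at h3
  refine h3.symm.trans ?_
  have h5 : ∀ y : Fin l → P, ((∑ i, y i : P) : TangentSpace 𝓘(ℝ, E) (foot v)) =
    ∑ i, (y i : TangentSpace 𝓘(ℝ, E) (foot v)) := fun y => by
      rw [Submodule.coe_sum]
  have h6 := h5 (fun i => (inner ℝ (a (some i)) (⟨z, hz⟩ : P) : ℝ) • a (some i))
  exact congrArg (fun y : E => ip (foot v) (vec' v) z • vec' v + y) h6

end Fin

end

end Vale.Agent.P231.WR
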