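import Vale.Agent.P231.WR.Proj
import Vale.Agent.P231.WG.Stokes

/-!
# P231, stage 2: the inverse of a smooth family of isomorphisms of tangent spaces is smooth
-/

set_option maxSynthPendingDepth 3
set_option linter.unusedSectionVars false
set_option linter.unusedVariables false

open Bundle Manifold Set Filter Module
open scoped ContDiff Manifold Topology

namespace Vale.Agent.P231.WR

noncomputable section

open Vale.Agent.P234 Vale.Agent.P231 Vale.Agent.P231.Fm Vale.Agent.P231.W Vale.Agent.P231.H775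

/-- a family of linear maps smooth on the vectors of a basis is smooth -/
theorem sm_clm {V F G : Type*} [NormedAddCommGroup V] [NormedSpace ℝ V] [NormedAddCommGroup F]
    [NormedSpace ℝ F] [FiniteDimensional ℝ F] [NormedAddCommGroup G] [NormedSpace ℝ G]
    {N : V → F →L[ℝ] G} {s₀ : V} (h : ∀ ξ : F, ∀ᶠ s in 𝓝 s₀, ContDiffAt ℝ ∞ (fun s => N s ξ) s) :
    ∀ᶠ s in 𝓝 s₀, ContDiffAt ℝ ∞ N s := by
  let b := Module.finBasis ℝ F
  have h1 : ∀ᶠ s in 𝓝 s₀, ∀ i, ContDiffAt ℝ ∞ (fun s => N s (b i)) s :=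
    eventually_all.2 fun i => h (b i)
  obtain ⟨U, hU, hUo, hs⟩ := mem_nhds_iff.1 h1
  have h2 : ContDiffOn ℝ ∞ N U := by
    refine contDiffOn_clm_apply.2 fun ξ => ?_
    have h3 : (fun s => N s ξ) = fun s => ∑ i, b.repr ξ i • N s (b i) := by
      funext s
      conv_lhs => rw [← b.sum_repr ξ]
      rw [map_sum]
      simp only [map_smul]
    rw [h3]
    exact ContDiffOn.sum fun i _ => contDiffOn_const.smul fun s hs' =>
      ((hU hs') i).contDiffWithinAt
  filter_upwards [hUo.mem_nhds hs] with s hs'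
  exact h2.contDiffAt (hUo.mem_nhds hs')

variable {E : Type*} [NormedAddCommGroup E] [NormedSpace ℝ E]
  {M : Type*} [MetricSpace M] [ChartedSpace E M]
  [RiemannianBundle (fun x : M => TangentSpace 𝓘(ℝ, E) x)]
  {e : ∀ x : M, TangentSpace 𝓘(ℝ, E) x → M}
  [FiniteDimensional ℝ E] [IsManifold 𝓘(ℝ, E) ∞ M]
  [IsContMDiffRiemannianBundle 𝓘(ℝ, E) ∞ E (fun x : M => TangentSpace 𝓘(ℝ, E) x)]

/-- **Smoothness of solutions**: if `L s` is a smooth family of injective linear maps of tangent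
spaces and `L s (a s)` is smooth then `a` is smooth. -/
theorem smV_solve {V : Type*} [NormedAddCommGroup V] [NormedSpace ℝ V] {f g : V → M} {s₀ : V}
    {L : V → E →ₗ[ℝ] E} (hf : ∀ᶠ s in 𝓝 s₀, ContMDiffAt 𝓘(ℝ, V) 𝓘(ℝ, E) ∞ f s)
    (hL : ∀ ξ : E, ∀ᶠ s in 𝓝 s₀, SmV (E := E) g (fun s => L s (vec (f s₀) (f s) ξ)) s)
    (hinj : ∀ᶠ s in 𝓝 s₀, Function.Injective (L s))
    {a : V → E} (ha : ∀ᶠ s in 𝓝 s₀, SmV (E := E) g (fun s => L s (a s)) s) :
    ∀ᶠ s in 𝓝 s₀, SmV (E := E) f (fun s => a s) s := by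
  have hfc : ContinuousAt f s₀ := hf.self_of_nhds.continuousAt
  have hgc : ContinuousAt g s₀ := ha.self_of_nhds.base.continuousAt
  have hfs : ∀ᶠ s in 𝓝 s₀, f s ∈ (extChartAt 𝓘(ℝ, E) (f s₀)).source :=
    hfc.eventually ((isOpen_extChartAt_source (I := 𝓘(ℝ, E)) (f s₀)).mem_nhds
      (mem_extChartAt_source (f s₀)))
  have hgs : ∀ᶠ s in 𝓝 s₀, g s ∈ (extChartAt 𝓘(ℝ, E) (g s₀)).source :=
    hgc.eventually ((isOpen_extChartAt_source (I := 𝓘(ℝ, E)) (g s₀)).mem_nhds
      (mem_extChartAt_source (g s₀)))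
  -- the family in charts
  let N : V → E →L[ℝ] E := fun s => LinearMap.toContinuousLinearMap
    ({ toFun := fun ξ => crd (g s₀) (g s) (L s (vec (f s₀) (f s) ξ) : E)
       map_add' := fun ξ η => by
        have h1 : (vec (f s₀) (f s) (ξ + η) : E) =
          (vec (f s₀) (f s) ξ : E) + (vec (f s₀) (f s) η : E) := map_add (vec (f s₀) (f s)) ξ η
        have h2 : L s (vec (f s₀) (f s) (ξ + η) : E) = L s (vec (f s₀) (f s) ξ : E) +
          L s (vec (f s₀) (f s) η : E) := (congrArg (L s) h1).trans (map_add (L s) _ _)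
        exact (congrArg (fun z : E => (crd (g s₀) (g s) (z : E) : E)) h2).trans
          (map_add (crd (g s₀) (g s)) _ _)
       map_smul' := fun c ξ => by
        have h1 : (vec (f s₀) (f s) (c • ξ) : E) = c • (vec (f s₀) (f s) ξ : E) :=
          map_smul (vec (f s₀) (f s)) c ξ
        have h2 : L s (vec (f s₀) (f s) (c • ξ) : E) = c • L s (vec (f s₀) (f s) ξ : E) :=
          (congrArg (L s) h1).trans (map_smul (L s) _ _)
        exact (congrArg (fun z : E => (crd (g s₀) (g s) (z : E) : E)) h2).trans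
          (map_smul (crd (g s₀) (g s)) c _) } : E →ₗ[ℝ] E)
  have hN : ∀ᶠ s in 𝓝 s₀, ContDiffAt ℝ ∞ N s := by
    refine sm_clm fun ξ => ?_
    filter_upwards [hL ξ, hgs] with s h1 h2
    exact ((smV_iff (E := E) (g s₀) h2).1 h1).2
  have hinjN : ∀ᶠ s in 𝓝 s₀, Function.Injective (N s) := by
    filter_upwards [hinj, hfs, hgs] with s h1 h2 h3
    intro ξ η h
    have h4 : (crd (g s₀) (g s) (L s (vec (f s₀) (f s) ξ) : E) : E) =
      crd (g s₀) (g s) (L s (vec (f s₀) (f s) η) : E) := h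
    have h5 := congrArg (fun z : E => (vec (g s₀) (g s) z : E)) h4
    have h6 : ∀ z : E, (vec (g s₀) (g s) (crd (g s₀) (g s) (z : E)) : E) = z := fun z =>
      vec_crd (g s₀) h3 z
    have h7 := h1 ((h6 _).symm.trans (h5.trans (h6 _)))
    have h8 := congrArg (fun z : E => (crd (f s₀) (f s) (z : E) : E)) h7
    have h9 : ∀ z : E, (crd (f s₀) (f s) (vec (f s₀) (f s) z) : E) = z := fun z =>
      crd_vec (f s₀) h2 z
    exact (h9 _).symm.trans (h8.trans (h9 _))
  -- the solution in charts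
  have hsol : ∀ᶠ s in 𝓝 s₀, (a s : E) =
      vec (f s₀) (f s) ((N s).inverse (crd (g s₀) (g s) (L s (a s) : E))) := by
    filter_upwards [hinjN, hfs] with s h1 h2
    let T : E ≃L[ℝ] E := (LinearEquiv.ofInjectiveEndo (N s : E →ₗ[ℝ] E) h1).toContinuousLinearEquiv
    have hT : (T : E →L[ℝ] E) = N s := by
      ext z
      rfl
    have h3 : N s (crd (f s₀) (f s) (a s : E)) = crd (g s₀) (g s) (L s (a s) : E) := by
      change (crd (g s₀) (g s) (L s (vec (f s₀) (f s) (crd (f s₀) (f s) (a s : E))) : E) : E) = _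
      have h4 : (vec (f s₀) (f s) (crd (f s₀) (f s) (a s : E)) : E) = a s :=
        vec_crd (f s₀) h2 (a s)
      rw [h4]
    have h5 : (N s).inverse (crd (g s₀) (g s) (L s (a s) : E)) = crd (f s₀) (f s) (a s : E) := by
      rw [← h3, ← hT, ContinuousLinearMap.inverse_equiv]
      exact T.symm_apply_apply _
    rw [h5]
    exact (vec_crd (f s₀) h2 (a s)).symm
  filter_upwards [hN, hinjN, hfs, hgs, ha, hf, eventually_eventually_nhds.2 hsol] with
    s g1 g2 g3 g4 g5 g6 g7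
  have h1 : ContDiffAt ℝ ∞ (fun s => crd (g s₀) (g s) (L s (a s) : E)) s :=
    ((smV_iff (E := E) (g s₀) g4).1 g5).2
  have h2 : ContDiffAt ℝ ∞ (fun s => (N s).inverse) s := by
    let T : E ≃L[ℝ] E := (LinearEquiv.ofInjectiveEndo (N s : E →ₗ[ℝ] E) g2).toContinuousLinearEquiv
    have hT : (T : E →L[ℝ] E) = N s := by
      ext z
      rfl
    have h3 : ContDiffAt ℝ ∞ (ContinuousLinearMap.inverse : (E →L[ℝ] E) → (E →L[ℝ] E)) (N s) := by
      rw [← hT]
      exact contDiffAt_map_inverse T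
    exact h3.comp s g1
  have h3 := smV_vec (E := E) (f s₀) g3 g6 (h2.clm_apply h1)
  exact h3.congr (g7.mono fun s' hs' => hs'.symm)

end

end Vale.Agent.P231.WR
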