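import Vale.Agent.P231.H512.CAlg
import Vale.Agent.P231.H512.Conj

/-! P231: for cut multiplicity three the projections `P u` come from an orthogonal quaternionic
structure (linear algebra).  First the abstract operator form `T`. -/

set_option maxSynthPendingDepth 3
set_option linter.unusedSectionVars false

open Module Set

namespace Vale.Agent.P231.WR

noncomputable section

open Vale.Agent.P231 Vale.Agent.P231.H512

variable {V : Type*} [NormedAddCommGroup V] [InnerProductSpace ℝ V]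

/-- three orthogonal complex structures satisfying the quaternion relations -/
structure QCS (I J K : V →ₗ[ℝ] V) : Prop where
  hI : OCS I
  hJ : OCS J
  hK : OCS K
  mul : ∀ v, I (J v) = K v

/-- `T u u` is `‖u‖²` times the projection onto `ℝ u + L_u` -/
structure QT (T : V →ₗ[ℝ] V →ₗ[ℝ] V →ₗ[ℝ] V) : Prop where
  comm : ∀ a b w, T a b w = T b a w
  symm : ∀ a b w w', (inner ℝ (T a b w) w' : ℝ) = inner ℝ w (T a b w')
  pair : ∀ a b c d, (inner ℝ (T a b c) d : ℝ) = inner ℝ (T c d a) b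
  idem : ∀ u w, T u u (T u u w) = (inner ℝ u u : ℝ) • T u u w
  self : ∀ u, T u u u = (inner ℝ u u : ℝ) • u
  clos : ∀ u v w, T u u v = (inner ℝ u u : ℝ) • v →
    (inner ℝ u u : ℝ) • T v v w = (inner ℝ v v : ℝ) • T u u w
  exi : ∀ u, (inner ℝ u u : ℝ) = 1 → ∃ e : Fin 3 → V, Orthonormal ℝ e ∧
    (∀ i, (inner ℝ u (e i) : ℝ) = 0) ∧ ∀ i, T u u (e i) = e i
  rank : ∀ u, (inner ℝ u u : ℝ) = 1 → ∀ e : Fin 3 → V, Orthonormal ℝ e →
    (∀ i, (inner ℝ u (e i) : ℝ) = 0) → (∀ i, T u u (e i) = e i) →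
    ∀ w, T u u w = (inner ℝ u w : ℝ) • u + ∑ i, (inner ℝ (e i) w : ℝ) • e i

variable {T : V →ₗ[ℝ] V →ₗ[ℝ] V →ₗ[ℝ] V}

theorem QT.zero_symm (h : QT T) {u v : V} (huv : T u u v = 0) : T v v u = 0 := by
  have h1 : (inner ℝ (T v v u) u : ℝ) = 0 := by rw [h.pair, huv, inner_zero_left]
  have h2 : (inner ℝ (T v v u) (T v v u) : ℝ) = 0 := by
    rw [← h.symm v v (T v v u) u, h.idem, inner_smul_left, h1, mul_zero]
  exact inner_self_eq_zero.1 h2

theorem QT.mul_zero (h : QT T) {u v : V} (huv : T u u v = 0) (w : V) :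
    T v v (T u u w) = 0 := by
  rcases eq_or_ne u 0 with rfl | hu
  · simp
  · have h1 : T u u (T u u w) = (inner ℝ u u : ℝ) • T u u w := h.idem u w
    have h2 := h.clos u (T u u w) v h1
    rw [huv, smul_zero] at h2
    have h3 : T (T u u w) (T u u w) v = 0 :=
      (smul_eq_zero.1 h2).resolve_left (inner_self_ne_zero.2 hu)
    exact h.zero_symm h3

theorem QT.orth (h : QT T) {u v : V} (huv : T u u v = 0) : (inner ℝ u v : ℝ) = 0 := by
  rcases eq_or_ne u 0 with rfl | hu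
  · simp
  · have h1 := h.symm u u u v
    rw [h.self, huv, inner_smul_left, inner_zero_right] at h1
    exact (mul_eq_zero.1 h1).resolve_left (by simpa using hu)

theorem QT.expand (h : QT T) {u v : V} (huv : T u u v = 0) (w : V) (s : ℝ) :
    s • ((2 : ℝ) • T u u (T u v w) + (2 : ℝ) • T u v (T u u w) -
      (2 * inner ℝ u u : ℝ) • T u v w) +
    s ^ 2 • ((4 : ℝ) • T u v (T u v w) - (inner ℝ u u : ℝ) • T v v w -
      (inner ℝ v v : ℝ) • T u u w) +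
    s ^ 3 • ((2 : ℝ) • T u v (T v v w) + (2 : ℝ) • T v v (T u v w) -
      (2 * inner ℝ v v : ℝ) • T u v w) = 0 := by
  have h0 := h.orth huv
  have h0' : (inner ℝ v u : ℝ) = 0 := by rw [real_inner_comm]; exact h0
  have h1 := h.idem (u + s • v) w
  have h2 : ∀ x, T v u x = T u v x := fun x => h.comm v u x
  have h3 := h.mul_zero huv w
  have h4 := h.mul_zero (h.zero_symm huv) w
  have h5 := h.idem u w
  have h6 := h.idem v w
  simp only [map_add, map_smul, LinearMap.add_apply, LinearMap.smul_apply, inner_add_left,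
    inner_add_right, inner_smul_left, inner_smul_right, RCLike.conj_to_real, h0, h0', h2, h3, h4,
    h5, h6, smul_add, smul_zero, add_zero, zero_add] at h1
  rw [← sub_eq_zero] at h1
  rw [← h1]
  module

theorem QT.XX (h : QT T) {u v : V} (huv : T u u v = 0) (w : V) :
    (4 : ℝ) • T u v (T u v w) = (inner ℝ u u : ℝ) • T v v w + (inner ℝ v v : ℝ) • T u u w := by
  have h1 := h.expand huv w 1
  have h2 := h.expand huv w (-1)
  linear_combination (norm := module) ((1 : ℝ) / 2) • h1 + ((1 : ℝ) / 2) • h2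

theorem QT.AX (h : QT T) {u v : V} (huv : T u u v = 0) (w : V) :
    T u u (T u v w) + T u v (T u u w) = (inner ℝ u u : ℝ) • T u v w := by
  have h1 := h.expand huv w 1
  have h2 := h.expand huv w (-1)
  have h3 := h.expand huv w 2
  linear_combination (norm := module) ((1 : ℝ) / 2) • h1 - ((1 : ℝ) / 4) • (h1 + h2) - ((1 : ℝ) / 12) • (h3 - (3 : ℝ) • h1 - h2)

theorem QT.expand_self (h : QT T) {u v : V} (huv : T u u v = 0) (s : ℝ) :
    s • ((2 : ℝ) • T u v u - (inner ℝ u u : ℝ) • v) +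
    s ^ 2 • ((2 : ℝ) • T u v v - (inner ℝ v v : ℝ) • u) = 0 := by
  have h0 := h.orth huv
  have h0' : (inner ℝ v u : ℝ) = 0 := by rw [real_inner_comm]; exact h0
  have h1 := h.self (u + s • v)
  have h2 : ∀ x, T v u x = T u v x := fun x => h.comm v u x
  have h3 := h.zero_symm huv
  have h5 := h.self u
  have h6 := h.self v
  simp only [map_add, map_smul, LinearMap.add_apply, LinearMap.smul_apply, inner_add_left,
    inner_add_right, inner_smul_left, inner_smul_right, RCLike.conj_to_real, h0, h0', h2, h3,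
    h5, h6, huv, smul_add, smul_zero, add_zero, zero_add] at h1
  rw [← sub_eq_zero] at h1
  rw [← h1]
  module

theorem QT.Xu (h : QT T) {u v : V} (huv : T u u v = 0) :
    (2 : ℝ) • T u v u = (inner ℝ u u : ℝ) • v := by
  have h1 := h.expand_self huv 1
  have h2 := h.expand_self huv (-1)
  linear_combination (norm := module) ((1 : ℝ) / 2) • h1 - ((1 : ℝ) / 2) • h2

theorem QT.Xv (h : QT T) {u v : V} (huv : T u u v = 0) :
    (2 : ℝ) • T u v v = (inner ℝ v v : ℝ) • u := by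
  have h1 := h.expand_self huv 1
  have h2 := h.expand_self huv (-1)
  linear_combination (norm := module) ((1 : ℝ) / 2) • h1 + ((1 : ℝ) / 2) • h2

/-! ### a base point `u₀` -/

/-- the Clifford action `ρ y v = 2 T u₀ v y` -/
def rho (T : V →ₗ[ℝ] V →ₗ[ℝ] V →ₗ[ℝ] V) (u₀ : V) : V →ₗ[ℝ] V →ₗ[ℝ] V :=
  (2 : ℝ) • (T u₀).flip

theorem rho_apply (u₀ y v : V) : rho T u₀ y v = (2 : ℝ) • T u₀ v y := rfl

variable {u₀ : V}

theorem QT.clos1 (h : QT T) (hu : (inner ℝ u₀ u₀ : ℝ) = 1) {b : V} (hb : T u₀ u₀ b = b) (w : V) :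
    T b b w = (inner ℝ b b : ℝ) • T u₀ u₀ w := by
  have h1 := h.clos u₀ b w (by rw [hu, one_smul, hb])
  rwa [hu, one_smul] at h1

theorem QT.kill (h : QT T) {v b : V} (hv : T u₀ u₀ v = 0)
    (hb : T u₀ u₀ b = b) : T v v b = 0 := by
  have h1 := h.mul_zero hv b
  rwa [hb] at h1

theorem QT.kill' (h : QT T) (hu : (inner ℝ u₀ u₀ : ℝ) = 1) {v b : V} (hv : T u₀ u₀ v = 0)
    (hb : T u₀ u₀ b = b) : T b b v = 0 := by
  rw [h.clos1 hu hb, hv, smul_zero]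

theorem QT.rho_one (h : QT T) (hu : (inner ℝ u₀ u₀ : ℝ) = 1) {v : V} (hv : T u₀ u₀ v = 0) :
    rho T u₀ u₀ v = v := by
  rw [rho_apply, h.Xu hv, hu, one_smul]

theorem QT.rho_mem (h : QT T) (hu : (inner ℝ u₀ u₀ : ℝ) = 1) {v y : V} (hv : T u₀ u₀ v = 0)
    (hy : T u₀ u₀ y = y) : T u₀ u₀ (rho T u₀ y v) = 0 := by
  have h1 := h.AX hv y
  rw [hy, hu, one_smul] at h1
  rw [rho_apply, map_smul, add_eq_right.1 h1, smul_zero]

theorem QT.rho_XX (h : QT T) {v y : V} (hv : T u₀ u₀ v = 0)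
    (hy : T u₀ u₀ y = y) :
    (2 : ℝ) • T u₀ v (rho T u₀ y v) = (inner ℝ v v : ℝ) • y := by
  have h1 := h.XX hv y
  rw [h.kill hv hy, hy, smul_zero, zero_add] at h1
  rw [← h1, rho_apply, map_smul, smul_smul]
  norm_num

theorem QT.rho_fib (h : QT T) (hu : (inner ℝ u₀ u₀ : ℝ) = 1) {v y : V} (hv : T u₀ u₀ v = 0)
    (hy : T u₀ u₀ y = y) :
    T v v (rho T u₀ y v) = (inner ℝ v v : ℝ) • rho T u₀ y v := by
  have h1 := h.XX hv (rho T u₀ y v)
  rw [h.rho_mem hu hv hy, smul_zero, add_zero, hu, one_smul] at h1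
  have h2 : T u₀ v ((2 : ℝ) • T u₀ v (rho T u₀ y v)) = T u₀ v ((inner ℝ v v : ℝ) • y) := by
    rw [h.rho_XX hv hy]
  rw [map_smul, map_smul] at h2
  rw [← h1, rho_apply u₀ y v, smul_smul, mul_comm, ← smul_smul, ← h2, smul_smul,
    ← rho_apply u₀ y v]
  norm_num

theorem QT.rho_inner (h : QT T) {v y : V} (hv : T u₀ u₀ v = 0)
    (hy : T u₀ u₀ y = y) (y' : V) :
    (inner ℝ (rho T u₀ y v) (rho T u₀ y' v) : ℝ) = inner ℝ y y' * inner ℝ v v := by
  have h2 : (inner ℝ ((2 : ℝ) • T u₀ v (rho T u₀ y v)) y' : ℝ) =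
      inner ℝ ((inner ℝ v v : ℝ) • y) y' := by rw [h.rho_XX hv hy]
  rw [inner_smul_left, inner_smul_left, h.symm] at h2
  simp only [RCLike.conj_to_real] at h2
  rw [rho_apply u₀ y' v, inner_smul_right, h2, mul_comm]

/-- `ρ y` is skew-symmetric up to a scalar part -/
theorem QT.rho_skew (h : QT T) {v : V} (y : V) (hv : T u₀ u₀ v = 0) :
    (inner ℝ (rho T u₀ y v) v : ℝ) = inner ℝ u₀ y * inner ℝ v v := by
  have h2 : (inner ℝ ((2 : ℝ) • T u₀ v v) y : ℝ) = inner ℝ ((inner ℝ v v : ℝ) • u₀) y := by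
    rw [h.Xv hv]
  rw [inner_smul_left, inner_smul_left] at h2
  simp only [RCLike.conj_to_real] at h2
  rw [rho_apply, inner_smul_left, h.symm, real_inner_comm]
  simp only [RCLike.conj_to_real]
  rw [h2, mul_comm]

/-- polarised version of `rho_skew` -/
theorem QT.rho_skew2 (h : QT T) {v w : V} (y : V) (hv : T u₀ u₀ v = 0) (hw : T u₀ u₀ w = 0) :
    (inner ℝ (rho T u₀ y v) w : ℝ) + inner ℝ (rho T u₀ y w) v =
      2 * inner ℝ u₀ y * inner ℝ v w := by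
  have h1 := h.rho_skew y (v := v + w) (by rw [map_add, hv, hw, add_zero])
  have h2 := h.rho_skew y hv
  have h3 := h.rho_skew y hw
  simp only [map_add, inner_add_left, inner_add_right] at h1
  rw [real_inner_comm v w] at h1
  linarith

/-- the base point may be moved inside the fibre -/
theorem QT.shift (h : QT T) (hu : (inner ℝ u₀ u₀ : ℝ) = 1) {b v : V} (hb : T u₀ u₀ b = b)
    (hv : T u₀ u₀ v = 0) (w : V) :
    T b (rho T u₀ b v) w = (inner ℝ b b : ℝ) • T u₀ v w := by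
  rcases eq_or_ne v 0 with rfl | hv0
  · simp
  have hvv : (inner ℝ v v : ℝ) ≠ 0 := inner_self_ne_zero.2 hv0
  set r := rho T u₀ b v with hr
  have hr0 : T u₀ u₀ r = 0 := h.rho_mem hu hv hb
  have a1 : (2 : ℝ) • T u₀ v b = r := rfl
  have a2 := h.rho_XX hv hb
  rw [← hr] at a2
  have a3 := h.rho_fib hu hv hb
  rw [← hr] at a3
  have a4 := h.kill hv hb
  have a5 : ∀ x, T v u₀ x = T u₀ v x := fun x => h.comm v u₀ x
  have c1 : (inner ℝ u₀ v : ℝ) = 0 := h.orth hv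
  have c1' : (inner ℝ v u₀ : ℝ) = 0 := by rw [real_inner_comm]; exact c1
  have c2 : (inner ℝ b r : ℝ) = 0 := h.orth (h.kill' hu hr0 hb)
  have c2' : (inner ℝ r b : ℝ) = 0 := by rw [real_inner_comm]; exact c2
  have c3 : (inner ℝ r r : ℝ) = inner ℝ b b * inner ℝ v v := h.rho_inner hv hb b
  have h1 : T (u₀ + v) (u₀ + v) (b + r) = (inner ℝ (u₀ + v) (u₀ + v) : ℝ) • (b + r) := by
    simp only [map_add, LinearMap.add_apply, inner_add_left, inner_add_right, a5, hb, hr0, a3, a4,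
      c1, c1', hu]
    linear_combination (norm := module) a1 + a2
  have h2 := h.clos (u₀ + v) (b + r) w h1
  have a6 : ∀ x, T r b x = T b r x := fun x => h.comm r b x
  have h3 := h.clos v r w a3
  rw [c3, mul_comm, ← smul_smul] at h3
  have h4 : T r r w = (inner ℝ b b : ℝ) • T v v w := smul_right_injective V hvv h3
  simp only [map_add, LinearMap.add_apply, inner_add_left, inner_add_right, a5, a6, c1, c1', c2,
    c2', c3, hu, h4, h.clos1 hu hb] at h2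
  have h5 : (1 + inner ℝ v v : ℝ) ≠ 0 := by
    have := real_inner_self_nonneg (x := v)
    positivity
  have h6 : (1 + inner ℝ v v : ℝ) • T b r w = (1 + inner ℝ v v : ℝ) • (inner ℝ b b : ℝ) • T u₀ v w := by
    linear_combination (norm := module) ((1 : ℝ) / 2) • h2
  exact smul_right_injective V h5 h6

/-- the quadratic relation -/
theorem QT.rho_sq (h : QT T) (hu : (inner ℝ u₀ u₀ : ℝ) = 1) {b v : V} (hb : T u₀ u₀ b = b)
    (hv : T u₀ u₀ v = 0) :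
    rho T u₀ b (rho T u₀ b v) =
      (2 * inner ℝ u₀ b : ℝ) • rho T u₀ b v - (inner ℝ b b : ℝ) • v := by
  have hu' : T u₀ u₀ u₀ = u₀ := by rw [h.self, hu, one_smul]
  have hbu : T u₀ u₀ (b + u₀) = b + u₀ := by rw [map_add, hb, hu']
  set r := rho T u₀ b v with hr
  have hr0 : T u₀ u₀ r = 0 := h.rho_mem hu hv hb
  have e1 := h.Xu (h.kill' hu hr0 hbu)
  have e2 := h.Xu (h.kill' hu hr0 hb)
  have e3 := h.Xu hr0
  have e4 := h.shift hu hb hv u₀
  have e5 := h.Xu hv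
  rw [← hr] at e4
  rw [hu, one_smul] at e3 e5
  simp only [map_add, LinearMap.add_apply, inner_add_left, inner_add_right, hu,
    real_inner_comm b u₀] at e1
  rw [rho_apply, real_inner_comm b u₀]
  linear_combination (norm := module) e1 - e2 - e3 - (2 : ℝ) • e4 - (inner ℝ b b : ℝ) • e5

/-- polarised -/
theorem QT.rho_anti (h : QT T) (hu : (inner ℝ u₀ u₀ : ℝ) = 1) {b c v : V} (hb : T u₀ u₀ b = b)
    (hc : T u₀ u₀ c = c) (hv : T u₀ u₀ v = 0) :
    rho T u₀ b (rho T u₀ c v) + rho T u₀ c (rho T u₀ b v) =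
      (2 * inner ℝ u₀ b : ℝ) • rho T u₀ c v + (2 * inner ℝ u₀ c : ℝ) • rho T u₀ b v -
        (2 * inner ℝ b c : ℝ) • v := by
  have h1 := h.rho_sq hu (b := b + c) (by rw [map_add, hb, hc]) hv
  have h2 := h.rho_sq hu hb hv
  have h3 := h.rho_sq hu hc hv
  simp only [map_add, LinearMap.add_apply, inner_add_left, inner_add_right] at h1
  rw [real_inner_comm b c] at h1
  linear_combination (norm := module) h1 - h2 - h3

/-- the first key identity -/
theorem QT.key1 (h : QT T) (hu : (inner ℝ u₀ u₀ : ℝ) = 1) {a c v : V} {m : V →ₗ[ℝ] V}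
    (ha : T u₀ u₀ a = a) (hv : T u₀ u₀ v = 0)
    (hm : ∀ v, T u₀ u₀ v = 0 → rho T u₀ c v = m (rho T u₀ a v)) :
    (2 : ℝ) • T a v c = (inner ℝ a a : ℝ) • m v := by
  rcases eq_or_ne a 0 with rfl | ha0
  · simp
  have haa : (inner ℝ a a : ℝ) ≠ 0 := inner_self_ne_zero.2 ha0
  have hu' : T u₀ u₀ u₀ = u₀ := by rw [h.self, hu, one_smul]
  set a' : V := (2 * inner ℝ u₀ a : ℝ) • u₀ - a with ha'
  have ha'Q : T u₀ u₀ a' = a' := by rw [ha', map_sub, map_smul, hu', ha]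
  set v' : V := rho T u₀ a' v with hv'
  have hv'0 : T u₀ u₀ v' = 0 := h.rho_mem hu hv ha'Q
  have e1 : rho T u₀ a v' = (inner ℝ a a : ℝ) • v := by
    rw [hv', ha', map_sub, map_smul, LinearMap.sub_apply, LinearMap.smul_apply, h.rho_one hu hv,
      map_sub, map_smul, h.rho_sq hu ha hv]
    module
  have e2 := h.shift hu ha hv'0 c
  rw [e1, map_smul, LinearMap.smul_apply] at e2
  have e3 : T a v c = T u₀ v' c := smul_right_injective V haa e2
  rw [e3, ← rho_apply, hm v' hv'0, e1, map_smul]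

/-- the second key identity -/
theorem QT.key2 (h : QT T) (hu : (inner ℝ u₀ u₀ : ℝ) = 1) {a c v : V} {m : V →ₗ[ℝ] V}
    (ha : T u₀ u₀ a = a) (hc : T u₀ u₀ c = c) (hv : T u₀ u₀ v = 0)
    (hm : ∀ v, T u₀ u₀ v = 0 → rho T u₀ c v = m (rho T u₀ a v)) :
    (2 : ℝ) • T a v (m v) = (inner ℝ v v : ℝ) • c := by
  rcases eq_or_ne v 0 with rfl | hv0
  · simp
  have hvv : (inner ℝ v v : ℝ) ≠ 0 := inner_self_ne_zero.2 hv0
  rcases eq_or_ne a 0 with rfl | ha0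
  · have h1 := h.rho_inner hv hc c
    rw [hm v hv] at h1
    simp only [map_zero, LinearMap.zero_apply, inner_zero_left] at h1
    have h2 : (inner ℝ c c : ℝ) = 0 := (mul_eq_zero.1 h1.symm).resolve_right hvv
    rw [inner_self_eq_zero.1 h2]
    simp
  have haa : (inner ℝ a a : ℝ) ≠ 0 := inner_self_ne_zero.2 ha0
  have e1 := h.key1 hu ha hv hm
  have e2 := h.XX (h.kill' hu hv ha) c
  rw [h.kill hv hc, smul_zero, zero_add, h.clos1 hu ha, hc] at e2
  have e3 : T a v ((2 : ℝ) • T a v c) = T a v ((inner ℝ a a : ℝ) • m v) := by rw [e1]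
  rw [map_smul, map_smul] at e3
  have e4 : (inner ℝ a a : ℝ) • (2 : ℝ) • T a v (m v) =
      (inner ℝ a a : ℝ) • (inner ℝ v v : ℝ) • c := by
    linear_combination (norm := module) e2 - (2 : ℝ) • e3
  exact smul_right_injective V haa e4

/-- the fibre condition -/
theorem QT.key3 (h : QT T) (hu : (inner ℝ u₀ u₀ : ℝ) = 1) {a c v x : V}
    (ha : T u₀ u₀ a = a) (hc : T u₀ u₀ c = c) (hv : T u₀ u₀ v = 0) (hx : T u₀ u₀ x = x)
    (hm : ∀ v, T u₀ u₀ v = 0 → rho T u₀ c v = rho T u₀ x (rho T u₀ a v)) :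
    T (a + v) (a + v) (c + rho T u₀ x v) =
      (inner ℝ (a + v) (a + v) : ℝ) • (c + rho T u₀ x v) := by
  have e1 := h.key1 hu ha hv hm
  have e2 := h.key2 hu ha hc hv hm
  have e3 := h.clos1 hu ha c
  rw [hc] at e3
  have e4 := h.kill hv hc
  have e5 := h.rho_fib hu hv hx
  have e6 := h.clos1 hu ha (rho T u₀ x v)
  rw [h.rho_mem hu hv hx, smul_zero] at e6
  have e7 : (inner ℝ a v : ℝ) = 0 := h.orth (h.kill' hu hv ha)
  have e7' : (inner ℝ v a : ℝ) = 0 := by rw [real_inner_comm]; exact e7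
  have e8 : ∀ z, T v a z = T a v z := fun z => h.comm v a z
  simp only [map_add, LinearMap.add_apply, inner_add_left, inner_add_right, e3, e4, e5, e6, e7,
    e7', e8]
  linear_combination (norm := module) e1 + e2

/-! ### the sign -/

/-- an orthonormal frame of the fibre through `u₀` -/
structure Fr3 (T : V →ₗ[ℝ] V →ₗ[ℝ] V →ₗ[ℝ] V) (u₀ : V) (x : Fin 3 → V) : Prop where
  unit : (inner ℝ u₀ u₀ : ℝ) = 1
  on : Orthonormal ℝ x
  perp : ∀ i, (inner ℝ u₀ (x i) : ℝ) = 0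
  mem : ∀ i, T u₀ u₀ (x i) = x i

variable {x : Fin 3 → V}

theorem Fr3.ii (f : Fr3 T u₀ x) (i : Fin 3) : (inner ℝ (x i) (x i) : ℝ) = 1 := by
  rw [real_inner_self_eq_norm_sq, f.on.1 i]
  norm_num

theorem Fr3.ij (f : Fr3 T u₀ x) {i j : Fin 3} (hij : i ≠ j) : (inner ℝ (x i) (x j) : ℝ) = 0 :=
  f.on.2 hij

theorem Fr3.sq (h : QT T) (f : Fr3 T u₀ x) (i : Fin 3) {v : V} (hv : T u₀ u₀ v = 0) :
    rho T u₀ (x i) (rho T u₀ (x i) v) = -v := by
  rw [h.rho_sq f.unit (f.mem i) hv, f.perp, f.ii]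
  module

theorem Fr3.anti (h : QT T) (f : Fr3 T u₀ x) {i j : Fin 3} (hij : i ≠ j) {v : V}
    (hv : T u₀ u₀ v = 0) :
    rho T u₀ (x i) (rho T u₀ (x j) v) = -rho T u₀ (x j) (rho T u₀ (x i) v) := by
  have h1 := h.rho_anti f.unit (f.mem i) (f.mem j) hv
  rw [f.perp, f.perp, f.ij hij] at h1
  linear_combination (norm := module) h1

theorem Fr3.skew (h : QT T) (f : Fr3 T u₀ x) (i : Fin 3) {v w : V} (hv : T u₀ u₀ v = 0)
    (hw : T u₀ u₀ w = 0) :
    (inner ℝ (rho T u₀ (x i) v) w : ℝ) = -inner ℝ v (rho T u₀ (x i) w) := by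
  have h1 := h.rho_skew2 (x i) hv hw
  rw [f.perp, real_inner_comm v (rho T u₀ (x i) w)] at h1
  linarith

theorem Fr3.isom (h : QT T) (f : Fr3 T u₀ x) (i : Fin 3) {v w : V} (hv : T u₀ u₀ v = 0)
    (hw : T u₀ u₀ w = 0) :
    (inner ℝ (rho T u₀ (x i) v) (rho T u₀ (x i) w) : ℝ) = inner ℝ v w := by
  rw [f.skew h i hv (h.rho_mem f.unit hw (f.mem i)), f.sq h i hw, inner_neg_right, neg_neg]

theorem Fr3.prod_unit (h : QT T) (f : Fr3 T u₀ x) {v : V} (hv : T u₀ u₀ v = 0)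
    (hv1 : (inner ℝ v v : ℝ) = 1) :
    rho T u₀ (x 0) (rho T u₀ (x 1) v) =
      (inner ℝ (rho T u₀ (x 2) v) (rho T u₀ (x 0) (rho T u₀ (x 1) v)) : ℝ) •
        rho T u₀ (x 2) v := by
  have hW : ∀ i, T u₀ u₀ (rho T u₀ (x i) v) = 0 := fun i => h.rho_mem f.unit hv (f.mem i)
  have hin : ∀ i j, (inner ℝ (rho T u₀ (x i) v) (rho T u₀ (x j) v) : ℝ) = inner ℝ (x i) (x j) :=
    fun i j => by rw [h.rho_inner hv (f.mem i), hv1, mul_one]
  have hon : Orthonormal ℝ (fun i => rho T u₀ (x i) v) := by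
    rw [orthonormal_iff_ite]
    intro i j
    have := (orthonormal_iff_ite.1 f.on) i j
    rw [hin, this]
  have hpv : ∀ i, (inner ℝ v (rho T u₀ (x i) v) : ℝ) = 0 := fun i => by
    rw [real_inner_comm, h.rho_skew _ hv, f.perp, zero_mul]
  have hfi : ∀ i, T v v (rho T u₀ (x i) v) = rho T u₀ (x i) v := fun i => by
    rw [h.rho_fib f.unit hv (f.mem i), hv1, one_smul]
  have h1 := h.rank v hv1 _ hon hpv hfi (rho T u₀ (x 0) (rho T u₀ (x 1) v))
  have h2 : T v v (rho T u₀ (x 0) (rho T u₀ (x 1) v)) = rho T u₀ (x 0) (rho T u₀ (x 1) v) := by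
    have h3 := h.clos v (rho T u₀ (x 1) v) (rho T u₀ (x 0) (rho T u₀ (x 1) v))
      (by rw [hfi, hv1, one_smul])
    rw [hv1, one_smul, hin, f.ii, one_smul, h.rho_fib f.unit (hW 1) (f.mem 0), hin, f.ii,
      one_smul] at h3
    exact h3.symm
  have h4 : (inner ℝ v (rho T u₀ (x 0) (rho T u₀ (x 1) v)) : ℝ) = 0 := by
    have := f.skew h 0 hv (hW 1)
    rw [hin, f.ij (by decide)] at this
    linarith
  have h5 : (inner ℝ (rho T u₀ (x 0) v) (rho T u₀ (x 0) (rho T u₀ (x 1) v)) : ℝ) = 0 := by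
    rw [f.isom h 0 hv (hW 1), hpv]
  have h6 : (inner ℝ (rho T u₀ (x 1) v) (rho T u₀ (x 0) (rho T u₀ (x 1) v)) : ℝ) = 0 := by
    rw [real_inner_comm, h.rho_skew _ (hW 1), f.perp, zero_mul]
  rw [h2, Fin.sum_univ_three, h4, h5, h6] at h1
  simpa using h1

theorem Fr3.prod_sq_unit (h : QT T) (f : Fr3 T u₀ x) {v : V} (hv : T u₀ u₀ v = 0)
    (hv1 : (inner ℝ v v : ℝ) = 1) :
    (inner ℝ (rho T u₀ (x 2) v) (rho T u₀ (x 0) (rho T u₀ (x 1) v)) : ℝ) ^ 2 = 1 := by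
  have hW : ∀ i, T u₀ u₀ (rho T u₀ (x i) v) = 0 := fun i => h.rho_mem f.unit hv (f.mem i)
  have hin : ∀ i j, (inner ℝ (rho T u₀ (x i) v) (rho T u₀ (x j) v) : ℝ) = inner ℝ (x i) (x j) :=
    fun i j => by rw [h.rho_inner hv (f.mem i), hv1, mul_one]
  set t : ℝ := inner ℝ (rho T u₀ (x 2) v) (rho T u₀ (x 0) (rho T u₀ (x 1) v)) with ht
  have h1 := f.prod_unit h hv hv1
  rw [← ht] at h1
  have h2 : (inner ℝ (rho T u₀ (x 0) (rho T u₀ (x 1) v)) (rho T u₀ (x 0) (rho T u₀ (x 1) v)) : ℝ)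
      = 1 := by
    rw [f.isom h 0 (hW 1) (hW 1), f.isom h 1 hv hv, hv1]
  rw [h1, inner_smul_left, inner_smul_right, hin, f.ii] at h2
  simp only [RCLike.conj_to_real] at h2
  linarith

/-- the projection onto the complement of the fibre -/
def prW (T : V →ₗ[ℝ] V →ₗ[ℝ] V →ₗ[ℝ] V) (u₀ : V) : V →ₗ[ℝ] V := LinearMap.id - T u₀ u₀

theorem prW_apply (v : V) : prW T u₀ v = v - T u₀ u₀ v := rfl

theorem QT.prW_mem (h : QT T) (hu : (inner ℝ u₀ u₀ : ℝ) = 1) (v : V) :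
    T u₀ u₀ (prW T u₀ v) = 0 := by
  rw [prW_apply, map_sub, h.idem, hu, one_smul, sub_self]

theorem Fr3.dich (h : QT T) (f : Fr3 T u₀ x) :
    (∀ v, T u₀ u₀ v = 0 → rho T u₀ (x 0) (rho T u₀ (x 1) v) = rho T u₀ (x 2) v) ∨
    (∀ v, T u₀ u₀ v = 0 → rho T u₀ (x 0) (rho T u₀ (x 1) v) = -rho T u₀ (x 2) v) := by
  let p := prW T u₀
  let a : V →ₗ[ℝ] V →ₗ[ℝ] ℝ := (innerₗ V).compl₁₂ (rho T u₀ (x 2) ∘ₗ p)
    (rho T u₀ (x 0) ∘ₗ rho T u₀ (x 1) ∘ₗ p)
  let b : V →ₗ[ℝ] V →ₗ[ℝ] ℝ := (innerₗ V).compl₁₂ p p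
  have ha : ∀ v, a v v = inner ℝ (rho T u₀ (x 2) (p v)) (rho T u₀ (x 0) (rho T u₀ (x 1) (p v))) :=
    fun v => rfl
  have hb : ∀ v, b v v = inner ℝ (p v) (p v) := fun v => rfl
  have hp : ∀ v, T u₀ u₀ v = 0 → p v = v := fun v hv => by
    show prW T u₀ v = v
    rw [prW_apply, hv, sub_zero]
  -- scaling
  have hsc : ∀ v : V, v ≠ 0 → ∃ c : ℝ, c ≠ 0 ∧ ∃ y : V, v = c • y ∧ (inner ℝ y y : ℝ) = 1 := by
    intro v hv
    have hn : ‖v‖ ≠ 0 := norm_ne_zero_iff.2 hv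
    refine ⟨‖v‖, hn, ‖v‖⁻¹ • v, ?_, ?_⟩
    · rw [smul_smul, mul_inv_cancel₀ hn, one_smul]
    · rw [inner_smul_left, inner_smul_right, real_inner_self_eq_norm_sq]
      simp only [RCLike.conj_to_real]
      field_simp
  have hab : ∀ v, (a - b) v v * (a + b) v v = 0 := by
    intro v
    simp only [LinearMap.sub_apply, LinearMap.add_apply, ha, hb]
    have hW := h.prW_mem f.unit v
    change T u₀ u₀ (p v) = 0 at hW
    generalize p v = w at hW
    rcases eq_or_ne w 0 with rfl | hw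
    · simp
    · obtain ⟨c, hc, y, rfl, hy⟩ := hsc w hw
      have hy0 : T u₀ u₀ y = 0 := by
        rw [map_smul] at hW
        exact (smul_eq_zero.1 hW).resolve_left hc
      have h1 := f.prod_sq_unit h hy0 hy
      simp only [map_smul, inner_smul_left, inner_smul_right, RCLike.conj_to_real, hy]
      linear_combination c ^ 4 * h1
  have key : ∀ ε : ℝ, (∀ v, a v v = ε * b v v) →
      ∀ v, T u₀ u₀ v = 0 → rho T u₀ (x 0) (rho T u₀ (x 1) v) = ε • rho T u₀ (x 2) v := by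
    intro ε hε v hv
    rcases eq_or_ne v 0 with rfl | hv0
    · simp
    · obtain ⟨c, hc, y, rfl, hy⟩ := hsc v hv0
      have hy0 : T u₀ u₀ y = 0 := by
        rw [map_smul] at hv
        exact (smul_eq_zero.1 hv).resolve_left hc
      have h1 := f.prod_unit h hy0 hy
      have h2 := hε y
      rw [ha, hb, hp y hy0, hy, mul_one] at h2
      rw [h2] at h1
      simp only [map_smul]
      rw [h1, smul_comm]
  rcases quad_mul_zero _ _ hab with h1 | h1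
  · left
    intro v hv
    have h2 := key 1 (fun v => by
      have := h1 v
      simp only [LinearMap.sub_apply] at this
      linarith) v hv
    rwa [one_smul] at h2
  · right
    intro v hv
    have h2 := key (-1) (fun v => by
      have := h1 v
      simp only [LinearMap.add_apply] at this
      linarith) v hv
    rwa [neg_one_smul] at h2

/-- a frame satisfying the quaternion relations -/
theorem QT.exists_frame (h : QT T) (hu : (inner ℝ u₀ u₀ : ℝ) = 1) :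
    ∃ x : Fin 3 → V, Fr3 T u₀ x ∧
      ∀ v, T u₀ u₀ v = 0 → rho T u₀ (x 0) (rho T u₀ (x 1) v) = rho T u₀ (x 2) v := by
  obtain ⟨e, he, he0, he1⟩ := h.exi u₀ hu
  have f : Fr3 T u₀ e := ⟨hu, he, he0, he1⟩
  rcases f.dich h with h1 | h1
  · exact ⟨e, f, h1⟩
  · refine ⟨![e 0, e 1, -e 2], ⟨hu, ?_, ?_, ?_⟩, ?_⟩
    · rw [orthonormal_iff_ite]
      have := orthonormal_iff_ite.1 he
      intro i j
      fin_cases i <;> fin_cases j <;> simp [this, he.1]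
    · intro i
      fin_cases i <;> simp [he0]
    · intro i
      fin_cases i <;> simp [he1]
    · intro v hv
      have h2 := h1 v hv
      simpa using h2

/-! ### the three complex structures -/

/-- an element in coordinates -/
def mkE (u₀ : V) (x : Fin 3 → V) (a b c d : ℝ) (v : V) : V :=
  a • u₀ + b • x 0 + c • x 1 + d • x 2 + v

/-- the first complex structure -/
def fI (T : V →ₗ[ℝ] V →ₗ[ℝ] V →ₗ[ℝ] V) (u₀ : V) (x : Fin 3 → V) : V →ₗ[ℝ] V :=
  -(innerₗ V (x 0)).smulRight u₀ + (innerₗ V u₀).smulRight (x 0) -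
    (innerₗ V (x 2)).smulRight (x 1) + (innerₗ V (x 1)).smulRight (x 2) +
      rho T u₀ (x 0) ∘ₗ prW T u₀

/-- the second complex structure -/
def fJ (T : V →ₗ[ℝ] V →ₗ[ℝ] V →ₗ[ℝ] V) (u₀ : V) (x : Fin 3 → V) : V →ₗ[ℝ] V :=
  -(innerₗ V (x 1)).smulRight u₀ + (innerₗ V (x 2)).smulRight (x 0) +
    (innerₗ V u₀).smulRight (x 1) - (innerₗ V (x 0)).smulRight (x 2) +
      rho T u₀ (x 1) ∘ₗ prW T u₀

theorem fI_apply (w : V) : fI T u₀ x w = -((inner ℝ (x 0) w : ℝ) • u₀) +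
    (inner ℝ u₀ w : ℝ) • x 0 - (inner ℝ (x 2) w : ℝ) • x 1 + (inner ℝ (x 1) w : ℝ) • x 2 +
      rho T u₀ (x 0) (prW T u₀ w) := rfl

theorem fJ_apply (w : V) : fJ T u₀ x w = -((inner ℝ (x 1) w : ℝ) • u₀) +
    (inner ℝ (x 2) w : ℝ) • x 0 + (inner ℝ u₀ w : ℝ) • x 1 - (inner ℝ (x 0) w : ℝ) • x 2 +
      rho T u₀ (x 1) (prW T u₀ w) := rfl

theorem Fr3.perpW (h : QT T) (f : Fr3 T u₀ x) (i : Fin 3) {v : V} (hv : T u₀ u₀ v = 0) :
    (inner ℝ (x i) v : ℝ) = 0 := h.orth (h.kill' f.unit hv (f.mem i))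

theorem Fr3.self (h : QT T) (f : Fr3 T u₀ x) : T u₀ u₀ u₀ = u₀ := by
  rw [h.self, f.unit, one_smul]

theorem Fr3.inner_mk (h : QT T) (f : Fr3 T u₀ x) (a b c d : ℝ) {v : V} (hv : T u₀ u₀ v = 0) :
    (inner ℝ u₀ (mkE u₀ x a b c d v) : ℝ) = a ∧ (inner ℝ (x 0) (mkE u₀ x a b c d v) : ℝ) = b ∧
      (inner ℝ (x 1) (mkE u₀ x a b c d v) : ℝ) = c ∧
        (inner ℝ (x 2) (mkE u₀ x a b c d v) : ℝ) = d := by
  have h1 : (inner ℝ u₀ v : ℝ) = 0 := h.orth hv
  have h2 : ∀ i, (inner ℝ (x i) u₀ : ℝ) = 0 := fun i => by rw [real_inner_comm, f.perp]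
  have h01 : (inner ℝ (x 0) (x 1) : ℝ) = 0 := f.ij (by decide)
  have h02 : (inner ℝ (x 0) (x 2) : ℝ) = 0 := f.ij (by decide)
  have h12 : (inner ℝ (x 1) (x 2) : ℝ) = 0 := f.ij (by decide)
  have h10 : (inner ℝ (x 1) (x 0) : ℝ) = 0 := f.ij (by decide)
  have h20 : (inner ℝ (x 2) (x 0) : ℝ) = 0 := f.ij (by decide)
  have h21 : (inner ℝ (x 2) (x 1) : ℝ) = 0 := f.ij (by decide)
  refine ⟨?_, ?_, ?_, ?_⟩ <;>
    simp only [mkE, inner_add_right, inner_smul_right, f.unit, f.perp, h1, h2, f.ii,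
      f.perpW h _ hv, h01, h02, h12, h10, h20, h21] <;> ring

theorem Fr3.T_mk (h : QT T) (f : Fr3 T u₀ x) (a b c d : ℝ) {v : V} (hv : T u₀ u₀ v = 0) :
    T u₀ u₀ (mkE u₀ x a b c d v) = mkE u₀ x a b c d 0 := by
  simp only [mkE, map_add, map_smul, f.self h, f.mem, hv]

theorem Fr3.prW_mk (h : QT T) (f : Fr3 T u₀ x) (a b c d : ℝ) {v : V} (hv : T u₀ u₀ v = 0) :
    prW T u₀ (mkE u₀ x a b c d v) = v := by
  rw [prW_apply, f.T_mk h a b c d hv, mkE, mkE]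
  abel

theorem Fr3.exists_mk (h : QT T) (f : Fr3 T u₀ x) (w : V) :
    ∃ a b c d : ℝ, ∃ v : V, T u₀ u₀ v = 0 ∧ w = mkE u₀ x a b c d v := by
  refine ⟨inner ℝ u₀ w, inner ℝ (x 0) w, inner ℝ (x 1) w, inner ℝ (x 2) w, prW T u₀ w,
    h.prW_mem f.unit w, ?_⟩
  have h1 := h.rank u₀ f.unit x f.on f.perp f.mem w
  rw [Fin.sum_univ_three] at h1
  rw [mkE, prW_apply, h1]
  abel

theorem Fr3.fI_mk (h : QT T) (f : Fr3 T u₀ x) (a b c d : ℝ) {v : V} (hv : T u₀ u₀ v = 0) :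
    fI T u₀ x (mkE u₀ x a b c d v) = mkE u₀ x (-b) a (-d) c (rho T u₀ (x 0) v) := by
  obtain ⟨h1, h2, h3, h4⟩ := f.inner_mk h a b c d hv
  rw [fI_apply, h1, h2, h3, h4, f.prW_mk h a b c d hv, mkE]
  module

theorem Fr3.fJ_mk (h : QT T) (f : Fr3 T u₀ x) (a b c d : ℝ) {v : V} (hv : T u₀ u₀ v = 0) :
    fJ T u₀ x (mkE u₀ x a b c d v) = mkE u₀ x (-c) d a (-b) (rho T u₀ (x 1) v) := by
  obtain ⟨h1, h2, h3, h4⟩ := f.inner_mk h a b c d hv
  rw [fJ_apply, h1, h2, h3, h4, f.prW_mk h a b c d hv, mkE]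
  module

theorem Fr3.mk_inner_mk (h : QT T) (f : Fr3 T u₀ x) (a b c d a' b' c' d' : ℝ) {v v' : V}
    (hv : T u₀ u₀ v = 0) (hv' : T u₀ u₀ v' = 0) :
    (inner ℝ (mkE u₀ x a b c d v) (mkE u₀ x a' b' c' d' v') : ℝ) =
      a * a' + b * b' + c * c' + d * d' + inner ℝ v v' := by
  obtain ⟨h1, h2, h3, h4⟩ := f.inner_mk h a' b' c' d' hv'
  have k1 : (inner ℝ v u₀ : ℝ) = 0 := by rw [real_inner_comm]; exact h.orth hv
  have k2 : ∀ i, (inner ℝ v (x i) : ℝ) = 0 := fun i => by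
    rw [real_inner_comm]; exact f.perpW h i hv
  have k3 : (inner ℝ v (mkE u₀ x a' b' c' d' v') : ℝ) = inner ℝ v v' := by
    simp only [mkE, inner_add_right, inner_smul_right, k1, k2]
    ring
  rw [mkE.eq_def u₀ x a b c d v]
  simp only [inner_add_left, inner_smul_left, h1, h2, h3, h4, k3, RCLike.conj_to_real]

theorem Fr3.ocsI (h : QT T) (f : Fr3 T u₀ x) : OCS (fI T u₀ x) := by
  refine ⟨fun w => ?_, fun w w' => ?_⟩
  · obtain ⟨a, b, c, d, v, hv, rfl⟩ := f.exists_mk h w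
    rw [f.fI_mk h _ _ _ _ hv, f.fI_mk h _ _ _ _ (h.rho_mem f.unit hv (f.mem 0)), f.sq h 0 hv]
    simp only [mkE]
    module
  · obtain ⟨a, b, c, d, v, hv, rfl⟩ := f.exists_mk h w
    obtain ⟨a', b', c', d', v', hv', rfl⟩ := f.exists_mk h w'
    rw [f.fI_mk h _ _ _ _ hv, f.fI_mk h _ _ _ _ hv', f.mk_inner_mk h _ _ _ _ _ _ _ _ hv hv',
      f.mk_inner_mk h _ _ _ _ _ _ _ _ (h.rho_mem f.unit hv (f.mem 0))
        (h.rho_mem f.unit hv' (f.mem 0)), f.isom h 0 hv hv']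
    ring

theorem Fr3.ocsJ (h : QT T) (f : Fr3 T u₀ x) : OCS (fJ T u₀ x) := by
  refine ⟨fun w => ?_, fun w w' => ?_⟩
  · obtain ⟨a, b, c, d, v, hv, rfl⟩ := f.exists_mk h w
    rw [f.fJ_mk h _ _ _ _ hv, f.fJ_mk h _ _ _ _ (h.rho_mem f.unit hv (f.mem 1)), f.sq h 1 hv]
    simp only [mkE]
    module
  · obtain ⟨a, b, c, d, v, hv, rfl⟩ := f.exists_mk h w
    obtain ⟨a', b', c', d', v', hv', rfl⟩ := f.exists_mk h w'
    rw [f.fJ_mk h _ _ _ _ hv, f.fJ_mk h _ _ _ _ hv', f.mk_inner_mk h _ _ _ _ _ _ _ _ hv hv',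
      f.mk_inner_mk h _ _ _ _ _ _ _ _ (h.rho_mem f.unit hv (f.mem 1))
        (h.rho_mem f.unit hv' (f.mem 1)), f.isom h 1 hv hv']
    ring

theorem Fr3.qcs (h : QT T) (f : Fr3 T u₀ x)
    (hq : ∀ v, T u₀ u₀ v = 0 → rho T u₀ (x 0) (rho T u₀ (x 1) v) = rho T u₀ (x 2) v) :
    QCS (fI T u₀ x) (fJ T u₀ x) (fI T u₀ x ∘ₗ fJ T u₀ x) := by
  have hI := f.ocsI h
  have hJ := f.ocsJ h
  refine ⟨hI, hJ, ⟨fun w => ?_, fun w w' => ?_⟩, fun w => rfl⟩
  · have h0 : ∀ v, T u₀ u₀ v = 0 → ∀ i, T u₀ u₀ (rho T u₀ (x i) v) = 0 :=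
      fun v hv i => h.rho_mem f.unit hv (f.mem i)
    obtain ⟨a, b, c, d, v, hv, rfl⟩ := f.exists_mk h w
    simp only [LinearMap.comp_apply]
    rw [f.fJ_mk h _ _ _ _ hv, f.fI_mk h _ _ _ _ (h0 v hv 1), hq v hv,
      f.fJ_mk h _ _ _ _ (h0 v hv 2), f.fI_mk h _ _ _ _ (h0 _ (h0 v hv 2) 1),
      hq _ (h0 v hv 2), f.sq h 2 hv]
    simp only [mkE]
    module
  · show (inner ℝ (fI T u₀ x (fJ T u₀ x w)) (fI T u₀ x (fJ T u₀ x w')) : ℝ) = _
    rw [hI.isom, hJ.isom]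

theorem Fr3.rho_mk (h : QT T) (f : Fr3 T u₀ x) (a b c d : ℝ) {v : V} (hv : T u₀ u₀ v = 0) :
    rho T u₀ (mkE u₀ x a b c d 0) v =
      a • v + b • rho T u₀ (x 0) v + c • rho T u₀ (x 1) v + d • rho T u₀ (x 2) v := by
  simp only [mkE, map_add, map_smul, LinearMap.add_apply, LinearMap.smul_apply,
    h.rho_one f.unit hv, add_zero]

theorem Fr3.fibI (h : QT T) (f : Fr3 T u₀ x)
    (hq : ∀ v, T u₀ u₀ v = 0 → rho T u₀ (x 0) (rho T u₀ (x 1) v) = rho T u₀ (x 2) v) (u : V) :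
    T u u (fI T u₀ x u) = (inner ℝ u u : ℝ) • fI T u₀ x u := by
  obtain ⟨a, b, c, d, v, hv, rfl⟩ := f.exists_mk h u
  have h0 : ∀ v, T u₀ u₀ v = 0 → ∀ i, T u₀ u₀ (rho T u₀ (x i) v) = 0 :=
    fun v hv i => h.rho_mem f.unit hv (f.mem i)
  have e0 : ∀ a b c d : ℝ, ∀ v : V, mkE u₀ x a b c d v = mkE u₀ x a b c d 0 + v :=
    fun a b c d v => by simp only [mkE, add_zero]
  have h1 := h.key3 f.unit (a := mkE u₀ x a b c d 0) (c := mkE u₀ x (-b) a (-d) c 0) (v := v)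
    (x := x 0) (f.T_mk h _ _ _ _ (map_zero _)) (f.T_mk h _ _ _ _ (map_zero _)) hv (f.mem 0)
    (by
      intro v hv
      rw [f.rho_mk h _ _ _ _ hv, f.rho_mk h _ _ _ _ hv]
      simp only [map_add, map_smul]
      rw [f.sq h 0 hv, hq v hv, ← hq v hv, f.sq h 0 (h0 v hv 1)]
      module)
  rw [f.fI_mk h _ _ _ _ hv, e0 a b c d v, e0 (-b) a (-d) c]
  exact h1

theorem Fr3.fibJ (h : QT T) (f : Fr3 T u₀ x)
    (hq : ∀ v, T u₀ u₀ v = 0 → rho T u₀ (x 0) (rho T u₀ (x 1) v) = rho T u₀ (x 2) v) (u : V) :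
    T u u (fJ T u₀ x u) = (inner ℝ u u : ℝ) • fJ T u₀ x u := by
  obtain ⟨a, b, c, d, v, hv, rfl⟩ := f.exists_mk h u
  have h0 : ∀ v, T u₀ u₀ v = 0 → ∀ i, T u₀ u₀ (rho T u₀ (x i) v) = 0 :=
    fun v hv i => h.rho_mem f.unit hv (f.mem i)
  have e0 : ∀ a b c d : ℝ, ∀ v : V, mkE u₀ x a b c d v = mkE u₀ x a b c d 0 + v :=
    fun a b c d v => by simp only [mkE, add_zero]
  have h1 := h.key3 f.unit (a := mkE u₀ x a b c d 0) (c := mkE u₀ x (-c) d a (-b) 0) (v := v)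
    (x := x 1) (f.T_mk h _ _ _ _ (map_zero _)) (f.T_mk h _ _ _ _ (map_zero _)) hv (f.mem 1)
    (by
      intro v hv
      rw [f.rho_mk h _ _ _ _ hv, f.rho_mk h _ _ _ _ hv]
      simp only [map_add, map_smul]
      have k1 : rho T u₀ (x 1) (rho T u₀ (x 0) v) = -rho T u₀ (x 2) v := by
        rw [f.anti h (by decide) hv, hq v hv]
      have k2 : rho T u₀ (x 1) (rho T u₀ (x 2) v) = rho T u₀ (x 0) v := by
        rw [← hq v hv, f.anti h (by decide) (h0 v hv 1), f.sq h 1 hv, map_neg, neg_neg]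
      rw [f.sq h 1 hv, k1, k2]
      module)
  rw [f.fJ_mk h _ _ _ _ hv, e0 a b c d v, e0 (-c) d a (-b)]
  exact h1

/-- two elements of a fibre -/
theorem QT.trans (h : QT T) {u v w : V} (hu : (inner ℝ u u : ℝ) = 1) (hv : (inner ℝ v v : ℝ) = 1)
    (huv : T u u v = v) (hvw : T v v w = w) : T u u w = w := by
  rw [h.clos1 hu huv, hv, one_smul] at hvw
  exact hvw

theorem OCS.self_perp {J : V →ₗ[ℝ] V} (h : OCS J) (v : V) : (inner ℝ v (J v) : ℝ) = 0 := by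
  have h1 := h.skew v v
  rw [real_inner_comm] at h1
  linarith

theorem QT.exists_QCS (h : QT T) (hu : (inner ℝ u₀ u₀ : ℝ) = 1) :
    ∃ I J K : V →ₗ[ℝ] V, QCS I J K ∧ ∀ u w, (inner ℝ u u : ℝ) = 1 →
      T u u w = (inner ℝ u w : ℝ) • u + ((inner ℝ (I u) w : ℝ) • I u +
        (inner ℝ (J u) w : ℝ) • J u + (inner ℝ (K u) w : ℝ) • K u) := by
  obtain ⟨x, f, hq⟩ := h.exists_frame hu
  have q := f.qcs h hq
  set I := fI T u₀ x with hI
  set J := fJ T u₀ x with hJ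
  set K := I ∘ₗ J with hK
  refine ⟨I, J, K, q, fun u w hu1 => ?_⟩
  have t1 : T u u (I u) = I u := by
    have := f.fibI h hq u
    rwa [hu1, one_smul] at this
  have t2 : T u u (J u) = J u := by
    have := f.fibJ h hq u
    rwa [hu1, one_smul] at this
  have hJ1 : (inner ℝ (J u) (J u) : ℝ) = 1 := by rw [q.hJ.isom, hu1]
  have t3 : T u u (K u) = K u := by
    have h1 := f.fibI h hq (J u)
    rw [hJ1, one_smul] at h1
    exact h.trans hu1 hJ1 t2 h1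
  have p1 : (inner ℝ u (I u) : ℝ) = 0 := OCS.self_perp q.hI u
  have p2 : (inner ℝ u (J u) : ℝ) = 0 := OCS.self_perp q.hJ u
  have p3 : (inner ℝ u (K u) : ℝ) = 0 := OCS.self_perp q.hK u
  have p4 : (inner ℝ (I u) (J u) : ℝ) = 0 := by
    rw [q.hI.skew, q.mul, p3, neg_zero]
  have p5 : (inner ℝ (I u) (K u) : ℝ) = 0 := by
    rw [← q.mul, q.hI.isom, p2]
  have p6 : (inner ℝ (J u) (K u) : ℝ) = 0 := by
    rw [← q.mul]
    exact OCS.self_perp q.hI (J u)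
  have n1 : (inner ℝ (I u) (I u) : ℝ) = 1 := by rw [q.hI.isom, hu1]
  have n3 : (inner ℝ (K u) (K u) : ℝ) = 1 := by rw [q.hK.isom, hu1]
  have m1 : ‖I u‖ = 1 := by rw [← sq_eq_sq₀ (norm_nonneg _) zero_le_one,
    ← real_inner_self_eq_norm_sq, n1, one_pow]
  have m2 : ‖J u‖ = 1 := by rw [← sq_eq_sq₀ (norm_nonneg _) zero_le_one,
    ← real_inner_self_eq_norm_sq, hJ1, one_pow]
  have m3 : ‖K u‖ = 1 := by rw [← sq_eq_sq₀ (norm_nonneg _) zero_le_one,
    ← real_inner_self_eq_norm_sq, n3, one_pow]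
  have p4' : (inner ℝ (J u) (I u) : ℝ) = 0 := by rw [real_inner_comm]; exact p4
  have p5' : (inner ℝ (K u) (I u) : ℝ) = 0 := by rw [real_inner_comm]; exact p5
  have p6' : (inner ℝ (K u) (J u) : ℝ) = 0 := by rw [real_inner_comm]; exact p6
  have hon : Orthonormal ℝ ![I u, J u, K u] := by
    rw [orthonormal_iff_ite]
    intro i j
    fin_cases i <;> fin_cases j <;> simp [p4, p5, p6, p4', p5', p6', m1, m2, m3]
  have h1 := h.rank u hu1 ![I u, J u, K u] hon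
    (by intro i; fin_cases i <;> simp [p1, p2, p3])
    (by intro i; fin_cases i <;> simp [t1, t2, t3]) w
  rw [Fin.sum_univ_three] at h1
  simpa using h1

end

end Vale.Agent.P231.WR
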